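import Claimed.Agent.R280.Ins.Top
import Claimed.Agent.R280.Gauss.TwPlaces

/-!
# Row 280, package TC (thm C): `InsData` from the residue side of a `TwBase`, hence `TwBase.insepGenus`

`F ⊆ S` cyclic, `ES = S(x0,y0)` the function field of the constant curve `W0`, `EE` its twist.

PLAN.
* TC1 `exists_frame` (~300): `θ :=` the basis `∂/∂s_j` of `Der S` of a `p`-basis of `S` (`exists_isPBasis T.R.pdeg`, `IsPBasis.pd`); it kills the coefficients of `W0`
  (`T.R.const`: they are `p`-th powers); `D 0` from `IsWFF.exists_invDer`, `D j.succ` from `IsWFF.exists_extDer`; `IsWFF.frame`.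
* TC2 `exists_labels` (~500): the permutation `π` of `I` with `t (π i) = twAct σb Qb (t i)` (`t_stable`, `t_inj`, injectivity of `twAct`, finiteness);
  `IsTwist.nonempty_twFam`; `tS := pl`.  `tS i` lies over `P ⟦i⟧`, which is marked, so it is some `t l` (`ht'`).  Conversely `t l` is marked by some `i`,
  so `t l = P ⟦i⟧` (uniqueness of the place below) and `over_iff`.
* TC3 `label_unif`, `label_cov` (~400): `t i = (α, β) ≠ O` (`db_zero`, `t_d`), `u = 2β + a₁α + a₃ ≠ 0` because `t i ≠ - t i` (`t_neg`); `IsWFF.unif_x`;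
  `D 0 (x0 - α) = 2 y0 + a₁ x0 + a₃ ≡ u` (`IsAtXY`), `D j.succ (x0 - α) = - θ j α` exactly.
* TC4 `label_rank` (~500): `T.R.rank A`: the range of `θ' ↦ (θ' α_i)_{i ∈ A}` has dimension `rank (θ_j α_i)_{i,j}` (`θ` is a basis), `Matrix.rank_transpose`:
  `= dim span of the rows (θ_j α_i)_j`, which is the image of `span (cov i)` under the projection forgetting the coordinate `0` (up to sign).
* `insData`, `insepGenus_pf`: PROVED below.
ALL PROVED (TC1-TC4: helper196) from the statements of Ell2, Ell7, Ins/PBasis (P1, P7), Gauss/TwPlaces, FF7.   Owner of the statements: helper66.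
-/

set_option autoImplicit false

namespace Claimed.Agent.R280

open WithZero WeierstrassCurve
open scoped Classical

/-- the `y`-coordinate of a point (junk `0` at the origin) -/
def ptY {k : Type} [Field k] {W : WeierstrassCurve k} : W.toAffine.Point → k
  | .zero => 0
  | .some _ b _ => b

namespace TwBase

variable {p : ℕ} [Fact p.Prime] {L XX : Type} [Field L] [Field XX] [Algebra L XX] (T : TwBase p L XX)

instance ffEE : IsFF T.R.F T.EE := T.twF.isFF

/-- a frame as in `IsWFF.frame` -/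
structure Frame where
  θ : Fin T.R.pd → Der T.R.S
  D : Fin (T.R.pd + 1) → Der T.ES
  θ_basis : ∀ θ' : Der T.R.S, ∃! c : Fin T.R.pd → T.R.S, θ' = ∑ j, c j • θ j
  D0_const : ∀ c : T.R.S, D 0 (algebraMap T.R.S T.ES c) = 0
  D0_x : D 0 T.x0 = 2 * T.y0 + algebraMap T.R.S T.ES (T.R.W0.baseChange T.R.S).a₁ * T.x0
    + algebraMap T.R.S T.ES (T.R.W0.baseChange T.R.S).a₃
  Dj_const : ∀ (j : Fin T.R.pd) (c : T.R.S), D j.succ (algebraMap T.R.S T.ES c) = algebraMap T.R.S T.ES (θ j c)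
  Dj_x : ∀ j : Fin T.R.pd, D j.succ T.x0 = 0
  D_basis : ∀ D' : Der T.ES, ∃! c : Fin (T.R.pd + 1) → T.ES, D' = ∑ k, c k • D k
  D_int : ∀ (P : Place T.R.S T.ES) (c : Fin (T.R.pd + 1) → T.ES),
    (∀ f : T.ES, P.v f ≤ 1 → P.v ((∑ k, c k • D k) f) ≤ 1) ↔ ∀ k, P.v (c k) ≤ 1

omit [Fact p.Prime] in
/-- a derivation kills `p`-th powers -/
theorem ftw_der_pow {M : Type} [Field M] [CharP M p] (θ : Der M) (c : M) : θ (c ^ p) = 0 := by
  rw [Derivation.leibniz_pow, ← Nat.cast_smul_eq_nsmul M p, CharP.cast_eq_zero, zero_smul]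

/-- a basis in the `∃!` format -/
theorem ftw_basis_existsUnique {K V : Type} [Field K] [AddCommGroup V] [Module K V] {n : ℕ}
    (b : Module.Basis (Fin n) K V) (w : V) : ∃! c : Fin n → K, w = ∑ j, c j • b j := by
  refine ⟨fun j => b.repr w j, (b.sum_repr w).symm, ?_⟩
  intro c hc
  funext j
  rw [hc, b.repr_sum_self]

/-- TC1 -/
theorem exists_frame : Nonempty T.Frame := by
  obtain ⟨s, hs⟩ := exists_isPBasis p (M := T.R.S) (r := T.R.pd) T.R.pdeg
  have hwff := T.twF.wff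
  have hΔ : (T.R.W0.baseChange T.R.S).Δ ≠ 0 := by
    rw [WeierstrassCurve.baseChange, WeierstrassCurve.map_Δ]
    exact (map_ne_zero _).2 T.R.hΔ
  obtain ⟨⟨c1, h1⟩, ⟨c2, h2⟩, ⟨c3, h3⟩, ⟨c4, h4⟩, ⟨c6, h6⟩⟩ := T.R.const
  have hkill : ∀ θ : Der T.R.S, θ (T.R.W0.baseChange T.R.S).a₁ = 0 ∧ θ (T.R.W0.baseChange T.R.S).a₂ = 0 ∧
      θ (T.R.W0.baseChange T.R.S).a₃ = 0 ∧ θ (T.R.W0.baseChange T.R.S).a₄ = 0 ∧
      θ (T.R.W0.baseChange T.R.S).a₆ = 0 := by
    intro θ
    refine ⟨?_, ?_, ?_, ?_, ?_⟩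
    · show θ (algebraMap T.R.F T.R.S T.R.W0.a₁) = 0
      rw [← h1, map_pow, ftw_der_pow]
    · show θ (algebraMap T.R.F T.R.S T.R.W0.a₂) = 0
      rw [← h2, map_pow, ftw_der_pow]
    · show θ (algebraMap T.R.F T.R.S T.R.W0.a₃) = 0
      rw [← h3, map_pow, ftw_der_pow]
    · show θ (algebraMap T.R.F T.R.S T.R.W0.a₄) = 0
      rw [← h4, map_pow, ftw_der_pow]
    · show θ (algebraMap T.R.F T.R.S T.R.W0.a₆) = 0
      rw [← h6, map_pow, ftw_der_pow]
  obtain ⟨D0, ⟨hD0c, hD0x, -⟩, -⟩ := hwff.exists_invDer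
  choose Dj hDj using fun j : Fin T.R.pd => (hwff.exists_extDer (hs.pd j) (hkill _)).exists
  have hθ : ∀ θ' : Der T.R.S, ∃! c : Fin T.R.pd → T.R.S, θ' = ∑ j, c j • hs.pd j :=
    ftw_basis_existsUnique hs.pd
  obtain ⟨hb, hint⟩ := hwff.frame hΔ (fun j => hs.pd j) hθ (fun j => hkill _)
    (Fin.cons D0 Dj : Fin (T.R.pd + 1) → Der T.ES) ⟨hD0c, hD0x⟩ hDj
  exact ⟨{
    θ := fun j => hs.pd j
    D := Fin.cons D0 Dj
    θ_basis := hθ
    D0_const := hD0c
    D0_x := hD0x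
    Dj_const := fun j => (hDj j).1
    Dj_x := fun j => (hDj j).2.1
    D_basis := hb
    D_int := hint }⟩

/-- TC2 -/
theorem exists_labels {Lam : Type} (t : Lam → Place T.R.F T.EE) (ht' : ∀ P, P ∈ Set.range t ↔ T.IsMarkedF P) :
    ∃ tS : T.R.I → Place T.R.S T.ES, Function.Injective tS ∧ (∀ i, (tS i).deg = 1) ∧
      (∀ i, (tS i).IsAtPt T.x0 T.y0 (T.R.t i)) ∧
      ∀ Q : Place T.R.S T.ES, Q ∈ Set.range tS ↔ ∃ l, Q.Over (t l) := by
  -- the permutation of the labels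
  choose f hf using T.R.t_stable
  have hfinj : Function.Injective f := by
    intro i i' h
    apply T.R.t_inj
    have h1 : Affine.Point.map (W' := T.R.W0.toAffine) T.R.σb.toAlgHom (T.R.t i) - T.R.Qb =
        Affine.Point.map (W' := T.R.W0.toAffine) T.R.σb.toAlgHom (T.R.t i') - T.R.Qb := by
      rw [← hf, ← hf, h]
    exact Affine.Point.map_injective _ (sub_left_injective h1)
  let π : Equiv.Perm T.R.I := Equiv.ofBijective f (Finite.injective_iff_bijective.1 hfinj)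
  have hπ : ∀ i, T.R.t (π i) = twAct T.R.σb T.R.Qb (T.R.t i) := hf
  obtain ⟨A⟩ := T.twF.nonempty_twFam T.R.hΔ T.R.t T.R.t_inj π hπ
  have hΔ : (T.R.W0.baseChange T.R.S).Δ ≠ 0 := by
    rw [WeierstrassCurve.baseChange, WeierstrassCurve.map_Δ]
    exact (map_ne_zero _).2 T.R.hΔ
  have hover : ∀ i, (A.pl i).Over (A.P (Cyc.mk π i)) := fun i => (A.over_iff _ _).2 ⟨i, rfl, rfl⟩
  refine ⟨A.pl, A.pl_inj, A.pl_deg, A.pl_at, fun Q => ⟨?_, ?_⟩⟩
  · rintro ⟨i, rfl⟩
    obtain ⟨l, hl⟩ := (ht' (A.P (Cyc.mk π i))).2 ⟨i, A.pl i, A.pl_at i, hover i⟩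
    exact ⟨l, hl ▸ hover i⟩
  · rintro ⟨l, hl⟩
    obtain ⟨i, P1, hP1, hP1'⟩ := (ht' (t l)).1 ⟨l, rfl⟩
    have e1 : P1 = A.pl i := (T.twF.wff.existsUnique_atPt hΔ (T.R.t i)).unique hP1 (A.pl_at i)
    have e2 : t l = A.P (Cyc.mk π i) :=
      (Place.existsUnique_below_constExt T.twF.po (A.pl i)).unique (e1 ▸ hP1') (hover i)
    obtain ⟨i', -, rfl⟩ := (A.over_iff _ _).1 (e2 ▸ hl)
    exact ⟨i', rfl⟩

/-- the uniformiser `x0 - α_i` -/
noncomputable def labA (i : T.R.I) : T.ES := T.x0 - algebraMap T.R.S T.ES (ptX (T.R.t i))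

/-- the covector `(u_i, - θ_j α_i)` -/
noncomputable def labCov (Fr : T.Frame) (i : T.R.I) : Fin (T.R.pd + 1) → T.R.S :=
  Fin.cons (2 * ptY (T.R.t i) + (T.R.W0.baseChange T.R.S).a₁ * ptX (T.R.t i) + (T.R.W0.baseChange T.R.S).a₃)
    fun j => - Fr.θ j (ptX (T.R.t i))

/-- the labels are affine and not `2`-torsion -/
theorem ftw_label_cases (i : T.R.I) : ∃ (α β : T.R.S) (h : (T.R.W0.baseChange T.R.S).toAffine.Nonsingular α β),
    T.R.t i = Affine.Point.some α β h ∧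
      2 * β + (T.R.W0.baseChange T.R.S).a₁ * α + (T.R.W0.baseChange T.R.S).a₃ ≠ 0 := by
  rcases ht : T.R.t i with _ | ⟨α, β, h⟩
  · obtain ⟨j, hj⟩ := T.R.db_zero
    exact absurd (ht.trans hj.symm) (T.R.t_d i j)
  · refine ⟨α, β, h, rfl, fun h0 => T.R.t_neg i i ?_⟩
    rw [ht, Affine.Point.neg_some]
    congr 1
    rw [Affine.negY]
    linear_combination h0

/-- TC3 -/
theorem label_unif (i : T.R.I) (Q : Place T.R.S T.ES) (hQ : Q.IsAtPt T.x0 T.y0 (T.R.t i)) :
    Q.v (T.labA i) = exp (-1) := by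
  obtain ⟨α, β, h, ht, hne⟩ := T.ftw_label_cases i
  have hΔ : (T.R.W0.baseChange T.R.S).Δ ≠ 0 := by
    rw [WeierstrassCurve.baseChange, WeierstrassCurve.map_Δ]
    exact (map_ne_zero _).2 T.R.hΔ
  unfold labA
  rw [ht] at hQ ⊢
  exact T.twF.wff.unif_x hΔ hQ hne

theorem label_cov (Fr : T.Frame) (i : T.R.I) (Q : Place T.R.S T.ES) (hQ : Q.IsAtPt T.x0 T.y0 (T.R.t i))
    (k : Fin (T.R.pd + 1)) : Q.v (Fr.D k (T.labA i) - algebraMap T.R.S T.ES (T.labCov Fr i k)) < 1 := by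
  obtain ⟨α, β, h, ht, -⟩ := T.ftw_label_cases i
  unfold labA labCov
  rw [ht] at hQ ⊢
  have hQ' : Q.IsAtXY T.x0 T.y0 α β := hQ
  refine Fin.cases ?_ (fun j => ?_) k
  · have e : Fr.D 0 (T.x0 - algebraMap T.R.S T.ES α) - algebraMap T.R.S T.ES
        (2 * β + (T.R.W0.baseChange T.R.S).a₁ * α + (T.R.W0.baseChange T.R.S).a₃) =
        algebraMap T.R.S T.ES 2 * (T.y0 - algebraMap T.R.S T.ES β) +
          algebraMap T.R.S T.ES (T.R.W0.baseChange T.R.S).a₁ * (T.x0 - algebraMap T.R.S T.ES α) := by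
      rw [map_sub, Fr.D0_const, Fr.D0_x]
      simp only [map_add, map_mul, map_ofNat]
      ring
    show Q.v (Fr.D 0 (T.x0 - algebraMap T.R.S T.ES α) - algebraMap T.R.S T.ES
        (2 * β + (T.R.W0.baseChange T.R.S).a₁ * α + (T.R.W0.baseChange T.R.S).a₃)) < 1
    rw [e]
    refine lt_of_le_of_lt (Q.v.map_add _ _) (max_lt ?_ ?_)
    · rw [map_mul]
      exact lt_of_le_of_lt (mul_le_of_le_one_left' (Q.v_algebraMap_le_one_ell _)) hQ'.2
    · rw [map_mul]
      exact lt_of_le_of_lt (mul_le_of_le_one_left' (Q.v_algebraMap_le_one_ell _)) hQ'.1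
  · show Q.v (Fr.D j.succ (T.x0 - algebraMap T.R.S T.ES α) - algebraMap T.R.S T.ES (- Fr.θ j α)) < 1
    have e : Fr.D j.succ (T.x0 - algebraMap T.R.S T.ES α) - algebraMap T.R.S T.ES (- Fr.θ j α) = 0 := by
      rw [map_sub, Fr.Dj_x, Fr.Dj_const, map_neg]
      ring
    rw [e, map_zero]
    exact zero_lt_one

/-- TC4 -/
theorem label_rank (Fr : T.Frame) (A : Finset T.R.I) :
    A.card ≤ Module.finrank T.R.S (Submodule.span T.R.S (T.labCov Fr '' (A : Set T.R.I))) + T.R.u := by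
  refine (T.R.rank A).trans (Nat.add_le_add_right ?_ _)
  -- the matrix `(θ_j α_i)`
  let N : Matrix A (Fin T.R.pd) T.R.S := fun i j => Fr.θ j (ptX (T.R.t i.1))
  -- forget the coordinate `0` and change the sign
  let π : (Fin (T.R.pd + 1) → T.R.S) →ₗ[T.R.S] (Fin T.R.pd → T.R.S) :=
    { toFun := fun c j => - c j.succ
      map_add' := fun c c' => by
        funext j
        simp only [Pi.add_apply, neg_add]
      map_smul' := fun a c => by
        funext j
        simp only [Pi.smul_apply, smul_eq_mul, RingHom.id_apply, mul_neg] }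
  have h1 : Module.finrank T.R.S (LinearMap.range ((LinearMap.pi fun i : A =>
      ({ toFun := fun θ : Der T.R.S => θ (ptX (T.R.t i.1))
         map_add' := fun _ _ => rfl
         map_smul' := fun _ _ => rfl } : Der T.R.S →ₗ[T.R.S] T.R.S)) : Der T.R.S →ₗ[T.R.S] (A → T.R.S))) ≤
      N.rank := by
    apply Submodule.finrank_mono
    rintro _ ⟨θ', rfl⟩
    obtain ⟨c, hc, -⟩ := Fr.θ_basis θ'
    refine ⟨c, ?_⟩
    funext i
    show N.mulVec c i = θ' (ptX (T.R.t i.1))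
    rw [hc, der_sum_apply_ell, Matrix.mulVec, dotProduct]
    exact Finset.sum_congr rfl fun j _ => mul_comm _ _
  have h2 : Submodule.span T.R.S (Set.range N.row) ≤
      (Submodule.span T.R.S (T.labCov Fr '' (A : Set T.R.I))).map π := by
    rw [Submodule.span_le]
    rintro _ ⟨i, rfl⟩
    refine ⟨T.labCov Fr i.1, Submodule.subset_span ⟨i.1, i.2, rfl⟩, ?_⟩
    funext j
    show - T.labCov Fr i.1 j.succ = N i j
    unfold labCov
    rw [Fin.cons_succ, neg_neg]
  calc _ ≤ N.rank := h1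
    _ = Module.finrank T.R.S (Submodule.span T.R.S (Set.range N.row)) := N.rank_eq_finrank_span_row
    _ ≤ Module.finrank T.R.S ((Submodule.span T.R.S (T.labCov Fr '' (A : Set T.R.I))).map π) :=
      Submodule.finrank_mono h2
    _ ≤ _ := Submodule.finrank_map_le π _

theorem chiES : chi T.R.S T.ES = 0 := by
  refine T.twF.wff.chi_eq_zero ?_
  rw [WeierstrassCurve.baseChange, WeierstrassCurve.map_Δ]
  exact (map_ne_zero _).2 T.R.hΔ

/-- **thm C** -/
theorem insepGenus_pf (m : ℕ) (hm : m * (T.R.u + Nat.log p m) < T.N) {Lam : Type} [Fintype Lam]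
    (t : Lam → Place T.R.F T.EE) (ht : Function.Injective t)
    (ht' : ∀ P, P ∈ Set.range t ↔ T.IsMarkedF P) : InsepGenus T.R.F T.EE t m := by
  obtain ⟨Fr⟩ := T.exists_frame
  obtain ⟨tS, h1, h2, h3, h4⟩ := T.exists_labels t ht'
  let C : InsData p m T.R.u :=
    { F := T.R.F, S := T.R.S, EE := T.EE, ES := T.ES
      po := T.twF.po, n := T.R.pd, pdeg := T.R.pdeg, chi0 := T.chiES
      D := Fr.D, D_basis := Fr.D_basis, D_int := Fr.D_int
      Lam := Lam, t := t, t_inj := ht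
      I := T.R.I, tS := tS, tS_inj := h1, tS_deg := h2, tS_iff := h4
      a := T.labA, a_unif := fun i => T.label_unif i _ (h3 i)
      cov := T.labCov Fr, cov_spec := fun i k => T.label_cov Fr i _ (h3 i) k
      rank := T.label_rank Fr
      N := T.N, index := T.index, N_large := hm }
  exact ins_main p m T.R.u C

end TwBase

end Claimed.Agent.R280
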