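import Claimed.Agent.R280.Ins.Cartier

/-!
# Row 280, Ins package D3c `AbsDetThm`: `ν = κ` for all purely inseparable covers of `ES`  ([D] Prop. 5.3, as far as needed)

The paper proves `deg det Ω_{C/κ} = ν(C)` by a projective embedding, Koszul complexes and duality on `ℙ^b`.  Here: induction along a tower of
purely inseparable extensions of degree `p` starting from `ES`, where the global frame `C.D` gives `κ = 0 = ν`.

PLAN.
* `finite_not_isTBasis_step`: at almost all `Q'`: `X.θG` is a local frame, `c`, `y` are integral, so `(c,y)` is a `p`-basis on `O_{Q'}`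
  (`isPBasisOn_of_isTBasis`); the basis `b^I` of `M/G` (`Adapted.free`) is integral at almost all `Q'` (`finite_not_isIntBasis`); P9 `IsPBasisOn.extend`;
  `IsPBasisOn.isTBasis` (`pd` does not depend on the proof).
* `absDet_step`: PROVED below from D1, D2, D3a, D3b.
* `absDet_base`: `C.D_basis` makes `C.D` a `Module.Basis`, `C.D_int` says it is a local frame everywhere; `kap D (fun _ => D) = 0`, `C.chi0`;
  `absDet_of_frames`.
* `AbsDet.of_bijective`: transport along `E ≃ M` (places, `deg`, `ord`, `Der`, `nu`).
* `exists_index_p`: a maximal proper intermediate field `G`; for `x ∉ G`: `G(x) = M`, `G(x^p) ≠ G(x)`, so `x^p ∈ G`, `[M:G] = p`.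
* `absDet_of_purelyInseparable`: induction on `k`, `[M:E] = p^k` (`IsPurelyInseparable.finrank_eq_pow` or via `exists_index_p`), all `M : Type` at once.
~900 lines.   Owner of the statements: helper66.
-/

set_option autoImplicit false

namespace Claimed.Agent.R280

open WithZero

section Step

variable {p : ℕ} [Fact p.Prime] {S G M : Type} [Field S] [Field G] [Field M] [Algebra S G] [Algebra S M]
  [Algebra G M] [IsScalarTower S G M] [CharP S p] [CharP G p] [CharP M p] [IsFF S G] [IsFF S M] [Module.Finite G M]

omit [Fact p.Prime] [Field M] [Algebra S M] [Algebra G M] [IsScalarTower S G M] [CharP S p] [CharP G p]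
  [CharP M p] [IsFF S M] [Module.Finite G M] in
theorem absd_finite_one_lt (f : G) : {Q' : Place S G | 1 < Q'.v f}.Finite := by
  by_cases hf : f = 0
  · have : {Q' : Place S G | 1 < Q'.v f} = ∅ := by
      ext Q'
      simp [hf]
    rw [this]
    exact Set.finite_empty
  · exact (finite_setOf_v_ne_one hf).subset fun Q' hQ' => ne_of_gt hQ'

omit [Fact p.Prime] [Field S] [Algebra S G] [Algebra S M] [IsScalarTower S G M] [CharP S p] [CharP G p]
  [CharP M p] [IsFF S G] [IsFF S M] [Module.Finite G M] in
/-- a bijective monomial map gives a basis -/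
theorem absd_exists_monBasis {a : ℕ} (b : Fin a → M)
    (hfree : Function.Bijective fun g : (Fin a → Fin p) → G => ∑ I, algebraMap G M (g I) * pmon b I) :
    ∃ B : Module.Basis (Fin a → Fin p) G M, ∀ (g : (Fin a → Fin p) → G) (I : Fin a → Fin p),
      B.repr (∑ I, algebraMap G M (g I) * pmon b I) I = g I := by
  let L : ((Fin a → Fin p) → G) →ₗ[G] M :=
    { toFun := fun g => ∑ I, algebraMap G M (g I) * pmon b I
      map_add' := fun g g' => by
        simp only [Pi.add_apply, map_add, add_mul, Finset.sum_add_distrib]
      map_smul' := fun c g => by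
        simp only [Pi.smul_apply, smul_eq_mul, map_mul, RingHom.id_apply, Finset.mul_sum,
          Algebra.smul_def, mul_assoc] }
  let e : ((Fin a → Fin p) → G) ≃ₗ[G] M := LinearEquiv.ofBijective L hfree
  refine ⟨Module.Basis.ofEquivFun e.symm, fun g I => ?_⟩
  rw [Module.Basis.ofEquivFun_repr_apply]
  have : e.symm (∑ I, algebraMap G M (g I) * pmon b I) = g := by
    rw [LinearEquiv.symm_apply_eq]
    rfl
  rw [this]

theorem finite_not_isTBasis_step (hpow : ∀ x : M, ∃ g : G, algebraMap G M g = x ^ p) {a s : ℕ}
    (X : Adapted p G M ⊤ ⊤ a s) (finG : {Q' : Place S G | ¬ IsTBasis Q' X.θG}.Finite) :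
    {Q : Place S M | ¬ IsTBasis Q X.θM}.Finite := by
  classical
  have hp : p.Prime := Fact.out
  have : ExpChar G p := ExpChar.prime hp
  have hPI : IsPurelyInseparable G M := (isPurelyInseparable_iff_pow_mem G p).2 fun x => by
    obtain ⟨g, hg⟩ := hpow x
    exact ⟨1, g, by rw [hg, pow_one]⟩
  obtain ⟨hfree, -⟩ := X.free hpow (fun g => by simp)
  obtain ⟨B, hB⟩ := absd_exists_monBasis X.b hfree
  have hbad : ({Q' : Place S G | ¬ IsTBasis Q' X.θG} ∪ (⋃ l, {Q' : Place S G | 1 < Q'.v (X.c l)}) ∪
      (⋃ i, {Q' : Place S G | 1 < Q'.v (X.y i)}) ∪ {Q' : Place S G | ¬ IsIntBasis Q' B}).Finite :=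
    ((finG.union (Set.finite_iUnion fun l => absd_finite_one_lt _)).union
      (Set.finite_iUnion fun i => absd_finite_one_lt _)).union (finite_not_isIntBasis B)
  have hinj : Function.Injective (fun Q : Place S M => Q.belowP G) := by
    intro Q₁ Q₂ h
    have h1 := Q₁.over_belowP G
    have h2 := Q₂.over_belowP G
    simp only at h
    rw [h] at h1
    exact Place.over_unique_of_purelyInseparable h1 h2
  refine (hbad.preimage (hinj.injOn)).subset fun Q hQ => ?_
  by_contra hcon
  apply hQ
  simp only [Set.mem_preimage, Set.mem_union, Set.mem_ofPred_eq, Set.mem_iUnion, not_or, not_not,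
    not_exists, not_lt] at hcon
  obtain ⟨⟨⟨hT, hc⟩, hy⟩, hI⟩ := hcon
  have hov := Q.over_belowP G
  have h1 : IsPBasisOn p (Q.belowP G).O.toSubring (Sum.elim X.c X.y) := by
    refine isPBasisOn_of_isTBasis X.hG.1 ?_ hT
    rintro (l | i)
    · exact hc l
    · exact hy i
  have hint : ∀ g : (Fin a → Fin p) → G, (∑ I, algebraMap G M (g I) * pmon X.b I) ∈ Q.O.toSubring ↔
      ∀ I, g I ∈ (Q.belowP G).O.toSubring := by
    intro g
    have h2 := hI (∑ I, algebraMap G M (g I) * pmon X.b I)
    simp only [hB] at h2
    rw [ValuationSubring.mem_toSubring, Valuation.mem_valuationSubring_iff]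
    simp only [ValuationSubring.mem_toSubring, Valuation.mem_valuationSubring_iff]
    rw [← h2]
    constructor
    · intro h3 R hR
      rw [Place.over_unique_of_purelyInseparable hR hov]
      exact h3
    · intro h3
      exact h3 Q hov
  exact (IsPBasisOn.extend X.hc hfree hint h1).isTBasis

/-- **the induction step of Theorem A** -/
theorem absDet_step {n : ℕ} (hS : HasPDeg p S n) (hpow : ∀ x : M, ∃ g : G, algebraMap G M g = x ^ p)
    (hdeg : Module.finrank G M = p) (hG : AbsDet S G) : AbsDet S M := by
  have hG' : HasPDeg p G (1 + n) := by rw [add_comm]; exact hasPDeg_of_isFF S hS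
  have hdeg' : Module.finrank G M = p ^ 1 := by rw [pow_one]; exact hdeg
  obtain ⟨X⟩ := exists_adapted_field hpow hdeg' hG'
  have XQ : LocAdapted p S G M 1 n := fun Q =>
    (exists_adapted_place hS hpow hdeg' (add_comm 1 n) (Q.over_belowP G)).some
  have finG := hG.finite X.θG
  have finM := finite_not_isTBasis_step hpow X finG
  obtain ⟨-, -, h1, h2⟩ := kap_heightOne hpow hdeg' X XQ finM finG
  refine absDet_of_frames X.θM (fun Q => (XQ Q).θM) finM XQ.isTBasis_M ?_
  rw [h1, nu_step hpow hdeg X XQ, hG.nu_eq X.θG _ XQ.isTBasis_G]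
  rw [pow_one] at h2
  rw [h2]
  ring

end Step

section Conj

variable {A B : Type} [Field A] [Field B]

/-- transport of a derivation along a ring isomorphism -/
noncomputable def absdConj (σ : A ≃+* B) (δ : Der A) : Der B :=
  Derivation.mk' (((σ : A →+ B).comp ((δ : A →ₗ[ℤ] A).toAddMonoidHom.comp (σ.symm : B →+ A))).toIntLinearMap)
    (fun a b => by
      simp only [AddMonoidHom.coe_toIntLinearMap, AddMonoidHom.coe_comp, Function.comp_apply,
        LinearMap.toAddMonoidHom_coe, AddMonoidHom.coe_coe, Derivation.coeFn_coe, map_mul,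
        Derivation.leibniz, map_add, smul_eq_mul, RingEquiv.apply_symm_apply])

theorem absdConj_apply (σ : A ≃+* B) (δ : Der A) (b : B) : absdConj σ δ b = σ (δ (σ.symm b)) := rfl

theorem absdConj_add (σ : A ≃+* B) (δ δ' : Der A) : absdConj σ (δ + δ') = absdConj σ δ + absdConj σ δ' := by
  ext b
  simp [absdConj_apply]

theorem absdConj_smul (σ : A ≃+* B) (a : A) (δ : Der A) : absdConj σ (a • δ) = σ a • absdConj σ δ := by
  ext b
  simp [absdConj_apply]

theorem absdConj_symm (σ : A ≃+* B) (δ : Der A) : absdConj σ.symm (absdConj σ δ) = δ := by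
  ext b
  simp [absdConj_apply]

theorem absdConj_symm' (σ : A ≃+* B) (δ : Der B) : absdConj σ (absdConj σ.symm δ) = δ := by
  ext b
  simp [absdConj_apply]

variable {ι : Type} [Fintype ι]

/-- transport of a frame along a ring isomorphism -/
noncomputable def absdTr (σ : A ≃+* B) (θ : Module.Basis ι B (Der B)) : Module.Basis ι A (Der A) :=
  Module.Basis.ofEquivFun
    { toFun := fun δ k => σ.symm (θ.repr (absdConj σ δ) k)
      invFun := fun c => absdConj σ.symm (θ.equivFun.symm fun k => σ (c k))
      map_add' := fun δ δ' => by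
        ext k
        simp [absdConj_add]
      map_smul' := fun a δ => by
        ext k
        simp [absdConj_smul]
      left_inv := fun δ => by
        have : (fun k => σ (σ.symm (θ.repr (absdConj σ δ) k))) = θ.equivFun (absdConj σ δ) := by
          ext k
          simp
        show absdConj σ.symm (θ.equivFun.symm fun k => σ (σ.symm (θ.repr (absdConj σ δ) k))) = δ
        rw [this, LinearEquiv.symm_apply_apply, absdConj_symm]
      right_inv := fun c => by
        ext k
        show σ.symm (θ.repr (absdConj σ (absdConj σ.symm (θ.equivFun.symm fun k => σ (c k)))) k) = c k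
        rw [absdConj_symm', ← Module.Basis.equivFun_apply, LinearEquiv.apply_symm_apply,
          RingEquiv.symm_apply_apply] }

theorem absdTr_repr (σ : A ≃+* B) (θ : Module.Basis ι B (Der B)) (δ : Der A) (k : ι) :
    (absdTr σ θ).repr δ k = σ.symm (θ.repr (absdConj σ δ) k) := by
  rw [absdTr, Module.Basis.ofEquivFun_repr_apply]
  rfl

theorem absdTr_apply (σ : A ≃+* B) (θ : Module.Basis ι B (Der B)) (i : ι) :
    absdTr σ θ i = absdConj σ.symm (θ i) := by
  classical
  apply (absdTr σ θ).repr.injective
  ext k
  rw [Module.Basis.repr_self, absdTr_repr, absdConj_symm', Module.Basis.repr_self,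
    Finsupp.single_apply, Finsupp.single_apply]
  split_ifs <;> simp

theorem absdTr_det [DecidableEq ι] (σ : A ≃+* B) (θ θ' : Module.Basis ι B (Der B)) :
    σ ((absdTr σ θ).toMatrix (absdTr σ θ')).det = (θ.toMatrix θ').det := by
  have h := RingHom.map_det (σ : A →+* B) ((absdTr σ θ).toMatrix (absdTr σ θ'))
  have h2 : (σ : A →+* B).mapMatrix ((absdTr σ θ).toMatrix (absdTr σ θ')) = θ.toMatrix θ' := by
    ext i j
    simp [Module.Basis.toMatrix_apply, absdTr_repr, absdTr_apply, absdConj_symm']
  rw [h2] at h
  exact h

end Conj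

section Bij

variable {S E M : Type} [Field S] [Field E] [Field M] [Algebra S E] [Algebra S M]
  [Algebra E M] [IsScalarTower S E M]

/-- the place below, for a bijective `algebraMap` -/
noncomputable def absdDn (hb : Function.Bijective (algebraMap E M)) (Q : Place S M) : Place S E where
  v := Q.v.comap (algebraMap E M)
  surj := fun g => by
    obtain ⟨x, hx⟩ := Q.surj g
    obtain ⟨f, rfl⟩ := hb.2 x
    exact ⟨f, hx⟩
  triv := fun a ha => by
    rw [Valuation.comap_apply, ← IsScalarTower.algebraMap_apply]
    exact Q.triv a ha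

theorem absdDn_v (hb : Function.Bijective (algebraMap E M)) (Q : Place S M) (f : E) :
    (absdDn hb Q).v f = Q.v (algebraMap E M f) := rfl

/-- the place above, for a bijective `algebraMap` -/
noncomputable def absdUp (hb : Function.Bijective (algebraMap E M)) (P : Place S E) : Place S M where
  v := P.v.comap ((RingEquiv.ofBijective (algebraMap E M) hb).symm : M →+* E)
  surj := fun g => by
    obtain ⟨x, hx⟩ := P.surj g
    refine ⟨algebraMap E M x, ?_⟩
    rw [Valuation.comap_apply, ← hx]
    congr 1
    exact (RingEquiv.ofBijective (algebraMap E M) hb).symm_apply_apply x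
  triv := fun a ha => by
    rw [Valuation.comap_apply, ← P.triv a ha, IsScalarTower.algebraMap_apply S E M]
    congr 1
    exact (RingEquiv.ofBijective (algebraMap E M) hb).symm_apply_apply _

theorem absdUp_v (hb : Function.Bijective (algebraMap E M)) (P : Place S E) (f : E) :
    (absdUp hb P).v (algebraMap E M f) = P.v f := by
  show P.v ((RingEquiv.ofBijective (algebraMap E M) hb).symm (algebraMap E M f)) = P.v f
  congr 1
  exact (RingEquiv.ofBijective (algebraMap E M) hb).symm_apply_apply _

/-- places correspond -/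
noncomputable def absdPl (hb : Function.Bijective (algebraMap E M)) : Place S M ≃ Place S E where
  toFun := absdDn hb
  invFun := absdUp hb
  left_inv := fun Q => by
    apply Place.ext
    ext x
    obtain ⟨f, rfl⟩ := hb.2 x
    rw [absdUp_v, absdDn_v]
  right_inv := fun P => by
    apply Place.ext
    ext f
    rw [absdDn_v, absdUp_v]

theorem absdDn_overE (hb : Function.Bijective (algebraMap E M)) (Q : Place S M) :
    Q.OverE (absdDn hb Q) 1 := ⟨one_pos, fun f => by rw [pow_one, absdDn_v]⟩

theorem absdDn_ord (hb : Function.Bijective (algebraMap E M)) (Q : Place S M) (f : E) :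
    (absdDn hb Q).ord f = Q.ord (algebraMap E M f) := rfl

theorem absd_over_iff (hb : Function.Bijective (algebraMap E M)) (Q : Place S M) (P : Place S E) :
    Q.Over P ↔ Q = absdUp hb P := by
  constructor
  · intro h
    have h1 : absdDn hb Q = P := Place.Over.unique ⟨1, absdDn_overE hb Q⟩ h
    rw [← h1]
    exact ((absdPl hb).symm_apply_apply Q).symm
  · rintro rfl
    have h1 := absdDn_overE hb (absdUp hb P)
    have h2 : absdDn hb (absdUp hb P) = P := (absdPl hb).apply_symm_apply P
    rw [h2] at h1
    exact ⟨1, h1⟩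

/-- the basis `1` of `M` over `E` -/
noncomputable def absdOne (hb : Function.Bijective (algebraMap E M)) : Module.Basis Unit E M :=
  (Module.Basis.singleton Unit E).map (LinearEquiv.ofBijective (Algebra.linearMap E M) hb)

theorem absdOne_repr (hb : Function.Bijective (algebraMap E M)) (f : E) (i : Unit) :
    (absdOne hb).repr (algebraMap E M f) i = f := by
  have : (LinearEquiv.ofBijective (Algebra.linearMap E M) hb).symm (algebraMap E M f) = f := by
    rw [LinearEquiv.symm_apply_eq]
    rfl
  simp [absdOne, this]

theorem absdOne_isIntBasis (hb : Function.Bijective (algebraMap E M)) (P : Place S E) :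
    IsIntBasis P (absdOne hb) := by
  intro x
  obtain ⟨f, rfl⟩ := hb.2 x
  simp only [absdOne_repr]
  constructor
  · intro h _
    rw [← absdUp_v hb]
    exact h _ ((absd_over_iff hb _ _).2 rfl)
  · intro h Q hQ
    rw [(absd_over_iff hb _ _).1 hQ, absdUp_v]
    exact h ()

variable [IsFF S E]

theorem absd_chi (hb : Function.Bijective (algebraMap E M)) : chi S M = chi S E := by
  have : Module.Finite E M := Module.Finite.of_basis (absdOne hb)
  have h := chi_eq_of_frames (k := S) (absdOne hb) (fun _ => absdOne hb) (absdOne_isIntBasis hb)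
  simpa [Module.Basis.toMatrix_self] using h

theorem absdDn_deg (hb : Function.Bijective (algebraMap E M)) (Q : Place S M) :
    (absdDn hb Q).deg = Q.deg := by
  have : Module.Finite E M := Module.Finite.of_basis (absdOne hb)
  have h := sum_ramIdx_mul_deg (M' := M) (absdDn hb Q)
  have h1 : Module.finrank E M = 1 := by
    rw [Module.finrank_eq_card_basis (absdOne hb)]
    rfl
  rw [h1, one_mul, finsum_eq_single _ Q, (absdDn_overE hb Q).ramIdx_eq, one_mul] at h
  · exact h.symm
  · intro Q' hQ'
    rw [Place.ramIdx_eq_zero, zero_mul]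
    intro h2
    apply hQ'
    rw [(absd_over_iff hb _ _).1 h2]
    exact (absdPl hb).symm_apply_apply Q

omit [IsFF S E] in
theorem absd_isTBasis_iff (hb : Function.Bijective (algebraMap E M)) {ι : Type} [Fintype ι] (Q : Place S M)
    (θ : Module.Basis ι M (Der M)) :
    IsTBasis (absdDn hb Q) (absdTr (RingEquiv.ofBijective (algebraMap E M) hb) θ) ↔ IsTBasis Q θ := by
  set σ := RingEquiv.ofBijective (algebraMap E M) hb with hσ
  have hσa : ∀ f, algebraMap E M f = σ f := fun f => rfl
  have key : ∀ δ : Der E,
      ((∀ f : E, (absdDn hb Q).v f ≤ 1 → (absdDn hb Q).v (δ f) ≤ 1) ↔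
        ∀ g : M, Q.v g ≤ 1 → Q.v (absdConj σ δ g) ≤ 1) ∧
      ((∀ k, (absdDn hb Q).v ((absdTr σ θ).repr δ k) ≤ 1) ↔ ∀ k, Q.v (θ.repr (absdConj σ δ) k) ≤ 1) := by
    intro δ
    constructor
    · rw [σ.surjective.forall]
      simp only [absdDn_v, hσa, absdConj_apply, RingEquiv.symm_apply_apply]
    · simp only [absdDn_v, hσa, absdTr_repr, RingEquiv.apply_symm_apply]
  constructor
  · intro h δ
    have h1 := h (absdConj σ.symm δ)
    rw [(key _).1, (key _).2, absdConj_symm'] at h1
    exact h1
  · intro h δ
    rw [(key _).1, (key _).2]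
    exact h _

end Bij

section Index

variable {p : ℕ} [Fact p.Prime] {E M : Type} [Field E] [Field M]
  [Algebra E M] [Module.Finite E M]

omit [Fact p.Prime] [Module.Finite E M] [Algebra E M] [Field E] [Field M] in
theorem absd_nat_aux (a b c : ℕ) (h3 : c ≤ b) (h4 : a * b = c) (h5 : 0 < b) (h6 : 0 < a) : a = 1 := by
  by_contra h8
  have h9 : 2 ≤ a := by omega
  nlinarith

omit [Fact p.Prime] in
theorem absd_adjoin_eq_top (G : IntermediateField E M)
    (hmin : ∀ H : IntermediateField E M, H ≠ ⊤ → Module.finrank G M ≤ Module.finrank H M)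
    {z : M} (hz : z ∉ G) : IntermediateField.adjoin G {z} = ⊤ := by
  by_contra hne
  have h2 : (IntermediateField.adjoin G {z}).restrictScalars E ≠ ⊤ := by
    rwa [Ne, IntermediateField.restrictScalars_eq_top_iff]
  have h3 := hmin _ h2
  have h4 := Module.finrank_mul_finrank G (IntermediateField.adjoin G {z}) M
  have h5 : 0 < Module.finrank (IntermediateField.adjoin G {z}) M := Module.finrank_pos
  have h6 : 0 < Module.finrank G (IntermediateField.adjoin G {z}) := Module.finrank_pos
  have h7 : Module.finrank G (IntermediateField.adjoin G {z}) = 1 :=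
    absd_nat_aux _ _ _ h3 h4 h5 h6
  rw [IntermediateField.finrank_adjoin_simple_eq_one_iff, IntermediateField.mem_bot] at h7
  obtain ⟨g, rfl⟩ := h7
  exact hz g.2

/-- a simple extension by a `p`-th root has degree `p` and exponent one -/
theorem absd_of_adjoin_eq_top [CharP E p] [IsPurelyInseparable E M] {z : M}
    (hz : z ∉ (algebraMap E M).range) (hzp : z ^ p ∈ (algebraMap E M).range)
    (htop : IntermediateField.adjoin E {z} = ⊤) :
    Module.finrank E M = p ∧ ∀ x : M, x ^ p ∈ (algebraMap E M).range := by
  have hp : p.Prime := Fact.out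
  have : CharP M p := charP_of_injective_algebraMap (algebraMap E M).injective p
  have : ExpChar E p := ExpChar.prime hp
  have hint : IsIntegral E z := Algebra.IsIntegral.isIntegral z
  obtain ⟨c, hc⟩ := hzp
  constructor
  · have h2 : Module.finrank E M = (minpoly E z).natDegree := by
      rw [← IntermediateField.adjoin.finrank hint, htop, IntermediateField.finrank_top']
    have h3 : (minpoly E z).natDegree ≤ p := by
      have h4 : minpoly E z ∣ (Polynomial.X ^ p - Polynomial.C c) := by
        apply minpoly.dvd
        simp [hc]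
      have h5 : (Polynomial.X ^ p - Polynomial.C c).natDegree = p :=
        Polynomial.natDegree_X_pow_sub_C
      rw [← h5]
      exact Polynomial.natDegree_le_of_dvd h4 (Polynomial.X_pow_sub_C_ne_zero hp.pos _)
    have h4 : (minpoly E z).natDegree ≠ 1 := by
      rw [Ne, minpoly.natDegree_eq_one_iff]
      exact hz
    obtain ⟨k, hk⟩ := IsPurelyInseparable.finrank_eq_pow E M p
    rw [← h2] at h3 h4
    rw [hk] at h3 h4 ⊢
    rcases k with _ | _ | k
    · simp at h4
    · simp
    · exfalso
      have : p ^ 1 < p ^ (k + 1 + 1) := Nat.pow_lt_pow_right hp.one_lt (by omega)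
      rw [pow_one] at this
      omega
  · let K : IntermediateField E M :=
      (Subfield.comap (frobenius M p) (algebraMap E M).fieldRange).toIntermediateField (fun g => by
        rw [Subfield.mem_comap, frobenius_def]
        exact ⟨g ^ p, map_pow _ _ _⟩)
    have hK : IntermediateField.adjoin E {z} ≤ K := by
      rw [IntermediateField.adjoin_le_iff]
      rintro _ rfl
      exact ⟨c, hc⟩
    intro x
    have : x ∈ K := hK (htop ▸ IntermediateField.mem_top)
    exact this

end Index

section Tower

variable {p : ℕ} [Fact p.Prime] {S E M : Type} [Field S] [Field E] [Field M] [Algebra S E] [Algebra S M]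
  [Algebra E M] [IsScalarTower S E M] [CharP S p] [IsFF S E] [Module.Finite E M]

omit [Fact p.Prime] [CharP S p] [Module.Finite E M] in
theorem AbsDet.of_bijective (hb : Function.Bijective (algebraMap E M)) (hE : AbsDet S E) : AbsDet S M := by
  set σ := RingEquiv.ofBijective (algebraMap E M) hb with hσ
  constructor
  · intro ι _ θ
    have h1 := hE.finite (absdTr σ θ)
    refine (h1.preimage ((absdPl hb).injective.injOn)).subset fun Q hQ => ?_
    intro h2
    exact hQ ((absd_isTBasis_iff hb Q θ).1 h2)
  · intro ι _ _ θ θQ hQ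
    have h1 := hE.nu_eq (absdTr σ θ) (fun P => absdTr σ (θQ (absdUp hb P))) (fun P => by
      have h2 := (absd_isTBasis_iff hb (absdUp hb P) (θQ (absdUp hb P))).2 (hQ _)
      have h3 : absdDn hb (absdUp hb P) = P := (absdPl hb).apply_symm_apply P
      rwa [h3] at h2)
    rw [nu, absd_chi hb, ← nu, h1, kap, kap, ← finsum_comp_equiv (absdPl hb)]
    refine finsum_congr fun Q => ?_
    have h3 : absdUp hb (absdPl hb Q) = Q := (absdPl hb).symm_apply_apply Q
    rw [h3]
    show (absdDn hb Q).ord _ * ((absdDn hb Q).deg : ℤ) = _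
    rw [absdDn_deg, absdDn_ord]
    congr 2
    exact absdTr_det σ θ (θQ Q)

omit [Algebra S E] [Algebra S M] [IsScalarTower S E M] [CharP S p] [IsFF S E] [Field S] in
theorem exists_index_p [CharP E p] [IsPurelyInseparable E M] (h1 : 1 < Module.finrank E M) :
    ∃ G : IntermediateField E M, Module.finrank G M = p ∧ ∀ x : M, x ^ p ∈ G := by
  classical
  have hp : p.Prime := Fact.out
  have : ExpChar E p := ExpChar.prime hp
  -- a proper intermediate field of minimal codegree
  let T : Set ℕ := {n | ∃ G : IntermediateField E M, G ≠ ⊤ ∧ Module.finrank G M = n}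
  have hT : T.Nonempty := by
    refine ⟨_, ⊥, ?_, rfl⟩
    intro h
    have h2 := IntermediateField.finrank_bot (F := E) (E := M)
    rw [h, IntermediateField.finrank_top'] at h2
    omega
  obtain ⟨G, hG, hGn⟩ := Nat.sInf_mem hT
  have hmin : ∀ H : IntermediateField E M, H ≠ ⊤ → Module.finrank G M ≤ Module.finrank H M :=
    fun H hH => hGn ▸ Nat.sInf_le ⟨H, hH, rfl⟩
  obtain ⟨x, hx⟩ : ∃ x, x ∉ G := by
    by_contra hcon
    push Not at hcon
    exact hG (eq_top_iff.2 fun x _ => hcon x)
  obtain ⟨z, hz, hzp⟩ : ∃ z, z ∉ G ∧ z ^ p ∈ G := by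
    obtain ⟨n, y, hy⟩ := IsPurelyInseparable.pow_mem E p x
    have hex : ∃ n, x ^ p ^ n ∈ G := ⟨n, by rw [← hy]; exact G.algebraMap_mem y⟩
    have hj : x ^ p ^ (Nat.find hex) ∈ G := Nat.find_spec hex
    have hj0 : Nat.find hex ≠ 0 := by
      intro h0
      rw [h0] at hj
      simp only [pow_zero, pow_one] at hj
      exact hx hj
    obtain ⟨i, hi⟩ := Nat.exists_eq_succ_of_ne_zero hj0
    refine ⟨x ^ p ^ i, Nat.find_min hex (by omega), ?_⟩
    rw [← pow_mul, ← pow_succ, ← Nat.succ_eq_add_one, ← hi]
    exact hj
  have : CharP G p := charP_of_injective_algebraMap (algebraMap E G).injective p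
  have : IsPurelyInseparable G M := IsPurelyInseparable.tower_top E G M
  have hzG : z ∉ (algebraMap G M).range := by
    rintro ⟨g, rfl⟩
    exact hz g.2
  obtain ⟨h2, h3⟩ := absd_of_adjoin_eq_top (p := p) hzG ⟨⟨z ^ p, hzp⟩, rfl⟩
    (absd_adjoin_eq_top G hmin hz)
  refine ⟨G, h2, fun x => ?_⟩
  obtain ⟨g, hg⟩ := h3 x
  rw [← hg]
  exact g.2

omit [Field M] [Algebra S M] [Algebra E M] [IsScalarTower S E M] [Module.Finite E M] in
theorem absd_induction {n : ℕ} (hS : HasPDeg p S n) (hE : AbsDet S E) (d : ℕ) :
    ∀ (M : Type) [Field M] [Algebra S M] [Algebra E M] [IsScalarTower S E M] [Module.Finite E M]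
      [IsPurelyInseparable E M], Module.finrank E M = d → AbsDet S M := by
  induction d using Nat.strong_induction_on with
  | _ d ih =>
    intro M _ _ _ _ _ _ hd
    have hp : p.Prime := Fact.out
    have : CharP E p := charP_of_injective_algebraMap (algebraMap S E).injective p
    have : CharP M p := charP_of_injective_algebraMap (algebraMap S M).injective p
    have hpos : 0 < Module.finrank E M := Module.finrank_pos
    by_cases h1 : Module.finrank E M = 1
    · refine AbsDet.of_bijective (E := E) ?_ hE
      rw [Algebra.bijective_algebraMap_iff]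
      exact (Subalgebra.bot_eq_top_of_finrank_eq_one h1).symm
    · obtain ⟨G, hG, hGp⟩ := exists_index_p (p := p) (E := E) (M := M) (by omega)
      have : IsScalarTower S E G := IsScalarTower.of_algebraMap_eq fun x => by
        apply Subtype.ext
        exact IsScalarTower.algebraMap_apply S E M x
      have : IsScalarTower S G M := IsScalarTower.of_algebraMap_eq fun x => rfl
      have : CharP G p := charP_of_injective_algebraMap (algebraMap S G).injective p
      have : IsFF S G := isFF_of_finite S E G
      have : IsFF S M := isFF_of_finite S E M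
      have : IsPurelyInseparable E G := IsPurelyInseparable.tower_bot E G M
      have hmul := Module.finrank_mul_finrank E G M
      have hposG : 0 < Module.finrank E G := Module.finrank_pos
      have hlt : Module.finrank E G < d := by
        rw [← hd, ← hmul, hG]
        have := hp.two_le
        nlinarith
      have hAG : AbsDet S G := ih _ hlt G rfl
      exact absDet_step hS (fun x => ⟨⟨x ^ p, hGp x⟩, rfl⟩) hG hAG

/-- **Theorem A** along purely inseparable extensions -/
theorem absDet_of_purelyInseparable {n : ℕ} (hS : HasPDeg p S n) [IsPurelyInseparable E M] (hE : AbsDet S E) :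
    AbsDet S M := absd_induction hS hE _ M rfl

end Tower

section Base

variable {p : ℕ} [Fact p.Prime] {m h : ℕ} (C : InsData p m h)

instance InsData.ffES : IsFF C.S C.ES := isFF_constExt C.po

instance InsData.cpES : CharP C.ES p := charP_of_injective_algebraMap (algebraMap C.S C.ES).injective p

theorem InsData.hasPDeg : HasPDeg p C.S C.n := C.pdeg

/-- the global frame of `InsData` as a basis -/
theorem InsData.absd_exists_basis : ∃ θ : Module.Basis (Fin (C.n + 1)) C.ES (Der C.ES), ∀ k, θ k = C.D k := by
  have hli : LinearIndependent C.ES C.D := by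
    rw [Fintype.linearIndependent_iff]
    intro g hg
    obtain ⟨c, -, hc⟩ := C.D_basis 0
    have h1 : g = c := hc g hg.symm
    have h2 : (0 : Fin (C.n + 1) → C.ES) = c := hc 0 (by simp)
    intro i
    rw [h1, ← h2]
    rfl
  have hsp : ⊤ ≤ Submodule.span C.ES (Set.range C.D) := by
    intro θ _
    obtain ⟨c, hc, -⟩ := C.D_basis θ
    rw [hc]
    exact Submodule.sum_mem _ fun k _ => Submodule.smul_mem _ _ (Submodule.subset_span ⟨k, rfl⟩)
  exact ⟨Module.Basis.mk hli hsp, fun k => by simp⟩

theorem absDet_base : AbsDet C.S C.ES := by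
  classical
  obtain ⟨θ, hθ⟩ := C.absd_exists_basis
  have hT : ∀ Q : Place C.S C.ES, IsTBasis Q θ := by
    intro Q δ
    have h1 := C.D_int Q (fun k => θ.repr δ k)
    have h2 : (∑ k, θ.repr δ k • C.D k) = δ := by
      simp only [← hθ]
      exact θ.sum_repr δ
    rw [h2] at h1
    exact h1
  refine absDet_of_frames θ (fun _ => θ) ?_ hT ?_
  · have : {Q : Place C.S C.ES | ¬ IsTBasis Q θ} = ∅ := by
      ext Q
      simp [hT Q]
    rw [this]
    exact Set.finite_empty
  · simp [nu, kap, C.chi0, Module.Basis.toMatrix_self]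

theorem absDet_cover (M : Type) [Field M] [Algebra C.S M] [Algebra C.ES M] [IsScalarTower C.S C.ES M]
    [Module.Finite C.ES M] [IsPurelyInseparable C.ES M] : AbsDet C.S M :=
  absDet_of_purelyInseparable C.hasPDeg (absDet_base C)

end Base

end Claimed.Agent.R280
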