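import Claimed.Agent.R280.Ins.HeightOne

/-!
# Row 280, Ins package D3b `Cartier`: the genus change in a purely inseparable extension of degree `p`  ([D] Lemma 5.5, `a = 1`)

`G ⊆ M`, `[M:G] = p`, `M = G(b)`, `b^p = c ∈ G`.   RESULT (`nu_step`):  `ν(M) = p ν(G) - (p-1) ∑_Q deg Q · ord_Q (∂b/∂b_Q)`.
No duality, no `Ext`: only `chi_eq_of_frames` (FF5) and a determinant identity.

PLAN.  Write `τ_b : M → G` for the coefficient of `b^{p-1}` and `∂ = ∂/∂b` (`X.θM (inl 0)`, it kills `G` by `θM_inl`).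
* `top_coeff_der`: `τ_b (∂ f) = 0` (`∂ b^i = i b^{i-1}`, `i - 1 ≤ p - 2`).
* `top_coeff`: `τ_b (f^{p-1} ∂f) = (∂f)^p`.  For `f = g b^i`: `f^{p-1} ∂f = i g^p c^{i-1} b^{p-1}` and `(∂f)^p = i g^p c^{i-1}`.
  Additivity in `f`: with `Φ(X,Y) = ((X+Y)^p - X^p - Y^p)/p ∈ ℤ[X,Y]`:
  `(f+g)^{p-1} ∂(f+g) - f^{p-1} ∂f - g^{p-1} ∂g = ∂ (Φ(f,g))`, which is killed by `τ_b` (`top_coeff_der`); `(∂f + ∂g)^p = (∂f)^p + (∂g)^p`.
  (`Φ = ∑_{0<i<p} (1/p) C(p,i) X^i Y^{p-i}`, and `(1/p) C(p,i) · i = C(p-1,i-1)`.)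
* `top_coeff_change`: `τ_b (w x) = w^p τ_{b'} (x)`, `w = ∂b'/∂b`: both sides are `G`-linear in `x`; for `x = b'^j`, `j ≤ p-2`:
  `w b'^j = ∂ (b'^{j+1})/(j+1)`; for `j = p-1` it is `top_coeff`.
* `det_sq`: the Gram matrix of `(x,y) ↦ τ_b (xy)` in the basis `b^i` is the antidiagonal unit matrix (`b^{i+j} = c b^{i+j-p}`), same for `b'`.
  With `C = (b^i).toMatrix (b'^j)`:  `ε = det Gram_{b'}(τ_{b'}) = w^{-p·p} N_{M/G}(w) det(C)^2 ε`, `N(w) = w^p`.  `φ = ∂b/∂b' = w⁻¹`.
* `isIntBasis_powBasis`: `Adapted.free` with `a = 1` (`G ∩ O_Q = O_{Q'}`), uniqueness of the place above.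
* `nu_step`: FF5 with `b^i`, `b_Q^i`; `2 ord_Q det C_Q = - p (p-1) ord_Q φ_Q`; `ord_{Q'}(g) deg Q' · p = ord_Q(g) deg Q` (`ramIdx_mul_deg_of_pow`); reindex places.
~1400 lines.   Owner of the statements: helper66.
-/

set_option autoImplicit false
set_option linter.unusedSectionVars false

namespace Claimed.Agent.R280

open WithZero


theorem cart_choose_a {q m : ℕ} (hq : (q + 1).Prime) (hm : m < q) :
    (q + 1).choose (m + 1) / (q + 1) * (m + 1) = q.choose m := by
  obtain ⟨e, he⟩ := hq.dvd_choose_self (Nat.succ_ne_zero m) (by omega : m + 1 < q + 1)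
  rw [he, Nat.mul_div_cancel_left _ (Nat.succ_pos q)]
  have h1 := Nat.add_one_mul_choose_eq q m
  rw [he, mul_assoc] at h1
  exact (Nat.eq_of_mul_eq_mul_left (Nat.succ_pos q) h1).symm

theorem cart_choose_b {q m : ℕ} (hq : (q + 1).Prime) (hm : m < q) :
    (q + 1).choose (m + 1) / (q + 1) * (q - m) = q.choose (m + 1) := by
  obtain ⟨e, he⟩ := hq.dvd_choose_self (Nat.succ_ne_zero m) (by omega : m + 1 < q + 1)
  rw [he, Nat.mul_div_cancel_left _ (Nat.succ_pos q)]
  have h1 := Nat.choose_mul_succ_eq q (m + 1)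
  rw [he, mul_assoc, mul_comm (q.choose (m + 1))] at h1
  have h2 := Nat.eq_of_mul_eq_mul_left (Nat.succ_pos q) h1
  rw [h2]
  congr 1
  omega

theorem cart_phi {q : ℕ} (hq : (q + 1).Prime) {R : Type} [CommRing R] (D : Derivation ℤ R R)
    (f g : R) :
    D (∑ m ∈ Finset.range q, ((q + 1).choose (m + 1) / (q + 1)) • (f ^ (m + 1) * g ^ (q - m)))
      = ((f + g) ^ q - f ^ q) * D f + ((f + g) ^ q - g ^ q) * D g := by
  have h1 : (f + g) ^ q - f ^ q = ∑ m ∈ Finset.range q, f ^ m * g ^ (q - m) * (q.choose m : R) := by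
    rw [add_pow, Finset.sum_range_succ]
    simp
  have h2 : (f + g) ^ q - g ^ q
      = ∑ m ∈ Finset.range q, f ^ (m + 1) * g ^ (q - (m + 1)) * (q.choose (m + 1) : R) := by
    rw [add_pow, Finset.sum_range_succ']
    simp
  rw [h1, h2, map_sum, Finset.sum_mul, Finset.sum_mul, ← Finset.sum_add_distrib]
  refine Finset.sum_congr rfl fun m hm => ?_
  have hm' : m < q := Finset.mem_range.1 hm
  rw [← cart_choose_a hq hm', ← cart_choose_b hq hm', map_nsmul, D.leibniz, D.leibniz_pow,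
    D.leibniz_pow]
  simp only [smul_eq_mul, nsmul_eq_mul, Nat.add_sub_cancel]
  have : q - m - 1 = q - (m + 1) := by omega
  rw [this]
  push_cast
  ring

section Abs

variable {p : ℕ} [Fact p.Prime] {G M : Type} [Field G] [Field M] [Algebra G M] [CharP G p] [CharP M p]

/-- abstract data: `M = ⊕_{i<p} G b^i`, `b^p = c`, `d = ∂/∂b`. -/
structure CartData (p : ℕ) (G M : Type) [Field G] [Field M] [Algebra G M] where
  B : Module.Basis (Fin p) G M
  b : M
  c : G
  d : Der M
  hB : ∀ i, B i = b ^ (i : ℕ)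
  hc : algebraMap G M c = b ^ p
  hdb : d b = 1
  hdG : ∀ g, d (algebraMap G M g) = 0

namespace CartData

variable (Z : CartData p G M)

omit [Fact p.Prime] [CharP G p] [CharP M p] in
theorem expand (f : M) : f = ∑ i, algebraMap G M (Z.B.repr f i) * Z.b ^ (i : ℕ) := by
  conv_lhs => rw [← Z.B.sum_repr f]
  exact Finset.sum_congr rfl fun i _ => by rw [Algebra.smul_def, Z.hB]

omit [Fact p.Prime] [CharP G p] [CharP M p] in
/-- a derivation killing `G` is `G`-linear -/
theorem der_smul (D : Der M) (hD : ∀ g, D (algebraMap G M g) = 0) (g : G) (x : M) :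
    D (algebraMap G M g * x) = algebraMap G M g * D x := by
  rw [D.leibniz, hD, smul_zero, add_zero, smul_eq_mul]

omit [Fact p.Prime] [CharP G p] [CharP M p] in
/-- every derivation killing `G` is a multiple of `d` -/
theorem der_eq (D : Der M) (hD : ∀ g, D (algebraMap G M g) = 0) (f : M) :
    D f = (∑ i, algebraMap G M (Z.B.repr f i) * (((i : ℕ) : M) * Z.b ^ ((i : ℕ) - 1))) * D Z.b := by
  conv_lhs => rw [Z.expand f]
  rw [map_sum, Finset.sum_mul]
  refine Finset.sum_congr rfl fun i _ => ?_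
  rw [der_smul D hD, D.leibniz_pow, smul_eq_mul, nsmul_eq_mul]
  ring

omit [Fact p.Prime] [CharP G p] [CharP M p] in
theorem d_eq (f : M) :
    Z.d f = ∑ i, algebraMap G M (Z.B.repr f i) * (((i : ℕ) : M) * Z.b ^ ((i : ℕ) - 1)) := by
  rw [Z.der_eq Z.d Z.hdG f, Z.hdb, mul_one]

omit [Fact p.Prime] [CharP G p] [CharP M p] in
theorem der_eq_mul (D : Der M) (hD : ∀ g, D (algebraMap G M g) = 0) (f : M) :
    D f = Z.d f * D Z.b := by
  rw [Z.der_eq D hD f, Z.d_eq]

omit [Fact p.Prime] [CharP G p] [CharP M p] in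
theorem repr_pow {j : ℕ} (hj : j < p) (i : Fin p) :
    Z.B.repr (Z.b ^ j) i = if (i : ℕ) = j then 1 else 0 := by
  have : Z.b ^ j = Z.B ⟨j, hj⟩ := by rw [Z.hB]
  rw [this, Module.Basis.repr_self, Finsupp.single_apply]
  by_cases h : (i : ℕ) = j
  · rw [if_pos h, if_pos (Fin.ext h.symm)]
  · rw [if_neg h, if_neg (fun h' => h (by rw [← h']))]

omit [CharP G p] [CharP M p] in
/-- `τ_b (∂ f) = 0` -/
theorem top_der (f : M) (i : Fin p) (hi : (i : ℕ) = p - 1) : Z.B.repr (Z.d f) i = 0 := by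
  have hp : 2 ≤ p := (Fact.out : p.Prime).two_le
  have h1 : Z.d f = ∑ j : Fin p, (Z.B.repr f j * ((j : ℕ) : G)) • Z.b ^ ((j : ℕ) - 1) := by
    rw [Z.d_eq]
    refine Finset.sum_congr rfl fun j _ => ?_
    rw [Algebra.smul_def, map_mul, map_natCast]
    ring
  rw [h1, map_sum, Finsupp.finsetSum_apply]
  refine Finset.sum_eq_zero fun j _ => ?_
  have hj := j.2
  rw [map_smul, Finsupp.smul_apply, Z.repr_pow (by omega), if_neg (by omega), smul_zero]

omit [CharP G p] [CharP M p] in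
theorem top_add (f g : M) (i : Fin p) (hi : (i : ℕ) = p - 1) :
    Z.B.repr ((f + g) ^ (p - 1) * Z.d (f + g)) i
      = Z.B.repr (f ^ (p - 1) * Z.d f) i + Z.B.repr (g ^ (p - 1) * Z.d g) i := by
  have hp : (p - 1 + 1).Prime := by
    have h := (Fact.out : p.Prime)
    have : p - 1 + 1 = p := Nat.sub_add_cancel h.one_le
    rwa [this]
  have h1 := cart_phi hp Z.d f g
  have h2 : (f + g) ^ (p - 1) * Z.d (f + g) = f ^ (p - 1) * Z.d f + g ^ (p - 1) * Z.d g
      + Z.d (∑ m ∈ Finset.range (p - 1),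
        ((p - 1 + 1).choose (m + 1) / (p - 1 + 1)) • (f ^ (m + 1) * g ^ (p - 1 - m))) := by
    rw [h1, map_add]
    ring
  rw [h2, map_add, map_add, Finsupp.add_apply, Finsupp.add_apply, Z.top_der _ i hi, add_zero]

omit [CharP G p] in
theorem top_monomial (g : G) {j : ℕ} (hj : j < p) (i : Fin p) (hi : (i : ℕ) = p - 1) :
    algebraMap G M (Z.B.repr ((algebraMap G M g * Z.b ^ j) ^ (p - 1)
      * Z.d (algebraMap G M g * Z.b ^ j)) i) = Z.d (algebraMap G M g * Z.b ^ j) ^ p := by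
  have hp := (Fact.out : p.Prime)
  have hp1 : p - 1 + 1 = p := Nat.sub_add_cancel hp.one_le
  have hd : Z.d (algebraMap G M g * Z.b ^ j) = algebraMap G M g * ((j : M) * Z.b ^ (j - 1)) := by
    rw [der_smul Z.d Z.hdG, Z.d.leibniz_pow, Z.hdb, smul_eq_mul, nsmul_eq_mul, mul_one]
  rw [hd]
  rcases Nat.eq_zero_or_pos j with rfl | hj0
  · simp [hp.ne_zero]
  · obtain ⟨j', rfl⟩ : ∃ j', j = j' + 1 := ⟨j - 1, by omega⟩
    rw [Nat.add_sub_cancel]
    have hexp : (j' + 1) * (p - 1) + j' = p * j' + (p - 1) := by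
      obtain ⟨q, hq⟩ : ∃ q, p = q + 1 := ⟨p - 1, hp1.symm⟩
      have : p - 1 = q := by omega
      rw [this, hq]
      ring
    have h1 : (algebraMap G M g * Z.b ^ (j' + 1)) ^ (p - 1)
        * (algebraMap G M g * (((j' + 1 : ℕ) : M) * Z.b ^ j'))
        = (g ^ p * ((j' + 1 : ℕ) : G) * Z.c ^ j') • Z.b ^ (p - 1) := by
      rw [Algebra.smul_def, map_mul, map_mul, map_pow, map_pow, map_natCast, Z.hc, ← pow_mul]
      calc (algebraMap G M g * Z.b ^ (j' + 1)) ^ (p - 1)
            * (algebraMap G M g * (((j' + 1 : ℕ) : M) * Z.b ^ j'))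
          = algebraMap G M g ^ (p - 1 + 1) * ((j' + 1 : ℕ) : M) * Z.b ^ ((j' + 1) * (p - 1) + j') := by
            rw [mul_pow, ← pow_mul, pow_succ, pow_add]
            ring
        _ = _ := by
            rw [hp1, hexp, pow_add]
            ring
    rw [h1, map_smul, Finsupp.smul_apply, Z.repr_pow (by omega), if_pos hi, smul_eq_mul, mul_one,
      map_mul, map_mul, map_pow, map_pow, map_natCast, Z.hc, mul_pow, mul_pow, ← pow_mul, ← pow_mul]
    have hn : (((j' + 1 : ℕ) : M)) ^ p = ((j' + 1 : ℕ) : M) := by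
      have := map_natCast (frobenius M p) (j' + 1)
      rwa [frobenius_def] at this
    rw [hn, mul_comm j' p]
    ring

omit [CharP G p] in
/-- `τ_b (f^{p-1} ∂f) = (∂f)^p` -/
theorem top_coeff (f : M) (i : Fin p) (hi : (i : ℕ) = p - 1) :
    algebraMap G M (Z.B.repr (f ^ (p - 1) * Z.d f) i) = Z.d f ^ p := by
  have hp := (Fact.out : p.Prime)
  rw [Z.expand f]
  refine Finset.sum_induction (fun j : Fin p => algebraMap G M (Z.B.repr f j) * Z.b ^ (j : ℕ))
    (fun x => algebraMap G M (Z.B.repr (x ^ (p - 1) * Z.d x) i) = Z.d x ^ p) ?_ ?_ ?_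
  · intro x y hx hy
    rw [Z.top_add x y i hi, map_add, hx, hy, map_add, add_pow_char]
  · simp [hp.ne_zero]
  · intro j _
    exact Z.top_monomial _ j.2 i hi

omit [CharP M p] in
/-- `τ_b (w b'^j) = 0` for `j < p - 1`, `w = ∂b'/∂b` -/
theorem top_change_lt (Z' : CartData p G M) {j : ℕ} (hj : j + 1 < p) (i : Fin p)
    (hi : (i : ℕ) = p - 1) : Z.B.repr (Z.d Z'.b * Z'.b ^ j) i = 0 := by
  have h1 : ((j + 1 : ℕ) : G) • (Z.d Z'.b * Z'.b ^ j) = Z.d (Z'.b ^ (j + 1)) := by
    rw [Z.d.leibniz_pow, Nat.add_sub_cancel, smul_eq_mul, nsmul_eq_mul, Algebra.smul_def,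
      map_natCast]
    ring
  have h2 := Z.top_der (Z'.b ^ (j + 1)) i hi
  rw [← h1, map_smul, Finsupp.smul_apply, smul_eq_mul] at h2
  have h3 : ((j + 1 : ℕ) : G) ≠ 0 := by
    rw [Ne, CharP.cast_eq_zero_iff G p]
    intro hdvd
    have := Nat.le_of_dvd (Nat.succ_pos j) hdvd
    omega
  exact (mul_eq_zero.1 h2).resolve_left h3

/-- `τ_b (w x) = w^p τ_{b'} (x)`, `w = ∂b'/∂b` -/
theorem top_change (Z' : CartData p G M) (x : M) (i : Fin p) (hi : (i : ℕ) = p - 1) :
    algebraMap G M (Z.B.repr (Z.d Z'.b * x) i)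
      = Z.d Z'.b ^ p * algebraMap G M (Z'.B.repr x i) := by
  have h1 : Z.d Z'.b * x = ∑ j, Z'.B.repr x j • (Z.d Z'.b * Z'.b ^ (j : ℕ)) := by
    conv_lhs => rw [Z'.expand x]
    rw [Finset.mul_sum]
    refine Finset.sum_congr rfl fun j _ => ?_
    rw [Algebra.smul_def]
    ring
  rw [h1, map_sum, Finsupp.finsetSum_apply, Finset.sum_eq_single i]
  · rw [map_smul, Finsupp.smul_apply, smul_eq_mul, map_mul, hi, mul_comm (Z.d Z'.b),
      Z.top_coeff Z'.b i hi]
    ring
  · intro j _ hji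
    have hj := j.2
    have hne : (j : ℕ) ≠ p - 1 := fun h => hji (Fin.ext (by rw [h, hi]))
    rw [map_smul, Finsupp.smul_apply, Z.top_change_lt Z' (by omega) i hi, smul_zero]
  · intro h
    exact absurd (Finset.mem_univ i) h

omit [CharP M p] in
/-- the norm of `w` is `w^p` -/
theorem det_leftMul (w : M) (ω : G) (hω : algebraMap G M ω = w ^ p) :
    (Algebra.leftMulMatrix Z.B w).det = ω := by
  apply frobenius_inj G p
  rw [frobenius_def, frobenius_def, ← Matrix.det_pow, ← map_pow, ← hω, AlgHom.commutes,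
    Algebra.algebraMap_eq_smul_one, Matrix.det_smul, Matrix.det_one, mul_one, Fintype.card_fin]

/-- the antidiagonal matrix -/
def antiDiag (p : ℕ) (G : Type) [Field G] : Matrix (Fin p) (Fin p) G :=
  Matrix.of fun i j => if (i : ℕ) + (j : ℕ) = p - 1 then 1 else 0

omit [Fact p.Prime] [CharP G p] in
theorem antiDiag_mul_self : antiDiag p G * antiDiag p G = 1 := by
  ext i k
  rw [Matrix.mul_apply, Finset.sum_eq_single (Fin.rev i)]
  · have hi := i.2
    have hk := k.2
    simp only [antiDiag, Matrix.of_apply, Fin.val_rev]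
    rw [if_pos (by omega), one_mul, Matrix.one_apply]
    by_cases hik : i = k
    · subst hik
      rw [if_pos rfl, if_pos (by omega)]
    · have : (i : ℕ) ≠ k := fun h => hik (Fin.ext h)
      rw [if_neg hik, if_neg (by omega)]
  · intro j _ hj
    have hi := i.2
    have hj' := j.2
    have : (j : ℕ) ≠ p - (i + 1) := fun h => hj (Fin.ext (by rw [h, Fin.val_rev]))
    simp only [antiDiag, Matrix.of_apply]
    rw [if_neg (by omega), zero_mul]
  · intro h
    exact absurd (Finset.mem_univ _) h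

omit [Fact p.Prime] [CharP G p] in
theorem det_antiDiag_ne_zero : (antiDiag p G).det ≠ 0 := by
  intro h
  have := congrArg Matrix.det (antiDiag_mul_self (p := p) (G := G))
  rw [Matrix.det_mul, h, Matrix.det_one, mul_zero] at this
  exact zero_ne_one this

omit [CharP G p] [CharP M p] in
/-- the Gram matrix of `(x, y) ↦ τ_b (x y)` in the basis `b^i` -/
theorem gram (k l i : Fin p) (hi : (i : ℕ) = p - 1) :
    Z.B.repr (Z.b ^ (k : ℕ) * Z.b ^ (l : ℕ)) i = antiDiag p G k l := by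
  have hp : 2 ≤ p := (Fact.out : p.Prime).two_le
  have hk := k.2
  have hl := l.2
  simp only [antiDiag, Matrix.of_apply]
  rw [← pow_add]
  by_cases h : (k : ℕ) + l < p
  · rw [Z.repr_pow h, hi]
    by_cases h' : (k : ℕ) + l = p - 1
    · rw [if_pos h'.symm, if_pos h']
    · rw [if_neg (fun h'' => h' h''.symm), if_neg h']
  · have h1 : Z.b ^ ((k : ℕ) + l) = Z.c • Z.b ^ ((k : ℕ) + l - p) := by
      rw [Algebra.smul_def, Z.hc, ← pow_add]
      congr 1
      omega
    rw [h1, map_smul, Finsupp.smul_apply, Z.repr_pow (by omega), if_neg (by omega),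
      if_neg (by omega), smul_zero]

omit [CharP G p] [CharP M p] in
theorem top_mul (x y : M) (i : Fin p) (hi : (i : ℕ) = p - 1) :
    Z.B.repr (x * y) i = ∑ k, ∑ l, Z.B.repr x k * antiDiag p G k l * Z.B.repr y l := by
  have h1 : x * y = ∑ k, ∑ l, (Z.B.repr x k * Z.B.repr y l) • (Z.b ^ (k : ℕ) * Z.b ^ (l : ℕ)) := by
    conv_lhs => rw [Z.expand x, Z.expand y]
    rw [Finset.sum_mul_sum]
    refine Finset.sum_congr rfl fun k _ => Finset.sum_congr rfl fun l _ => ?_
    rw [Algebra.smul_def, map_mul]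
    ring
  rw [h1, map_sum, Finsupp.finsetSum_apply]
  refine Finset.sum_congr rfl fun k _ => ?_
  rw [map_sum, Finsupp.finsetSum_apply]
  refine Finset.sum_congr rfl fun l _ => ?_
  rw [map_smul, Finsupp.smul_apply, Z.gram k l i hi, smul_eq_mul]
  ring

omit [Fact p.Prime] [CharP G p] [CharP M p] in
theorem d_mul_d (Z' : CartData p G M) : Z.d Z'.b * Z'.d Z.b = 1 := by
  rw [← Z.der_eq_mul Z'.d Z'.hdG, Z'.hdb]

/-- the determinant identity -/
theorem det_sq (Z' : CartData p G M) :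
    algebraMap G M (Z.B.toMatrix Z'.B).det ^ 2 * Z'.d Z.b ^ (p * (p - 1)) = 1 := by
  have hp := (Fact.out : p.Prime)
  have hp1 : p - 1 + 1 = p := Nat.sub_add_cancel hp.one_le
  set i : Fin p := ⟨p - 1, by omega⟩ with hidef
  have hi : (i : ℕ) = p - 1 := rfl
  set w := Z.d Z'.b with hw
  set ω : G := Z.B.repr (Z'.b ^ (p - 1) * w) i with hωdef
  have hω : algebraMap G M ω = w ^ p := Z.top_coeff Z'.b i hi
  have hwφ : w * Z'.d Z.b = 1 := Z.d_mul_d Z'
  have hw0 : w ≠ 0 := left_ne_zero_of_mul_eq_one hwφ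
  have hω0 : ω ≠ 0 := by
    intro h
    rw [h, map_zero] at hω
    exact pow_ne_zero p hw0 hω.symm
  have hinj : Function.Injective (algebraMap G M) := (algebraMap G M).injective
  have hch : ∀ x : M, Z.B.repr (w * x) i = ω * Z'.B.repr x i := by
    intro x
    apply hinj
    rw [Z.top_change Z' x i hi, map_mul, hω]
  set C := Z.B.toMatrix Z'.B with hC
  set L := Algebra.leftMulMatrix Z.B w with hL
  have hmat : ω • antiDiag p G = (L * C).transpose * antiDiag p G * C := by
    ext a c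
    rw [Matrix.smul_apply, smul_eq_mul, ← Z'.gram a c i hi, ← hch, ← mul_assoc,
      Z.top_mul _ _ i hi, Matrix.mul_apply]
    rw [Finset.sum_comm]
    refine Finset.sum_congr rfl fun l _ => ?_
    rw [Matrix.mul_apply, Finset.sum_mul]
    refine Finset.sum_congr rfl fun k _ => ?_
    have h1 : Z.B.repr (w * Z'.b ^ (a : ℕ)) k = (L * C) k a := by
      rw [← Algebra.leftMulMatrix_mulVec_repr, Matrix.mul_apply, Matrix.mulVec, dotProduct]
      refine Finset.sum_congr rfl fun m _ => ?_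
      rw [hC, Module.Basis.toMatrix_apply, Z'.hB]
    have h2 : Z.B.repr (Z'.b ^ (c : ℕ)) l = C l c := by
      rw [hC, Module.Basis.toMatrix_apply, Z'.hB]
    rw [h1, h2, Matrix.transpose_apply]
  have hdet := congrArg Matrix.det hmat
  rw [Matrix.det_smul, Fintype.card_fin, Matrix.det_mul, Matrix.det_mul, Matrix.det_transpose,
    Matrix.det_mul, Z.det_leftMul w ω hω] at hdet
  have h3 : ω ^ (p - 1) = C.det ^ 2 := by
    have h4 : (ω * (antiDiag p G).det) * ω ^ (p - 1) = (ω * (antiDiag p G).det) * C.det ^ 2 := by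
      calc (ω * (antiDiag p G).det) * ω ^ (p - 1) = ω ^ (p - 1 + 1) * (antiDiag p G).det := by
            rw [pow_succ]
            ring
        _ = ω * C.det * (antiDiag p G).det * C.det := by rw [hp1, hdet]
        _ = _ := by ring
    exact mul_left_cancel₀ (mul_ne_zero hω0 det_antiDiag_ne_zero) h4
  rw [← map_pow, ← h3, map_pow, hω, ← pow_mul, ← mul_pow, hwφ, one_pow]

end CartData

end Abs

section Field

variable {p : ℕ} [Fact p.Prime] {G M : Type} [Field G] [Field M] [Algebra G M] [CharP G p] [CharP M p]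
  {OG OG' : Subring G} {OM OM' : Subring M} {s : ℕ}

omit [Fact p.Prime] [CharP G p] [CharP M p] in
/-- forget the subrings -/
def Adapted.toTop {a : ℕ} (X : Adapted p G M OG OM a s) : Adapted p G M ⊤ ⊤ a s where
  b := X.b
  c := X.c
  y := X.y
  hc := X.hc
  hG := ⟨X.hG.1, fun c => by simp⟩
  hM := ⟨X.hM.1, fun c => by simp⟩

omit [Fact p.Prime] [CharP G p] [CharP M p] in
theorem cart_pmon_one (b : Fin 1 → M) (I : Fin 1 → Fin p) : pmon b I = b 0 ^ (I 0 : ℕ) := by
  simp [pmon]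

omit [Fact p.Prime] [CharP G p] [CharP M p] in
/-- sums over `Fin 1 → Fin p` are sums over `Fin p` -/
theorem cart_sum_one (b : Fin 1 → M) (g : Fin p → G) :
    ∑ I : Fin 1 → Fin p, algebraMap G M (g (I 0)) * pmon b I = ∑ i, g i • b 0 ^ (i : ℕ) := by
  rw [← (Equiv.funUnique (Fin 1) (Fin p)).sum_comp]
  refine Finset.sum_congr rfl fun I _ => ?_
  rw [cart_pmon_one, Algebra.smul_def]
  rfl

theorem Adapted.exists_powBasis (hpow : ∀ x : M, ∃ g : G, algebraMap G M g = x ^ p)
    (X : Adapted p G M OG OM 1 s) : ∃ B : Module.Basis (Fin p) G M, ∀ i, B i = X.b 0 ^ (i : ℕ) := by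
  have hbij := (X.toTop.free hpow (fun g => by simp)).1
  have hcomp : (fun g : Fin p → G => ∑ i, g i • X.b 0 ^ (i : ℕ))
      = (fun g : (Fin 1 → Fin p) → G => ∑ I, algebraMap G M (g I) * pmon X.b I)
        ∘ (fun (g : Fin p → G) (I : Fin 1 → Fin p) => g (I 0)) := by
    funext g
    exact (cart_sum_one X.b g).symm
  have hbij2 : Function.Bijective (fun (g : Fin p → G) (I : Fin 1 → Fin p) => g (I 0)) :=
    ((Equiv.funUnique (Fin 1) (Fin p)).arrowCongr (Equiv.refl G)).symm.bijective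
  have hL : Function.Bijective (fun g : Fin p → G => ∑ i, g i • X.b 0 ^ (i : ℕ)) := by
    rw [hcomp]
    exact hbij.comp hbij2
  have hli : LinearIndependent G (fun i : Fin p => X.b 0 ^ (i : ℕ)) := by
    rw [linearIndependent_iff_injective_fintypeLinearCombination]
    intro g g' h
    rw [Fintype.linearCombination_apply, Fintype.linearCombination_apply] at h
    exact hL.1 h
  have hsp : ⊤ ≤ Submodule.span G (Set.range fun i : Fin p => X.b 0 ^ (i : ℕ)) := by
    rw [← Fintype.range_linearCombination]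
    intro x _
    obtain ⟨g, hg⟩ := hL.2 x
    exact ⟨g, by rw [Fintype.linearCombination_apply]; exact hg⟩
  exact ⟨Module.Basis.mk hli hsp, fun i => Module.Basis.mk_apply hli hsp i⟩

/-- the basis `1, b, …, b^{p-1}` of `M` over `G` -/
noncomputable def Adapted.powBasis (hpow : ∀ x : M, ∃ g : G, algebraMap G M g = x ^ p)
    (X : Adapted p G M OG OM 1 s) : Module.Basis (Fin p) G M := (X.exists_powBasis hpow).choose

theorem Adapted.powBasis_apply (hpow : ∀ x : M, ∃ g : G, algebraMap G M g = x ^ p)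
    (X : Adapted p G M OG OM 1 s) (i : Fin p) : X.powBasis hpow i = X.b 0 ^ (i : ℕ) :=
  (X.exists_powBasis hpow).choose_spec i

/-- the abstract data of an adapted `p`-basis with `a = 1` -/
noncomputable def Adapted.cartData (hpow : ∀ x : M, ∃ g : G, algebraMap G M g = x ^ p)
    (X : Adapted p G M OG OM 1 s) : CartData p G M where
  B := X.powBasis hpow
  b := X.b 0
  c := X.c 0
  d := X.θM (Sum.inl 0)
  hB := X.powBasis_apply hpow
  hc := X.hc 0
  hdb := by
    have := X.hM.1.pd_apply (Sum.inl 0) (Sum.inl 0)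
    simpa [Adapted.θM] using this
  hdG := X.θM_inl 0

theorem Adapted.top_coeff_der (hpow : ∀ x : M, ∃ g : G, algebraMap G M g = x ^ p)
    (X : Adapted p G M OG OM 1 s) (f : M) (i : Fin p) (hi : (i : ℕ) = p - 1) :
    (X.powBasis hpow).repr (X.θM (Sum.inl 0) f) i = 0 :=
  (X.cartData hpow).top_der f i hi

/-- `τ_b (f^{p-1} ∂f) = (∂f)^p` -/
theorem Adapted.top_coeff (hpow : ∀ x : M, ∃ g : G, algebraMap G M g = x ^ p)
    (X : Adapted p G M OG OM 1 s) (f : M) (i : Fin p) (hi : (i : ℕ) = p - 1) :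
    algebraMap G M ((X.powBasis hpow).repr (f ^ (p - 1) * X.θM (Sum.inl 0) f) i) = X.θM (Sum.inl 0) f ^ p :=
  (X.cartData hpow).top_coeff f i hi

/-- `τ_b (w x) = w^p τ_{b'} (x)`, `w = ∂b'/∂b` -/
theorem Adapted.top_coeff_change (hpow : ∀ x : M, ∃ g : G, algebraMap G M g = x ^ p)
    (X : Adapted p G M OG OM 1 s) (X' : Adapted p G M OG' OM' 1 s) (x : M) (i : Fin p) (hi : (i : ℕ) = p - 1) :
    algebraMap G M ((X.powBasis hpow).repr (X.θM (Sum.inl 0) (X'.b 0) * x) i) =
      X.θM (Sum.inl 0) (X'.b 0) ^ p * algebraMap G M ((X'.powBasis hpow).repr x i) :=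
  (X.cartData hpow).top_change (X'.cartData hpow) x i hi

/-- the determinant identity -/
theorem Adapted.det_sq (hpow : ∀ x : M, ∃ g : G, algebraMap G M g = x ^ p)
    (X : Adapted p G M OG OM 1 s) (X' : Adapted p G M OG' OM' 1 s) :
    algebraMap G M ((X.powBasis hpow).toMatrix (X'.powBasis hpow)).det ^ 2 * X.phi X' ^ (p * (p - 1)) = 1 := by
  have h := (X.cartData hpow).det_sq (X'.cartData hpow)
  have hphi : X.phi X' = X'.θM (Sum.inl 0) (X.b 0) := by
    rw [Adapted.phi, Matrix.det_fin_one, Matrix.of_apply]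
  rw [hphi]
  exact h

end Field

section FF

variable {p : ℕ} [Fact p.Prime] {S G M : Type} [Field S] [Field G] [Field M] [Algebra S G] [Algebra S M]
  [Algebra G M] [IsScalarTower S G M] [CharP S p] [CharP G p] [CharP M p] [IsFF S G] [IsFF S M] [Module.Finite G M]
  {s : ℕ}

omit [IsScalarTower S G M] [CharP S p] [CharP G p] [CharP M p] [IsFF S G] [IsFF S M]
  [Module.Finite G M] in
/-- height one: at most one place above -/
theorem cart_over_unique (hpow : ∀ x : M, ∃ g : G, algebraMap G M g = x ^ p) {Q R : Place S M}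
    {Q' : Place S G} (hQ : Q.Over Q') (hR : R.Over Q') : R = Q := by
  have hp := (Fact.out : p.Prime)
  have key : ∀ {T : Place S M}, T.Over Q' → ∀ y : M, T.v y ≤ 1 ↔
      ∃ g : G, algebraMap G M g = y ^ p ∧ Q'.v g ≤ 1 := by
    intro T hT y
    constructor
    · intro hy
      obtain ⟨g, hg⟩ := hpow y
      refine ⟨g, hg, ?_⟩
      rw [← hT.v_le_one_iff, hg, map_pow]
      exact pow_le_one' hy _
    · rintro ⟨g, hg, hg'⟩
      rw [← hT.v_le_one_iff, hg, map_pow] at hg'
      exact (pow_le_one_iff hp.ne_zero).1 hg'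
  apply Place.eq_of_O_eq
  ext y
  rw [Valuation.mem_valuationSubring_iff, Valuation.mem_valuationSubring_iff, key hR, key hQ]

theorem Adapted.isIntBasis_powBasis (hpow : ∀ x : M, ∃ g : G, algebraMap G M g = x ^ p) {Q : Place S M}
    {Q' : Place S G} (hQ : Q.Over Q') (X : Adapted p G M Q'.O.toSubring Q.O.toSubring 1 s) :
    IsIntBasis Q' (X.powBasis hpow) := by
  intro x
  have hO : ∀ g : G, algebraMap G M g ∈ Q.O.toSubring ↔ g ∈ Q'.O.toSubring := fun g =>
    hQ.v_le_one_iff g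
  have hfree := (X.free hpow hO).2 (fun I => (X.powBasis hpow).repr x (I 0))
  rw [cart_sum_one X.b (fun i => (X.powBasis hpow).repr x i)] at hfree
  have hx : ∑ i, (X.powBasis hpow).repr x i • X.b 0 ^ (i : ℕ) = x := by
    conv_rhs => rw [← (X.powBasis hpow).sum_repr x]
    exact Finset.sum_congr rfl fun i _ => by rw [X.powBasis_apply]
  rw [hx] at hfree
  constructor
  · intro h i
    exact hfree.1 (h Q hQ) (fun _ => i)
  · intro h R hR
    rw [cart_over_unique hpow hQ hR]
    exact hfree.2 fun I => h (I 0)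

/-- **genus change in degree `p`** -/
theorem nu_step (hpow : ∀ x : M, ∃ g : G, algebraMap G M g = x ^ p) (hdeg : Module.finrank G M = p)
    (X : Adapted p G M ⊤ ⊤ 1 s) (XQ : LocAdapted p S G M 1 s) :
    nu S M = (p : ℤ) * nu S G - ((p : ℤ) - 1) * phiSum X XQ := by
  classical
  have hp := (Fact.out : p.Prime)
  have hp0 : (p : ℤ) ≠ 0 := by exact_mod_cast hp.ne_zero
  have he : ∀ P : Place S G, IsIntBasis P ((XQ (P.aboveP M)).powBasis hpow) := by
    intro P
    have h := Adapted.isIntBasis_powBasis hpow (Place.over_belowP G (P.aboveP M)) (XQ (P.aboveP M))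
    generalize (XQ (P.aboveP M)).powBasis hpow = e at h ⊢
    rwa [Place.belowP_aboveP] at h
  have hchi := chi_eq_of_frames (k := S) (X.powBasis hpow)
    (fun P => (XQ (P.aboveP M)).powBasis hpow) he
  rw [Fintype.card_fin] at hchi
  -- the local identity
  have hloc : ∀ P : Place S G,
      (2 : ℤ) * (P.ord ((X.powBasis hpow).toMatrix ((XQ (P.aboveP M)).powBasis hpow)).det * (P.deg : ℤ))
        = (-((p : ℤ) - 1)) * ((P.aboveP M).ord (X.phi (XQ (P.aboveP M))) * ((P.aboveP M).deg : ℤ)) := by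
    intro P
    set Q := P.aboveP M with hQdef
    have hQ : Q.Over P := P.aboveP_over M
    have hsq := X.det_sq hpow (XQ Q)
    set δ := ((X.powBasis hpow).toMatrix ((XQ Q).powBasis hpow)).det with hδ
    set φ := X.phi (XQ Q) with hφ
    have h1 : algebraMap G M δ ^ 2 ≠ 0 := left_ne_zero_of_mul_eq_one hsq
    have h2 : φ ^ (p * (p - 1)) ≠ 0 := right_ne_zero_of_mul_eq_one hsq
    have h3 := congrArg Q.ord hsq
    rw [Q.ord_mul h1 h2, Q.ord_pow, Q.ord_pow, Place.ord_one, hQ.ord_algebraMap] at h3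
    have h4 : ((Q.ramIdx P : ℤ)) * (Q.deg : ℤ) = (p : ℤ) * (P.deg : ℤ) := by
      have := ramIdx_mul_deg_of_pow hpow hQ
      rw [hdeg] at this
      exact_mod_cast this
    have h5 : ((p * (p - 1) : ℕ) : ℤ) = (p : ℤ) * ((p : ℤ) - 1) := by
      rw [Nat.cast_mul, Nat.cast_sub hp.one_le]
      norm_num
    rw [h5] at h3
    apply mul_left_cancel₀ hp0
    push_cast at h3
    calc (p : ℤ) * (2 * (P.ord δ * (P.deg : ℤ)))
        = 2 * P.ord δ * ((p : ℤ) * (P.deg : ℤ)) := by ring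
      _ = 2 * P.ord δ * ((Q.ramIdx P : ℤ) * (Q.deg : ℤ)) := by rw [h4]
      _ = (2 * ((Q.ramIdx P : ℤ) * P.ord δ)) * (Q.deg : ℤ) := by ring
      _ = (-((p : ℤ) * ((p : ℤ) - 1) * Q.ord φ)) * (Q.deg : ℤ) := by
          congr 1
          linarith
      _ = _ := by ring
  -- reindexing of the places
  let E : Place S G ≃ Place S M :=
    { toFun := fun P => P.aboveP M
      invFun := fun Q => Q.belowP G
      left_inv := fun P => P.belowP_aboveP M
      right_inv := fun Q => cart_over_unique hpow (Q.over_belowP G) ((Q.belowP G).aboveP_over M) }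
  have hsum : (2 : ℤ) * ∑ᶠ P : Place S G,
      P.ord ((X.powBasis hpow).toMatrix ((XQ (P.aboveP M)).powBasis hpow)).det * (P.deg : ℤ)
        = (-((p : ℤ) - 1)) * phiSum X XQ := by
    rw [mul_finsum, phiSum, mul_finsum,
      ← finsum_comp_equiv E (f := fun Q : Place S M =>
        (-((p : ℤ) - 1)) * (Q.ord (X.phi (XQ Q)) * (Q.deg : ℤ)))]
    exact finsum_congr hloc
  unfold nu
  rw [hchi]
  linarith

end FF

end Claimed.Agent.R280
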