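import Claimed.Agent.R280.Ins.AbsDetThm

/-!
# Row 280, Ins package D4a `Coord`: the tangent map to the trivial bundle, vanishing at a ramified label  ([D] §5.4, "Vanishing at a ramified label")

`M ⊇ ES` a finite extension.  Every `δ ∈ Der M` restricts on `ES` to `∑_k ω_k D_k` with unique `ω = C.coord δ ∈ M^{n+1}` (the map `T_M → γ^* T_E = O^{n+1}`).
`C.pair lam δ = ∑_k ω_k lam_k` for a constant covector `lam ∈ S^{n+1}`.

PLAN.
* `exists_coord`: take a `p`-basis `x` of `ES` (P1, P6); the matrix `(D_k x_i)` is invertible (`D_basis` and `pd x` are two bases of `Der ES`);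
  solve `δ x_i = ∑ ω_k D_k x_i`; both sides are derivations `ES → M` (`Derivation.compAlgebraMap`) agreeing on `x`: P8.
* `coord_int`: `P :=` place of `ES` below `Q`, `x` a `p`-basis on `O_P` (`exists_isPBasisOn`); `D` and `pd x` are local frames at `P` (`D_int`,
  `IsPBasisOn.isTBasis`), so `(D_k x_i) ∈ GL(O_P)` (as in `IsTBasis.v_det`); `ω = (δ x_i)_i (D_k x_i)⁻¹`, and `δ x_i ∈ O_Q`.
* `label_vanish`: `δ a_i = pair (cov i) δ + ∑_k ω_k (D_k a_i - cov_{i,k})`; the last sum has `v_Q ≤ exp(-e)` (`cov_spec`, `coord_int`, `OverE`);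
  `a_i = u τ^e` with `τ` a uniformiser at `Q`, `u` a unit; `p ∣ e` gives `δ a_i = τ^e δ u`.
~800 lines.   Owner of the statements: helper66.
-/

set_option autoImplicit false

namespace Claimed.Agent.R280

open WithZero

namespace InsData

variable {p : ℕ} [Fact p.Prime] {m h : ℕ} (C : InsData p m h) {M : Type} [Field M] [Algebra C.S M] [Algebra C.ES M]
  [IsScalarTower C.S C.ES M] [Module.Finite C.ES M] [CharP M p] [IsFF C.S M]

theorem crd_sum_apply {A N : Type} [CommRing A] [AddCommGroup N] [Module A N] {ι : Type} (s : Finset ι)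
    (d : ι → Derivation ℤ A N) (f : A) : (∑ k ∈ s, d k) f = ∑ k ∈ s, d k f := by
  classical
  induction s using Finset.induction_on with
  | empty => simp
  | insert a s ha ih => rw [Finset.sum_insert ha, Finset.sum_insert ha, Derivation.add_apply, ih]

/-- the matrix `(D_k x_j)` -/
def crdA (x : Fin (C.n + 1) → C.ES) : Matrix (Fin (C.n + 1)) (Fin (C.n + 1)) C.ES :=
  Matrix.of fun k j => C.D k (x j)

theorem crd_exists_mat {x : Fin (C.n + 1) → C.ES} (hx : IsPBasis p x) :
    ∃ c : Matrix (Fin (C.n + 1)) (Fin (C.n + 1)) C.ES, (∀ i, hx.pd i = ∑ k, c i k • C.D k) ∧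
      c * C.crdA x = 1 ∧ C.crdA x * c = 1 := by
  choose c hc _ using fun i => C.D_basis (hx.pd i)
  have h1 : Matrix.of c * C.crdA x = 1 := by
    ext i j
    rw [Matrix.mul_apply, Matrix.one_apply, ← hx.pd_apply i j, hc i, crd_sum_apply]
    rfl
  exact ⟨Matrix.of c, hc, h1, mul_eq_one_comm.1 h1⟩

omit [Algebra C.S M] [IsScalarTower C.S C.ES M] [IsFF C.S M] [Module.Finite C.ES M] [CharP M p] in
theorem crd_key {x : Fin (C.n + 1) → C.ES} (hx : IsPBasis p x)
    {c : Matrix (Fin (C.n + 1)) (Fin (C.n + 1)) C.ES} (h1 : c * C.crdA x = 1) (h2 : C.crdA x * c = 1)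
    (δ : Der M) (ω : Fin (C.n + 1) → M) :
    (∀ f : C.ES, δ (algebraMap C.ES M f) = ∑ k, ω k * algebraMap C.ES M (C.D k f)) ↔
      ∀ k, ω k = ∑ i, δ (algebraMap C.ES M (x i)) * algebraMap C.ES M (c i k) := by
  constructor
  · intro hω l
    have : ∀ i, δ (algebraMap C.ES M (x i)) * algebraMap C.ES M (c i l) =
        ∑ k, ω k * algebraMap C.ES M (C.crdA x k i * c i l) := by
      intro i
      rw [hω, Finset.sum_mul]
      exact Finset.sum_congr rfl fun k _ => by rw [map_mul, mul_assoc]; rfl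
    simp_rw [this]
    rw [Finset.sum_comm]
    simp_rw [← Finset.mul_sum, ← map_sum]
    have h3 : ∀ k, ∑ i, C.crdA x k i * c i l = if k = l then 1 else 0 := by
      intro k
      rw [← Matrix.mul_apply, h2, Matrix.one_apply]
    simp_rw [h3]
    simp
  · intro hω
    let d1 : Derivation ℤ C.ES M := δ.compAlgebraMap C.ES
    let d2 : Derivation ℤ C.ES M := ∑ k, ω k • (Algebra.linearMap C.ES M).compDer (C.D k)
    have hd : d1 = d2 := by
      refine hx.der_ext fun j => ?_
      change δ (algebraMap C.ES M (x j)) = _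
      rw [crd_sum_apply]
      change _ = ∑ k, ω k * algebraMap C.ES M (C.crdA x k j)
      simp_rw [hω, Finset.sum_mul]
      rw [Finset.sum_comm]
      simp_rw [mul_assoc, ← map_mul, ← Finset.mul_sum, ← map_sum]
      have h3 : ∀ i, ∑ k, c i k * C.crdA x k j = if i = j then 1 else 0 := by
        intro i
        rw [← Matrix.mul_apply, h1, Matrix.one_apply]
      simp_rw [h3]
      simp
    intro f
    have := congrArg (fun d : Derivation ℤ C.ES M => d f) hd
    change δ (algebraMap C.ES M f) = _ at this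
    rw [this, crd_sum_apply]
    rfl

/-- the members of a `p`-basis on `O` lie in `O` -/
theorem crd_pbasis_mem {K : Type} [Field K] {ι : Type} [Fintype ι] [DecidableEq ι] {O : Subring K} {x : ι → K}
    (hx : IsPBasisOn p O x) (i : ι) : x i ∈ O := by
  have hp : 1 < p := (Fact.out : p.Prime).one_lt
  let I0 : ι → Fin p := fun k => if k = i then ⟨1, hp⟩ else ⟨0, by omega⟩
  have h1 : pmon x I0 = x i := by
    unfold pmon
    rw [Finset.prod_eq_single i]
    · simp [I0]
    · intro k _ hk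
      simp [I0, hk]
    · intro hi
      exact absurd (Finset.mem_univ i) hi
  have h2 : pcomb p x (Pi.single I0 1) = x i := by
    unfold pcomb
    rw [Finset.sum_eq_single I0]
    · rw [Pi.single_eq_same, one_pow, one_mul, h1]
    · intro I _ hI
      rw [Pi.single_eq_of_ne hI, zero_pow (by omega), zero_mul]
    · intro hi
      exact absurd (Finset.mem_univ I0) hi
  rw [← h2, hx.2]
  intro I
  by_cases hI : I = I0
  · rw [hI, Pi.single_eq_same]
    exact O.one_mem
  · rw [Pi.single_eq_of_ne hI]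
    exact O.zero_mem

omit [Algebra C.S M] [IsScalarTower C.S C.ES M] [IsFF C.S M] [Module.Finite C.ES M] [CharP M p] in
theorem exists_coord (δ : Der M) : ∃! ω : Fin (C.n + 1) → M,
    ∀ f : C.ES, δ (algebraMap C.ES M f) = ∑ k, ω k * algebraMap C.ES M (C.D k f) := by
  obtain ⟨x, hx⟩ := exists_isPBasis p (hasPDeg_of_isFF C.S C.hasPDeg : HasPDeg p C.ES (C.n + 1))
  obtain ⟨c, -, h1, h2⟩ := C.crd_exists_mat hx
  exact ⟨fun k => ∑ i, δ (algebraMap C.ES M (x i)) * algebraMap C.ES M (c i k),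
    (C.crd_key hx h1 h2 δ _).2 fun _ => rfl, fun ω hω => funext ((C.crd_key hx h1 h2 δ ω).1 hω)⟩

/-- the coordinates of `δ|_{ES}` in the frame `C.D` -/
noncomputable def coord (δ : Der M) : Fin (C.n + 1) → M := (C.exists_coord δ).choose

omit [Algebra C.S M] [IsScalarTower C.S C.ES M] [IsFF C.S M] [Module.Finite C.ES M] [CharP M p] in
theorem coord_spec (δ : Der M) (f : C.ES) :
    δ (algebraMap C.ES M f) = ∑ k, C.coord δ k * algebraMap C.ES M (C.D k f) :=
  (C.exists_coord δ).choose_spec.1 f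

omit [Algebra C.S M] [IsScalarTower C.S C.ES M] [IsFF C.S M] [Module.Finite C.ES M] [CharP M p] in
theorem coord_unique (δ : Der M) (ω : Fin (C.n + 1) → M)
    (hω : ∀ f : C.ES, δ (algebraMap C.ES M f) = ∑ k, ω k * algebraMap C.ES M (C.D k f)) : C.coord δ = ω :=
  ((C.exists_coord δ).choose_spec.2 ω hω).symm

omit [Algebra C.S M] [IsScalarTower C.S C.ES M] [IsFF C.S M] [Module.Finite C.ES M] [CharP M p] in
theorem coord_add (δ δ' : Der M) : C.coord (δ + δ') = C.coord δ + C.coord δ' :=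
  C.coord_unique _ _ fun f => by
    rw [Derivation.add_apply, C.coord_spec δ, C.coord_spec δ', ← Finset.sum_add_distrib]
    exact Finset.sum_congr rfl fun k _ => by rw [Pi.add_apply, add_mul]

omit [Algebra C.S M] [IsScalarTower C.S C.ES M] [IsFF C.S M] [Module.Finite C.ES M] [CharP M p] in
theorem coord_smul (c : M) (δ : Der M) : C.coord (c • δ) = c • C.coord δ :=
  C.coord_unique _ _ fun f => by
    rw [Derivation.smul_apply, C.coord_spec δ, smul_eq_mul, Finset.mul_sum]
    exact Finset.sum_congr rfl fun k _ => by rw [Pi.smul_apply, smul_eq_mul, mul_assoc]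

omit [Algebra C.S M] [IsScalarTower C.S C.ES M] [IsFF C.S M] [Module.Finite C.ES M] [CharP M p] in
theorem coord_eq_zero_iff (δ : Der M) : C.coord δ = 0 ↔ ∀ f : C.ES, δ (algebraMap C.ES M f) = 0 := by
  constructor
  · intro h0 f
    rw [C.coord_spec, h0]
    simp
  · intro h0
    exact C.coord_unique _ _ fun f => by simp [h0 f]

/-- the value of the constant covector `lam` on `δ` -/
noncomputable def pair (lam : Fin (C.n + 1) → C.S) (δ : Der M) : M :=
  ∑ k, C.coord δ k * algebraMap C.S M (lam k)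

/-- the tangent map is integral -/
theorem coord_int (Q : Place C.S M) (δ : Der M) (hδ : ∀ f : M, Q.v f ≤ 1 → Q.v (δ f) ≤ 1) (k : Fin (C.n + 1)) :
    Q.v (C.coord δ k) ≤ 1 := by
  have hQP := Q.over_belowP C.ES
  obtain ⟨x, hx⟩ := exists_isPBasisOn C.hasPDeg (Q.belowP C.ES)
  obtain ⟨c, hc, h1, h2⟩ := C.crd_exists_mat hx.1
  have hT := hx.isTBasis
  have hcint : ∀ i k, (Q.belowP C.ES).v (c i k) ≤ 1 := by
    intro i
    rw [← C.D_int (Q.belowP C.ES) (c i), ← hc i, hT (hx.1.pd i)]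
    intro k
    rw [Module.Basis.repr_self, Finsupp.single_apply]
    split_ifs <;> simp
  rw [(C.crd_key hx.1 h1 h2 δ (C.coord δ)).1 (C.coord_spec δ) k]
  refine Valuation.map_sum_le _ fun i _ => ?_
  rw [map_mul]
  refine mul_le_one' (hδ _ ?_) ((hQP.v_le_one_iff _).2 (hcint i k))
  exact (hQP.v_le_one_iff _).2 (crd_pbasis_mem hx i)

theorem pair_int (Q : Place C.S M) (δ : Der M) (hδ : ∀ f : M, Q.v f ≤ 1 → Q.v (δ f) ≤ 1)
    (lam : Fin (C.n + 1) → C.S) : Q.v (C.pair lam δ) ≤ 1 := by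
  refine Valuation.map_sum_le _ fun k _ => ?_
  rw [map_mul]
  exact mul_le_one' (C.coord_int Q δ hδ k) (Q.algebraMap_mem (lam k))

/-- **vanishing along the full fibre at a ramified label** -/
theorem label_vanish (i : C.I) (Q : Place C.S M) (hQ : Q.Over (C.tS i)) (hp : p ∣ Q.ramIdx (C.tS i)) (δ : Der M)
    (hδ : ∀ f : M, Q.v f ≤ 1 → Q.v (δ f) ≤ 1) :
    Q.v (C.pair (C.cov i) δ) ≤ exp (-(Q.ramIdx (C.tS i) : ℤ)) := by
  have hE := Place.overE_ramIdx hQ
  obtain ⟨τ, hτ⟩ := Q.exists_unif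
  have hτ0 : τ ≠ 0 := by
    rintro rfl
    rw [map_zero] at hτ
    exact exp_ne_zero hτ.symm
  have hτe : Q.v (τ ^ Q.ramIdx (C.tS i)) = exp (-(Q.ramIdx (C.tS i) : ℤ)) := by
    rw [map_pow, hτ, ← exp_nsmul]
    simp
  have ha : Q.v (algebraMap C.ES M (C.a i)) = exp (-(Q.ramIdx (C.tS i) : ℤ)) := by
    rw [hE.2, C.a_unif, ← exp_nsmul]
    simp
  -- `a_i = u τ^e`
  have hu : Q.v (algebraMap C.ES M (C.a i) / τ ^ Q.ramIdx (C.tS i)) = 1 := by
    rw [map_div₀, ha, hτe]
    exact div_self exp_ne_zero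
  have hau : algebraMap C.ES M (C.a i) =
      algebraMap C.ES M (C.a i) / τ ^ Q.ramIdx (C.tS i) * τ ^ Q.ramIdx (C.tS i) :=
    (div_mul_cancel₀ _ (pow_ne_zero _ hτ0)).symm
  have he0 : ((Q.ramIdx (C.tS i) : ℕ) : M) = 0 := (CharP.cast_eq_zero_iff M p _).2 hp
  have hδa : Q.v (δ (algebraMap C.ES M (C.a i))) ≤ exp (-(Q.ramIdx (C.tS i) : ℤ)) := by
    rw [hau, Derivation.leibniz, Derivation.leibniz_pow, nsmul_eq_mul, he0, zero_mul, smul_zero, zero_add,
      smul_eq_mul, map_mul, hτe]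
    exact mul_le_of_le_one_right' (hδ _ hu.le)
  -- the remainder
  have hR : Q.v (∑ k, C.coord δ k * algebraMap C.ES M (C.D k (C.a i) - algebraMap C.S C.ES (C.cov i k))) ≤
      exp (-(Q.ramIdx (C.tS i) : ℤ)) := by
    refine Valuation.map_sum_le _ fun k _ => ?_
    rw [map_mul]
    have h1 := hQ.v_algebraMap_le_exp (((C.tS i).v_lt_one_iff_le _).1 (C.cov_spec i k))
    rw [mul_neg_one] at h1
    exact (mul_le_mul' (C.coord_int Q δ hδ k) h1).trans (one_mul _).le
  have hsplit : C.pair (C.cov i) δ = δ (algebraMap C.ES M (C.a i)) -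
      ∑ k, C.coord δ k * algebraMap C.ES M (C.D k (C.a i) - algebraMap C.S C.ES (C.cov i k)) := by
    rw [C.coord_spec, ← Finset.sum_sub_distrib]
    refine Finset.sum_congr rfl fun k _ => ?_
    rw [map_sub, ← IsScalarTower.algebraMap_apply]
    ring
  rw [hsplit]
  exact (Q.v.map_sub _ _).trans (max_le hδa hR)

end InsData

end Claimed.Agent.R280
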