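import Claimed.Agent.R280.Spec.Defs

/-!
# Row 280, package Ins ([D] inseparable genus estimate): definitions and the TOP interface

Language: fields, places, derivations.  No sheaves, no Kähler differentials, no duality.
`Der M := Derivation ℤ M M` (in characteristic `p` every derivation kills `M^p`).

`InsData p m h` = the abstract input of the estimate:
* `S/F` finite Galois, `ES = EE ⊗_F S` a field, `[S : S^p] = p^n`, `χ(ES/S) = 0`;
* a GLOBAL FRAME `D 0 … D n` of `Der ES` which is a basis of the lattice `T_P = {θ | θ O_P ⊆ O_P}` at EVERY place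
  (for `ES = S(A_0)`: the invariant derivation of `A_0` and the derivations of `S`);
* the marked places `t l` of `EE/F` split in `ES` into rational places `tS i`; `cov i k ∈ S` is the value at `tS i`
  of `D k (a i)`, `a i` a uniformiser at `tS i`  (the covector `(1, -t_i^* η)` up to a unit);
* label rank ([T] Lemma 4.6): any set `A` of covectors has rank `≥ |A| - h`;
* index ([T] Cor. 4.5): every place of `EE/F` has degree divisible by `N`, `N > m (h + log_p m)`.

Owner: helper66.
-/

set_option autoImplicit false

namespace Claimed.Agent.R280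

open WithZero

/-- absolute derivations of a field -/
abbrev Der (M : Type) [Field M] : Type := Derivation ℤ M M

structure InsData (p : ℕ) [Fact p.Prime] (m h : ℕ) where
  F : Type
  S : Type
  EE : Type
  ES : Type
  [fF : Field F]
  [fS : Field S]
  [fEE : Field EE]
  [fES : Field ES]
  [aFS : Algebra F S]
  [aFEE : Algebra F EE]
  [aSES : Algebra S ES]
  [aEEES : Algebra EE ES]
  [aFES : Algebra F ES]
  [tw1 : IsScalarTower F S ES]
  [tw2 : IsScalarTower F EE ES]
  [cp : CharP F p]
  [cpS : CharP S p]
  [ffE : IsFF F EE]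
  [finS : FiniteDimensional F S]
  [galS : IsGalois F S]
  po : Algebra.IsPushout F S EE ES
  /-- the `p`-degree of `S` -/
  n : ℕ
  pdeg : Module.finrank (frobenius S p).fieldRange S = p ^ n
  chi0 : chi S ES = 0
  /-- the global frame -/
  D : Fin (n + 1) → Der ES
  D_basis : ∀ θ : Der ES, ∃! c : Fin (n + 1) → ES, θ = ∑ k, c k • D k
  D_int : ∀ (P : Place S ES) (c : Fin (n + 1) → ES),
    (∀ f : ES, P.v f ≤ 1 → P.v ((∑ k, c k • D k) f) ≤ 1) ↔ ∀ k, P.v (c k) ≤ 1
  /-- marked places over `F` and over `S` -/
  Lam : Type
  [ftLam : Fintype Lam]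
  t : Lam → Place F EE
  t_inj : Function.Injective t
  I : Type
  [ftI : Fintype I]
  tS : I → Place S ES
  tS_inj : Function.Injective tS
  tS_deg : ∀ i, (tS i).deg = 1
  tS_iff : ∀ Q : Place S ES, Q ∈ Set.range tS ↔ ∃ l, Q.Over (t l)
  /-- uniformisers and covectors -/
  a : I → ES
  a_unif : ∀ i, (tS i).v (a i) = exp (-1)
  cov : I → Fin (n + 1) → S
  cov_spec : ∀ i k, (tS i).v (D k (a i) - algebraMap S ES (cov i k)) < 1
  rank : ∀ A : Finset I, A.card ≤ Module.finrank S (Submodule.span S (cov '' (A : Set I))) + h
  /-- the index -/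
  N : ℕ
  index : ∀ P : Place F EE, N ∣ P.deg
  N_large : m * (h + Nat.log p m) < N

attribute [instance] InsData.fF InsData.fS InsData.fEE InsData.fES InsData.aFS InsData.aFEE InsData.aSES
  InsData.aEEES InsData.aFES InsData.tw1 InsData.tw2 InsData.cp InsData.cpS InsData.ffE InsData.finS
  InsData.galS InsData.ftLam InsData.ftI

end Claimed.Agent.R280
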