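import Claimed.Agent.R280.Ins.Tower

/-!
# Row 280, Ins package D6 `Descent`: from `S` back to `F`, exact rounding  ([D] §5.4, first and last step)

PLAN.
* `nonempty_baseChg`: `MS := MM ⊗_{EE} ES`.  `ES/EE` is finite separable (`ES = EE ⊗_F S`, `S/F` separable), `MM/EE` purely inseparable: the tensor product is a
  field (linear disjointness of separable and purely inseparable extensions: Mathlib `IsPurelyInseparable` / `LinearDisjoint` API; or: `MS` is a finite
  `MM`-algebra, reduced because `ES/EE` is separable, and local because `x ↦ x^{p^k}` maps it into `ES`).  `MS = MM ⊗_F S` by associativity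
  (`Algebra.IsPushout.comp`-type lemmas), `[MS:ES] = [MM:EE]`, and `x^{p^k} ∈ ES` for all `x` gives `IsPurelyInseparable`.
* `sum_labels`: for each `l`: the places of `MS` over `z l` are the `zS i` with `tS i` over `t l` (a place of `MS` lies over `z l` iff its restriction to `EE` is
  `t l`, `z l` being the only place over `t l`; `tS_iff`, `tS_inj`, uniqueness of the place of `MS` above `tS i`).  `sum_deg_constExt` for `MM` and `z l`:
  `∑_{i | l} deg (zS i) = deg (z l)`; for `EE` and `t l`: `#{i | l} = deg (t l)` (`tS_deg`, `Place.ramIdx_constExt`).  Every `i` belongs to exactly one `l`.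
* `dvd_nu`: FF5 over `F` for `MM/EE` with any global basis and `exists_isIntBasis`: `χ(MM) = d χ(EE) - ∑ ord · deg P`; `χ_F(EE) = χ_S(ES) = 0`
  (`chi_constExt`, `chi0`), `N ∣ deg P` (`index`); a `finsum` of multiples of `N` is a multiple of `N`.
* `dvd_sum`: `index`, `Place.deg_dvd_deg`.
* `ins_main` (file Ins/Top.lean): PROVED from these and `approx_main`.
~1200 lines.   Owner of the statements: helper66.
-/

set_option autoImplicit false

namespace Claimed.Agent.R280

open WithZero

section BaseChgAux

/-- criterion for `MS = S ⊗_F M` by a basis -/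
theorem d6_isPushout_of_basis {F S M MS ι : Type*} [Field F] [Field S] [Field M] [Field MS]
    [Algebra F S] [Algebra F M] [Algebra S MS] [Algebra M MS] [Algebra F MS] [IsScalarTower F S MS]
    [IsScalarTower F M MS] (s : Module.Basis ι F S) (B : Module.Basis ι M MS)
    (hB : ∀ i, B i = algebraMap S MS (s i)) : Algebra.IsPushout F S M MS := by
  refine Algebra.IsPushout.symm ⟨?_⟩
  have h3 : IsBaseChange M ((Finsupp.linearCombination F B).comp s.repr.toLinearMap) :=
    IsBaseChange.comp_equiv s.repr (Finsupp.linearCombination F B) (IsBaseChange.of_basis F B)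
  have h4 : (IsScalarTower.toAlgHom F S MS).toLinearMap
      = (Finsupp.linearCombination F B).comp s.repr.toLinearMap := by
    refine s.ext fun i => ?_
    simp [hB]
  rw [h4]
  exact h3

variable {F S EE ES MM MS : Type} [Field F] [Field S] [Field EE] [Field ES] [Field MM] [Field MS]
  [Algebra F S] [Algebra F EE] [Algebra S ES] [Algebra EE ES] [Algebra F ES] [IsScalarTower F S ES]
  [IsScalarTower F EE ES] [FiniteDimensional F S] [Algebra.IsSeparable F S]
  [Algebra F MM] [Algebra EE MM] [IsScalarTower F EE MM] [Module.Finite EE MM]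
  [IsPurelyInseparable EE MM]
  [Algebra S MS] [Algebra ES MS] [Algebra MM MS] [Algebra F MS] [Algebra EE MS]
  [IsScalarTower S ES MS] [IsScalarTower F S MS] [IsScalarTower F MM MS] [IsScalarTower EE MM MS]
  [IsScalarTower EE ES MS]

theorem d6_baseChg_of_span (po : Algebra.IsPushout F S EE ES)
    (hgen : ∀ z : MS, z ∈ Submodule.span MM (Set.range (algebraMap ES MS))) :
    Algebra.IsPushout F S MM MS ∧ Module.Finite ES MS ∧ IsPurelyInseparable ES MS ∧
      Module.finrank ES MS = Module.finrank EE MM := by
  classical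
  have hsepE : Algebra.IsSeparable EE ES := isSeparable_constExt po
  set s := Module.finBasis F S with hs
  obtain ⟨b, hb⟩ := basis_constExt po s
  have hbS : ∀ i, algebraMap S MS (s i) = algebraMap ES MS (b i) := by
    intro i
    rw [hb, ← IsScalarTower.algebraMap_apply]
  -- linear independence over `MM`
  have hli : LinearIndependent MM fun i => algebraMap S MS (s i) := by
    simp only [hbS]
    have h1 : LinearIndependent EE fun i => algebraMap ES MS (b i) :=
      b.linearIndependent.map' (IsScalarTower.toAlgHom EE ES MS).toLinearMap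
        (LinearMap.ker_eq_bot_of_injective (algebraMap ES MS).injective)
    refine h1.map_of_isPurelyInseparable_of_isSeparable MM fun i => ?_
    exact (Algebra.IsSeparable.isSeparable EE (b i)).map (IsScalarTower.toAlgHom EE ES MS)
      (algebraMap ES MS).injective
  have hsp : ⊤ ≤ Submodule.span MM (Set.range fun i => algebraMap S MS (s i)) := by
    intro z _
    refine Submodule.span_le.2 ?_ (hgen z)
    rintro _ ⟨x, rfl⟩
    rw [← b.sum_repr x, map_sum]
    refine Submodule.sum_mem _ fun i _ => ?_
    rw [Algebra.smul_def, map_mul, ← IsScalarTower.algebraMap_apply,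
      IsScalarTower.algebraMap_apply EE MM MS, ← Algebra.smul_def, ← hbS]
    exact Submodule.smul_mem _ _ (Submodule.subset_span ⟨i, rfl⟩)
  set B : Module.Basis _ MM MS := Module.Basis.mk hli hsp with hB
  have hBi : ∀ i, B i = algebraMap S MS (s i) := fun i => by rw [hB, Module.Basis.mk_apply]
  have hpo : Algebra.IsPushout F S MM MS := d6_isPushout_of_basis s B hBi
  have hFES : IsScalarTower F ES MS := IsScalarTower.of_algebraMap_eq fun x => by
    rw [IsScalarTower.algebraMap_apply F S MS, IsScalarTower.algebraMap_apply S ES MS,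
      ← IsScalarTower.algebraMap_apply F S ES]
  have hpo2 : Algebra.IsPushout EE MM ES MS := by
    have := po.symm
    exact (Algebra.IsPushout.comp_iff F EE S ES).1 hpo.symm
  refine ⟨hpo, finite_constExt hpo2, ?_, finrank_constExt hpo2⟩
  -- purely inseparable
  obtain ⟨q, hq⟩ := ExpChar.exists EE
  have hqMM : ExpChar MM q := expChar_of_injective_algebraMap (algebraMap EE MM).injective q
  have hqES : ExpChar ES q := expChar_of_injective_algebraMap (algebraMap EE ES).injective q
  have hqMS : ExpChar MS q := expChar_of_injective_algebraMap (algebraMap EE MS).injective q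
  rw [isPurelyInseparable_iff_pow_mem ES q]
  intro x
  choose f hf using fun c : MM => (isPurelyInseparable_iff_pow_mem EE q).1 ‹_› c
  set n := Finset.univ.sup fun i => f (B.repr x i) with hn
  refine ⟨n, ?_⟩
  rw [← B.sum_repr x, sum_pow_char_pow]
  refine Subring.sum_mem _ fun i _ => ?_
  rw [Algebra.smul_def, mul_pow]
  refine Subring.mul_mem _ ?_ ?_
  · have h1 : f (B.repr x i) ≤ n := Finset.le_sup (f := fun i => f (B.repr x i)) (Finset.mem_univ i)
    obtain ⟨e, he⟩ := hf (B.repr x i)
    refine ⟨algebraMap EE ES (e ^ q ^ (n - f (B.repr x i))), ?_⟩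
    rw [← IsScalarTower.algebraMap_apply, IsScalarTower.algebraMap_apply EE MM MS, map_pow, he,
      ← pow_mul, ← pow_add, Nat.add_sub_of_le h1, map_pow]
  · exact ⟨(b i) ^ q ^ n, by rw [map_pow, hBi, hbS]⟩

end BaseChgAux

section BaseChgAux2

variable {F S EE ES MM : Type} [Field F] [Field S] [Field EE] [Field ES] [Field MM]
  [Algebra F S] [Algebra F EE] [Algebra S ES] [Algebra EE ES] [Algebra F ES] [IsScalarTower F S ES]
  [IsScalarTower F EE ES]
  [Algebra F MM] [Algebra EE MM] [IsScalarTower F EE MM]

theorem d6_exists_compositum [Algebra.IsAlgebraic EE ES] :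
    ∃ (MS : Type) (_ : Field MS) (_ : Algebra S MS) (_ : Algebra ES MS) (_ : Algebra MM MS)
      (_ : Algebra F MS) (_ : Algebra EE MS) (_ : IsScalarTower S ES MS) (_ : IsScalarTower F S MS)
      (_ : IsScalarTower F MM MS) (_ : IsScalarTower EE MM MS) (_ : IsScalarTower EE ES MS),
      ∀ z : MS, z ∈ Submodule.span MM (Set.range (algebraMap ES MS)) := by
  let ψ : ES →ₐ[EE] AlgebraicClosure MM := IsAlgClosed.lift
  let K : IntermediateField MM (AlgebraicClosure MM) := IntermediateField.adjoin MM (Set.range ψ)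
  have hmem : ∀ x : ES, ψ x ∈ K := fun x => IntermediateField.subset_adjoin _ _ ⟨x, rfl⟩
  let aES : Algebra ES K := (ψ.toRingHom.codRestrict K.toSubring hmem).toAlgebra
  let aS : Algebra S K := ((algebraMap ES K).comp (algebraMap S ES)).toAlgebra
  have t1 : IsScalarTower S ES K := IsScalarTower.of_algebraMap_eq fun _ => rfl
  have t5 : IsScalarTower EE ES K := IsScalarTower.of_algebraMap_eq fun x => by
    apply Subtype.ext
    exact (ψ.commutes x).symm
  have t2 : IsScalarTower F S K := IsScalarTower.of_algebraMap_eq fun x => by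
    change algebraMap F K x = algebraMap ES K (algebraMap S ES (algebraMap F S x))
    rw [← IsScalarTower.algebraMap_apply F S ES, IsScalarTower.algebraMap_apply F EE ES,
      ← IsScalarTower.algebraMap_apply EE ES K, IsScalarTower.algebraMap_apply EE MM K,
      ← IsScalarTower.algebraMap_apply F EE MM, ← IsScalarTower.algebraMap_apply F MM K]
  refine ⟨K, inferInstance, aS, aES, inferInstance, inferInstance, inferInstance, t1, t2,
    inferInstance, inferInstance, t5, ?_⟩
  intro z
  have h1 : (z : AlgebraicClosure MM) ∈ Submodule.span MM (Set.range ψ) := by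
    have h2 : K.toSubalgebra = Algebra.adjoin MM (Set.range ψ) :=
      IntermediateField.adjoin_toSubalgebra_of_isAlgebraic fun x _ =>
        Algebra.IsAlgebraic.isAlgebraic x
    have h3 : (z : AlgebraicClosure MM) ∈ Subalgebra.toSubmodule (Algebra.adjoin MM (Set.range ψ)) := by
      rw [← h2]
      exact z.2
    rw [Algebra.adjoin_eq_span] at h3
    have h4 : ((Submonoid.closure (Set.range ψ) : Submonoid (AlgebraicClosure MM)) : Set _)
        = Set.range ψ := by
      have : Set.range ψ = ((MonoidHom.mrange (ψ : ES →* AlgebraicClosure MM) : Submonoid _) : Set _) := by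
        ext y; simp
      rw [this, Submonoid.closure_eq]
    rwa [h4] at h3
  have h5 : Submodule.map K.val.toLinearMap (Submodule.span MM (Set.range (algebraMap ES K)))
      = Submodule.span MM (Set.range ψ) := by
    rw [Submodule.map_span, ← Set.range_comp]
    rfl
  rw [← h5] at h1
  obtain ⟨w, hw, hwz⟩ := h1
  have : w = z := Subtype.ext hwz
  rwa [← this]

end BaseChgAux2

section SumDeg

variable {F S M MS : Type*} [Field F] [Field S] [Field M] [Field MS] [Algebra F S] [Algebra F M]
  [Algebra S MS] [Algebra M MS] [Algebra F MS] [IsScalarTower F S MS] [IsScalarTower F M MS]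
  [IsFF F M] [FiniteDimensional F S] [Algebra.IsSeparable F S]

/-- the degrees of the places above `P` in a separable constant field extension add up to `deg P` -/
theorem d6_sum_deg (h : Algebra.IsPushout F S M MS) (P : Place F M) {ι : Type*} (J : Finset ι)
    (Qf : ι → Place S MS) (hinj : Set.InjOn Qf J)
    (hQ : ∀ Q : Place S MS, Q.Over P ↔ ∃ i ∈ J, Qf i = Q) : ∑ i ∈ J, (Qf i).deg = P.deg := by
  classical
  rw [← sum_deg_constExt h P, finsum_eq_sum_of_support_subset (s := J.image Qf),
    Finset.sum_image hinj]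
  · refine Finset.sum_congr rfl fun i hi => ?_
    rw [Place.ramIdx_constExt h ((hQ _).2 ⟨i, hi, rfl⟩), one_mul]
  · intro Q hQs
    have h1 : Q.Over P := by
      by_contra hc
      exact hQs (by simp only [Place.ramIdx_eq_zero hc, zero_mul])
    obtain ⟨i, hi, rfl⟩ := (hQ Q).1 h1
    exact Finset.mem_coe.2 (Finset.mem_image_of_mem _ hi)

end SumDeg

/-- the base change `MS = MM ⊗_F S` of a purely inseparable cover `MM/EE` -/
structure BaseChg {p : ℕ} [Fact p.Prime] {m h : ℕ} (C : InsData p m h) (MM : Type) [Field MM] [Algebra C.F MM]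
    [Algebra C.EE MM] where
  MS : Type
  [fMS : Field MS]
  [aS : Algebra C.S MS]
  [aES : Algebra C.ES MS]
  [aMM : Algebra MM MS]
  [aF : Algebra C.F MS]
  [aEE : Algebra C.EE MS]
  [twSES : IsScalarTower C.S C.ES MS]
  [twFS : IsScalarTower C.F C.S MS]
  [twFMM : IsScalarTower C.F MM MS]
  [twEEMM : IsScalarTower C.EE MM MS]
  [twEEES : IsScalarTower C.EE C.ES MS]
  po : Algebra.IsPushout C.F C.S MM MS
  [fin : Module.Finite C.ES MS]
  [pin : IsPurelyInseparable C.ES MS]
  deg_eq : Module.finrank C.ES MS = Module.finrank C.EE MM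

attribute [instance] BaseChg.fMS BaseChg.aS BaseChg.aES BaseChg.aMM BaseChg.aF BaseChg.aEE BaseChg.twSES
  BaseChg.twFS BaseChg.twFMM BaseChg.twEEMM BaseChg.twEEES BaseChg.fin BaseChg.pin

namespace InsData

variable {p : ℕ} [Fact p.Prime] {m h : ℕ} (C : InsData p m h) (MM : Type) [Field MM] [Algebra C.F MM]
  [Algebra C.EE MM] [IsScalarTower C.F C.EE MM] [Module.Finite C.EE MM] [IsPurelyInseparable C.EE MM]

theorem nonempty_baseChg : Nonempty (BaseChg C MM) := by
  have : Module.Finite C.EE C.ES := finite_constExt C.po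
  obtain ⟨MS, i1, i2, i3, i4, i5, i6, t1, t2, t3, t4, t5, hgen⟩ :=
    d6_exists_compositum (F := C.F) (S := C.S) (EE := C.EE) (ES := C.ES) (MM := MM)
  obtain ⟨h1, h2, h3, h4⟩ := d6_baseChg_of_span C.po hgen
  exact ⟨{ MS := MS, po := h1, deg_eq := h4 }⟩

theorem dvd_nu : (C.N : ℤ) ∣ nu C.F MM := by
  classical
  have hchi : chi C.F C.EE = 0 := by rw [← chi_constExt C.po, C.chi0]
  choose e he using fun P : Place C.F C.EE => exists_isIntBasis (M' := MM) P
  have h := chi_eq_of_frames (Module.finBasis C.EE MM) e he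
  rw [hchi, mul_zero, zero_sub] at h
  unfold nu
  rw [h]
  refine Dvd.dvd.mul_left ((dvd_neg).2 ?_) _
  refine finsum_induction (fun x => (C.N : ℤ) ∣ x) (dvd_zero _) (fun _ _ => dvd_add) fun P => ?_
  exact Dvd.dvd.mul_left (Int.natCast_dvd_natCast.2 (C.index P)) _

variable {MM}

theorem dvd_sum (z : C.Lam → Place C.F MM) (hz : ∀ l, (z l).Over (C.t l)) :
    (C.N : ℤ) ∣ ∑ l, ((Module.finrank C.EE MM : ℤ) * ((C.t l).deg : ℤ) - ((z l).deg : ℤ)) := by
  refine Finset.dvd_sum fun l _ => dvd_sub ?_ ?_
  · exact Dvd.dvd.mul_left (Int.natCast_dvd_natCast.2 (C.index _)) _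
  · exact Int.natCast_dvd_natCast.2 ((C.index (C.t l)).trans (Place.deg_dvd_deg (hz l)))

theorem sum_labels (X : BaseChg C MM) (z : C.Lam → Place C.F MM) (hz : ∀ l, (z l).Over (C.t l))
    (zS : C.I → Place C.S X.MS) (hzS : ∀ i, (zS i).Over (C.tS i)) :
    ∑ i, ((Module.finrank C.EE MM : ℤ) - ((zS i).deg : ℤ)) =
      ∑ l, ((Module.finrank C.EE MM : ℤ) * ((C.t l).deg : ℤ) - ((z l).deg : ℤ)) := by
  classical
  have ffMM : IsFF C.F MM := isFF_of_finite C.F C.EE MM
  have ffES : IsFF C.S C.ES := isFF_constExt C.po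
  choose lam hlam using fun i => (C.tS_iff (C.tS i)).1 ⟨i, rfl⟩
  have hlam' : ∀ i l, (C.tS i).Over (C.t l) → lam i = l := fun i l h =>
    C.t_inj ((hlam i).unique h)
  -- the places of `ES` over `t l`
  have hA : ∀ l, ((Finset.univ.filter fun i => lam i = l).card : ℤ) = ((C.t l).deg : ℤ) := by
    intro l
    have h1 := d6_sum_deg C.po (C.t l) (Finset.univ.filter fun i => lam i = l) C.tS
      (C.tS_inj.injOn) (fun Q => ⟨fun hQ => by
        obtain ⟨i, rfl⟩ := (C.tS_iff Q).2 ⟨l, hQ⟩
        exact ⟨i, Finset.mem_filter.2 ⟨Finset.mem_univ _, hlam' i l hQ⟩, rfl⟩, by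
        rintro ⟨i, hi, rfl⟩
        rw [← (Finset.mem_filter.1 hi).2]
        exact hlam i⟩)
    simp only [C.tS_deg, Finset.sum_const, smul_eq_mul, mul_one] at h1
    exact_mod_cast h1
  -- the places of `MS` over `z l`
  have hzinj : Function.Injective zS := fun i j hij =>
    C.tS_inj ((hzS i).unique (hij ▸ hzS j))
  have hup : ∀ i, (zS i).Over (z (lam i)) := by
    intro i
    have h1 : (zS i).Over (C.t (lam i)) := (hzS i).trans (hlam i)
    obtain ⟨P', hP', -⟩ := Place.existsUnique_below_constExt X.po (zS i)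
    obtain ⟨P'', hP'', -⟩ := Place.existsUnique_below (k := C.F) (M := C.EE) (M' := MM) P'
    have h2 : (zS i).Over P'' := hP'.trans hP''
    have h3 : P'' = C.t (lam i) := h2.unique h1
    rw [h3] at hP''
    rw [← Place.over_unique_of_purelyInseparable hP'' (hz (lam i))]
    exact hP'
  have hB : ∀ l, ∑ i ∈ Finset.univ.filter (fun i => lam i = l), (zS i).deg = (z l).deg := by
    intro l
    refine d6_sum_deg X.po (z l) _ zS hzinj.injOn fun Q => ⟨fun hQ => ?_, ?_⟩
    · obtain ⟨Q₀, hQ₀, -⟩ := Place.existsUnique_below (k := C.S) (M := C.ES) (M' := X.MS) Q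
      obtain ⟨P, hP, -⟩ := Place.existsUnique_below_constExt C.po Q₀
      have h1 : Q.Over (C.t l) := hQ.trans (hz l)
      have h2 : Q.Over P := hQ₀.trans hP
      have h3 : P = C.t l := h2.unique h1
      rw [h3] at hP
      obtain ⟨i, rfl⟩ := (C.tS_iff Q₀).2 ⟨l, hP⟩
      exact ⟨i, Finset.mem_filter.2 ⟨Finset.mem_univ _, hlam' i l hP⟩,
        Place.over_unique_of_purelyInseparable (hzS i) hQ₀⟩
    · rintro ⟨i, hi, rfl⟩
      rw [← (Finset.mem_filter.1 hi).2]
      exact hup i
  rw [← Finset.sum_fiberwise Finset.univ lam]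
  refine Finset.sum_congr rfl fun l _ => ?_
  rw [Finset.sum_sub_distrib, Finset.sum_const, nsmul_eq_mul, hA l, ← hB l]
  push_cast
  ring

end InsData

end Claimed.Agent.R280
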