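import Claimed.Agent.R280.Ins.Kappa

/-!
# Row 280, Ins package D3a `HeightOne`: Jacobians of adapted `p`-bases, the `κ`-recurrence  ([D] Lemma 5.5, tangent part)

`G ⊆ M` function fields over `S`, `M^p ⊆ G`, `[M:G] = p^a`.  `X` global adapted `p`-bases `(b, c = b^p, y)`, `XQ Q` local ones at `Q`.
`φ_Q = det (∂ b_k / ∂ b_{Q,l})`  (transition of the foliation `F = Der_G M`),  `μ_Q = det (∂ y_k / ∂ y_{Q,i}) ∈ G`.

PLAN.
* `det_M`: the matrix `(∂' x_i)` is block triangular: `∂/∂b'_l` kills `G` (it kills `c' = b'^p`, `y'` and `p`-th powers; P8), and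
  `∂^M/∂y'_i` restricted to `G` is `∂^G/∂y'_i` (P8).  `Matrix.det_fromBlocks_zero₂₁`.
* `det_G`: `∂^G c_k/∂y'_i = ∂^M (b_k^p)/∂y'_i = 0`; `b_k = ∑ g_I b'^I` (`Adapted.free`), `c_k = ∑ g_I^p c'^I`, so
  `∂ c_k/∂ c'_l = (∂ b_k/∂ b'_l)^p`; `det` commutes with Frobenius (`RingHom.map_det`).
* `kap_heightOne`: outside the two finite sets all four frames are local frames, `IsTBasis.v_det`: `ord (φ μ) = 0 = ord (φ^p μ)`, so
  `ord φ = ord μ = 0`: finite supports, `finsum_add_distrib`.  For `G`: reindex `Place S G ≃ Place S M` (`belowP`, `aboveP`), and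
  `ord_Q (g) deg Q = e ord_{Q'} (g) deg Q = p^a ord_{Q'} (g) deg Q'` (`ramIdx_mul_deg_of_pow`).
~900 lines.   Owner of the statements: helper66.
-/

set_option autoImplicit false
set_option linter.unusedSectionVars false

namespace Claimed.Agent.R280

open WithZero

section Below

variable {S M : Type} [Field S] [Field M] [Algebra S M]

/-- the place of `G` below `Q` -/
noncomputable def Place.belowP (G : Type) [Field G] [Algebra S G] [Algebra G M] [IsScalarTower S G M] [IsFF S G]
    [Module.Finite G M] (Q : Place S M) : Place S G := (Place.existsUnique_below (M := G) Q).choose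

theorem Place.over_belowP (G : Type) [Field G] [Algebra S G] [Algebra G M] [IsScalarTower S G M] [IsFF S G]
    [Module.Finite G M] (Q : Place S M) : Q.Over (Q.belowP G) :=
  (Place.existsUnique_below (M := G) Q).choose_spec.1

theorem Place.belowP_eq {G : Type} [Field G] [Algebra S G] [Algebra G M] [IsScalarTower S G M] [IsFF S G]
    [Module.Finite G M] {Q : Place S M} {Q' : Place S G} (h : Q.Over Q') : Q.belowP G = Q' :=
  ((Place.existsUnique_below (M := G) Q).choose_spec.2 Q' h).symm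

end Below

section Above

variable {S G : Type} [Field S] [Field G] [Algebra S G]

/-- a place of `M` above `Q'` (THE place if `M/G` is purely inseparable) -/
noncomputable def Place.aboveP (M : Type) [Field M] [Algebra S M] [Algebra G M] [IsScalarTower S G M] [IsFF S G]
    [Module.Finite G M] (Q' : Place S G) : Place S M := (Place.exists_over (M' := M) Q').choose

theorem Place.aboveP_over (M : Type) [Field M] [Algebra S M] [Algebra G M] [IsScalarTower S G M] [IsFF S G]
    [Module.Finite G M] (Q' : Place S G) : (Q'.aboveP M).Over Q' := (Place.exists_over (M' := M) Q').choose_spec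

theorem Place.belowP_aboveP (M : Type) [Field M] [Algebra S M] [Algebra G M] [IsScalarTower S G M] [IsFF S G]
    [Module.Finite G M] (Q' : Place S G) : (Q'.aboveP M).belowP G = Q' := Place.belowP_eq (Q'.aboveP_over M)

end Above

/-- `M` as an algebra over itself through the Frobenius -/
def FrobTw (_p : ℕ) (M : Type) : Type := M

instance FrobTw.instField (p : ℕ) (M : Type) [Field M] : Field (FrobTw p M) := inferInstanceAs (Field M)

noncomputable instance FrobTw.instAlgebra (p : ℕ) [Fact p.Prime] (M : Type) [Field M] [CharP M p] :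
    Algebra M (FrobTw p M) := RingHom.toAlgebra (show M →+* FrobTw p M from frobenius M p)

theorem FrobTw.smul_def' (p : ℕ) [Fact p.Prime] (M : Type) [Field M] [CharP M p] (f : M)
    (z : FrobTw p M) : f • z = (show FrobTw p M from f ^ p) * z := by
  rw [Algebra.smul_def]
  rfl

section Jac

variable {p : ℕ} [Fact p.Prime] {G M : Type} [Field G] [Field M] [Algebra G M] [CharP G p] [CharP M p]
  {OG OG' : Subring G} {OM OM' : Subring M} {a s : ℕ}

/-- `f ↦ (δ f)^p` is a derivation into the Frobenius twist -/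
noncomputable def frobDer (δ : Der M) : Derivation ℤ M (FrobTw p M) :=
  Derivation.mk' (AddMonoidHom.toIntLinearMap
    { toFun := fun f => (show FrobTw p M from (δ f) ^ p)
      map_zero' := by
        show (δ 0) ^ p = (0 : M)
        rw [map_zero, zero_pow (Fact.out : p.Prime).ne_zero]
      map_add' := fun f g => by
        show (δ (f + g)) ^ p = (δ f) ^ p + (δ g) ^ p
        rw [map_add, add_pow_char] })
    (fun f g => by
      rw [FrobTw.smul_def', FrobTw.smul_def']
      show (δ (f * g)) ^ p = f ^ p * (δ g) ^ p + g ^ p * (δ f) ^ p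
      rw [Derivation.leibniz, add_pow_char, smul_eq_mul, smul_eq_mul, mul_pow, mul_pow])

theorem frobDer_apply (δ : Der M) (f : M) : frobDer (p := p) δ f = (show FrobTw p M from (δ f) ^ p) := rfl

/-- the ring homomorphism `x ↦ x^p`, `M → G` -/
noncomputable def powHom (hpow : ∀ x : M, ∃ g : G, algebraMap G M g = x ^ p) : M →+* G where
  toFun x := (hpow x).choose
  map_one' := (algebraMap G M).injective (by rw [(hpow 1).choose_spec]; simp)
  map_mul' x y := (algebraMap G M).injective (by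
    rw [(hpow (x * y)).choose_spec, map_mul, (hpow x).choose_spec, (hpow y).choose_spec, mul_pow])
  map_zero' := (algebraMap G M).injective (by
    rw [(hpow 0).choose_spec, map_zero, zero_pow (Fact.out : p.Prime).ne_zero])
  map_add' x y := (algebraMap G M).injective (by
    rw [(hpow (x + y)).choose_spec, map_add, (hpow x).choose_spec, (hpow y).choose_spec,
      add_pow_char])

theorem powHom_spec (hpow : ∀ x : M, ∃ g : G, algebraMap G M g = x ^ p) (x : M) :
    algebraMap G M (powHom hpow x) = x ^ p := (hpow x).choose_spec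

theorem powHom_eq (hpow : ∀ x : M, ∃ g : G, algebraMap G M g = x ^ p) {x : M} {g : G}
    (h : algebraMap G M g = x ^ p) : powHom hpow x = g :=
  (algebraMap G M).injective (by rw [powHom_spec, h])

/-- `f ↦ δ (f^p)`, `δ` a derivation of `G`, is a derivation into the Frobenius twist -/
noncomputable def frobDerG (hpow : ∀ x : M, ∃ g : G, algebraMap G M g = x ^ p) (δ : Der G) :
    Derivation ℤ M (FrobTw p M) :=
  Derivation.mk' (AddMonoidHom.toIntLinearMap
    { toFun := fun f => (show FrobTw p M from algebraMap G M (δ (powHom hpow f)))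
      map_zero' := by
        show algebraMap G M (δ (powHom hpow 0)) = (0 : M)
        rw [map_zero, map_zero, map_zero]
      map_add' := fun f g => by
        show algebraMap G M (δ (powHom hpow (f + g)))
          = algebraMap G M (δ (powHom hpow f)) + algebraMap G M (δ (powHom hpow g))
        rw [map_add, map_add, map_add] })
    (fun f g => by
      rw [FrobTw.smul_def', FrobTw.smul_def']
      show algebraMap G M (δ (powHom hpow (f * g)))
          = f ^ p * algebraMap G M (δ (powHom hpow g)) + g ^ p * algebraMap G M (δ (powHom hpow f))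
      rw [map_mul, Derivation.leibniz, map_add, smul_eq_mul, smul_eq_mul, map_mul, map_mul,
        powHom_spec, powHom_spec])

theorem frobDerG_apply (hpow : ∀ x : M, ∃ g : G, algebraMap G M g = x ^ p) (δ : Der G) (f : M) :
    frobDerG hpow δ f = (show FrobTw p M from algebraMap G M (δ (powHom hpow f))) := rfl

/-- `φ = det (∂ b_k / ∂ b'_l)` -/
noncomputable def Adapted.phi (X : Adapted p G M OG OM a s) (X' : Adapted p G M OG' OM' a s) : M :=
  Matrix.det (Matrix.of fun k l : Fin a => X'.θM (Sum.inl l) (X.b k))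

/-- `μ = det (∂ y_k / ∂ y'_i)` -/
noncomputable def Adapted.mu (X : Adapted p G M OG OM a s) (X' : Adapted p G M OG' OM' a s) : G :=
  Matrix.det (Matrix.of fun k i : Fin s => X'.θG (Sum.inr i) (X.y k))

/-- a derivation kills `p`-th powers -/
theorem der_pow_p {A N : Type} [CommRing A] [CharP A p] [AddCommGroup N] [Module A N]
    (δ : Derivation ℤ A N) (f : A) : δ (f ^ p) = 0 := by
  rw [Derivation.leibniz_pow, ← Nat.cast_smul_eq_nsmul A, CharP.cast_eq_zero, zero_smul]

theorem Adapted.θM_b (X : Adapted p G M OG OM a s) (i : Fin a ⊕ Fin s) (l : Fin a) :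
    X.θM i (X.b l) = if i = Sum.inl l then 1 else 0 :=
  X.hM.1.pd_apply i (Sum.inl l)

theorem Adapted.θM_y (X : Adapted p G M OG OM a s) (i : Fin a ⊕ Fin s) (j : Fin s) :
    X.θM i (algebraMap G M (X.y j)) = if i = Sum.inr j then 1 else 0 :=
  X.hM.1.pd_apply i (Sum.inr j)

theorem Adapted.θM_c (X : Adapted p G M OG OM a s) (i : Fin a ⊕ Fin s) (l : Fin a) :
    X.θM i (algebraMap G M (X.c l)) = 0 := by
  rw [X.hc, der_pow_p]

theorem Adapted.θG_c (X : Adapted p G M OG OM a s) (i : Fin a ⊕ Fin s) (l : Fin a) :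
    X.θG i (X.c l) = if i = Sum.inl l then 1 else 0 :=
  X.hG.1.pd_apply i (Sum.inl l)

theorem Adapted.θG_y (X : Adapted p G M OG OM a s) (i : Fin a ⊕ Fin s) (j : Fin s) :
    X.θG i (X.y j) = if i = Sum.inr j then 1 else 0 :=
  X.hG.1.pd_apply i (Sum.inr j)

/-- `∂/∂b_l` kills `G` -/
theorem Adapted.θM_inl (X : Adapted p G M OG OM a s) (l : Fin a) (g : G) :
    X.θM (Sum.inl l) (algebraMap G M g) = 0 := by
  have h : (X.θM (Sum.inl l)).compAlgebraMap G = (0 : Derivation ℤ G M) := by
    refine X.hG.1.der_ext fun k => ?_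
    rcases k with k | k
    · exact X.θM_c (Sum.inl l) k
    · exact (X.θM_y (Sum.inl l) k).trans (if_neg Sum.inl_ne_inr)
  exact congrArg (fun δ : Derivation ℤ G M => δ g) h

/-- `∂^M/∂y_i` extends `∂^G/∂y_i` -/
theorem Adapted.θM_inr (X : Adapted p G M OG OM a s) (i : Fin s) (g : G) :
    X.θM (Sum.inr i) (algebraMap G M g) = algebraMap G M (X.θG (Sum.inr i) g) := by
  have h : (X.θM (Sum.inr i)).compAlgebraMap G
      = (Algebra.linearMap G M).compDer (X.θG (Sum.inr i)) := by
    refine X.hG.1.der_ext fun k => ?_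
    rcases k with k | k
    · show X.θM (Sum.inr i) (algebraMap G M (X.c k)) = algebraMap G M (X.θG (Sum.inr i) (X.c k))
      rw [X.θM_c, X.θG_c, if_neg Sum.inr_ne_inl, map_zero]
    · have h1 := X.θM_y (Sum.inr i) k
      have h2 := X.θG_y (Sum.inr i) k
      show X.θM (Sum.inr i) (algebraMap G M (X.y k)) = algebraMap G M (X.θG (Sum.inr i) (X.y k))
      rw [h1, h2]
      split_ifs <;> simp
  exact congrArg (fun δ : Derivation ℤ G M => δ g) h

theorem Adapted.toMatrix_M (X : Adapted p G M OG OM a s) (X' : Adapted p G M OG' OM' a s) :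
    X.θM.toMatrix X'.θM = Matrix.fromBlocks
      (Matrix.of fun k l : Fin a => X'.θM (Sum.inl l) (X.b k))
      (Matrix.of fun (k : Fin a) (i : Fin s) => X'.θM (Sum.inr i) (X.b k))
      0
      ((Matrix.of fun k i : Fin s => X'.θG (Sum.inr i) (X.y k)).map (algebraMap G M)) := by
  ext i j
  have h : X.θM.toMatrix X'.θM i j
      = X'.θM j (Sum.elim X.b (fun i => algebraMap G M (X.y i)) i) := by
    rw [Module.Basis.toMatrix_apply]
    exact X.hM.1.pd_repr _ _
  rw [h]
  rcases i with i | i <;> rcases j with j | j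
  · rfl
  · rfl
  · exact X'.θM_inl j _
  · exact X'.θM_inr j _

theorem Adapted.det_M (X : Adapted p G M OG OM a s) (X' : Adapted p G M OG' OM' a s) :
    (X.θM.toMatrix X'.θM).det = X.phi X' * algebraMap G M (X.mu X') := by
  rw [X.toMatrix_M X', Matrix.det_fromBlocks_zero₂₁, Adapted.phi, Adapted.mu, RingHom.map_det]
  rfl


/-- `∂ (f^p) / ∂ c_l = (∂ f / ∂ b_l)^p` -/
theorem Adapted.θG_inl_pow (hpow : ∀ x : M, ∃ g : G, algebraMap G M g = x ^ p)
    (X : Adapted p G M OG OM a s) (l : Fin a) {f : M} {g : G} (hg : algebraMap G M g = f ^ p) :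
    algebraMap G M (X.θG (Sum.inl l) g) = X.θM (Sum.inl l) f ^ p := by
  have h : frobDerG hpow (X.θG (Sum.inl l)) = frobDer (p := p) (X.θM (Sum.inl l)) := by
    refine X.hM.1.der_ext fun k => ?_
    rcases k with k | k
    · show algebraMap G M (X.θG (Sum.inl l) (powHom hpow (X.b k))) = X.θM (Sum.inl l) (X.b k) ^ p
      rw [powHom_eq hpow (X.hc k), X.θG_c, X.θM_b]
      split_ifs
      · simp
      · simp [(Fact.out : p.Prime).ne_zero]
    · show algebraMap G M (X.θG (Sum.inl l) (powHom hpow (algebraMap G M (X.y k))))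
        = X.θM (Sum.inl l) (algebraMap G M (X.y k)) ^ p
      rw [powHom_eq hpow (map_pow (algebraMap G M) (X.y k) p), der_pow_p, X.θM_inl, map_zero,
        zero_pow (Fact.out : p.Prime).ne_zero]
  have h2 := congrArg (fun δ : Derivation ℤ M (FrobTw p M) => δ f) h
  have h3 : algebraMap G M (X.θG (Sum.inl l) (powHom hpow f)) = X.θM (Sum.inl l) f ^ p := h2
  rwa [powHom_eq hpow hg] at h3

theorem Adapted.toMatrix_G (X : Adapted p G M OG OM a s) (X' : Adapted p G M OG' OM' a s) :
    X.θG.toMatrix X'.θG = Matrix.fromBlocks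
      (Matrix.of fun k l : Fin a => X'.θG (Sum.inl l) (X.c k))
      0
      (Matrix.of fun (k : Fin s) (l : Fin a) => X'.θG (Sum.inl l) (X.y k))
      (Matrix.of fun k i : Fin s => X'.θG (Sum.inr i) (X.y k)) := by
  ext i j
  have h : X.θG.toMatrix X'.θG i j = X'.θG j (Sum.elim X.c X.y i) := by
    rw [Module.Basis.toMatrix_apply]
    exact X.hG.1.pd_repr _ _
  rw [h]
  rcases i with i | i <;> rcases j with j | j
  · rfl
  · have : X'.θG (Sum.inr j) (X.c i) = 0 := by
      apply (algebraMap G M).injective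
      rw [← X'.θM_inr, X.hc, der_pow_p, map_zero]
    exact this
  · rfl
  · rfl

theorem Adapted.det_G (hpow : ∀ x : M, ∃ g : G, algebraMap G M g = x ^ p) (X : Adapted p G M OG OM a s)
    (X' : Adapted p G M OG' OM' a s) :
    algebraMap G M (X.θG.toMatrix X'.θG).det = X.phi X' ^ p * algebraMap G M (X.mu X') := by
  rw [X.toMatrix_G X', Matrix.det_fromBlocks_zero₁₂, map_mul, Adapted.phi, Adapted.mu]
  congr 1
  rw [RingHom.map_det, ← frobenius_def, RingHom.map_det]
  congr 1
  ext k l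
  exact X'.θG_inl_pow hpow l (X.hc k)

end Jac

section Sums

variable {p : ℕ} [Fact p.Prime] {S G M : Type} [Field S] [Field G] [Field M] [Algebra S G] [Algebra S M]
  [Algebra G M] [IsScalarTower S G M] [CharP S p] [CharP G p] [CharP M p] [IsFF S G] [IsFF S M] [Module.Finite G M]
  {a s : ℕ}

/-- local adapted `p`-bases at all places -/
abbrev LocAdapted (p : ℕ) (S G M : Type) [Field S] [Field G] [Field M] [Algebra S G] [Algebra S M]
    [Algebra G M] [IsScalarTower S G M] [IsFF S G] [Module.Finite G M] (a s : ℕ) : Type :=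
  ∀ Q : Place S M, Adapted p G M (Q.belowP G).O.toSubring Q.O.toSubring a s

/-- `- deg F` -/
noncomputable def phiSum (X : Adapted p G M ⊤ ⊤ a s) (XQ : LocAdapted p S G M a s) : ℤ :=
  ∑ᶠ Q : Place S M, Q.ord (X.phi (XQ Q)) * (Q.deg : ℤ)

/-- `b° = - deg H` -/
noncomputable def muSum (X : Adapted p G M ⊤ ⊤ a s) (XQ : LocAdapted p S G M a s) : ℤ :=
  ∑ᶠ Q : Place S M, Q.ord (algebraMap G M (X.mu (XQ Q))) * (Q.deg : ℤ)

omit [CharP S p] [CharP G p] in
theorem LocAdapted.isTBasis_M (XQ : LocAdapted p S G M a s) (Q : Place S M) : IsTBasis Q (XQ Q).θM :=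
  (XQ Q).hM.isTBasis

omit [CharP S p] [CharP M p] [IsFF S M] in
theorem LocAdapted.isTBasis_G (XQ : LocAdapted p S G M a s) (Q' : Place S G) :
    IsTBasis Q' (XQ (Q'.aboveP M)).θG := by
  have h : IsTBasis ((Q'.aboveP M).belowP G) (XQ (Q'.aboveP M)).θG := (XQ (Q'.aboveP M)).hG.isTBasis
  generalize (XQ (Q'.aboveP M)).θG = θ at h ⊢
  rwa [Place.belowP_aboveP] at h


theorem isPurelyInseparable_of_pow (hpow : ∀ x : M, ∃ g : G, algebraMap G M g = x ^ p) :
    IsPurelyInseparable G M := by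
  have : ExpChar G p := ExpChar.prime Fact.out
  rw [isPurelyInseparable_iff_pow_mem G p]
  intro x
  obtain ⟨g, hg⟩ := hpow x
  exact ⟨1, g, by rw [hg, pow_one]⟩

theorem Place.aboveP_belowP (hpow : ∀ x : M, ∃ g : G, algebraMap G M g = x ^ p) (Q : Place S M) :
    (Q.belowP G).aboveP M = Q := by
  have := isPurelyInseparable_of_pow hpow
  exact Place.over_unique_of_purelyInseparable ((Q.belowP G).aboveP_over M) (Q.over_belowP G)

/-- places of `G` and of `M` correspond -/
noncomputable def placeEquivOfPow (hpow : ∀ x : M, ∃ g : G, algebraMap G M g = x ^ p) :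
    Place S G ≃ Place S M where
  toFun Q' := Q'.aboveP M
  invFun Q := Q.belowP G
  left_inv Q' := Q'.belowP_aboveP M
  right_inv Q := Q.aboveP_belowP hpow

theorem Adapted.det_M_ne_zero {OG OG' : Subring G} {OM OM' : Subring M}
    (X : Adapted p G M OG OM a s) (X' : Adapted p G M OG' OM' a s) :
    (X.θM.toMatrix X'.θM).det ≠ 0 := by
  have := X.θM.isUnit_det X'.θM
  rw [Module.Basis.det_apply] at this
  exact this.ne_zero

theorem Adapted.phi_ne_zero {OG OG' : Subring G} {OM OM' : Subring M}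
    (X : Adapted p G M OG OM a s) (X' : Adapted p G M OG' OM' a s) : X.phi X' ≠ 0 := by
  have := X.det_M_ne_zero X'
  rw [X.det_M X'] at this
  exact left_ne_zero_of_mul this

theorem Adapted.mu_ne_zero {OG OG' : Subring G} {OM OM' : Subring M}
    (X : Adapted p G M OG OM a s) (X' : Adapted p G M OG' OM' a s) :
    algebraMap G M (X.mu X') ≠ 0 := by
  have := X.det_M_ne_zero X'
  rw [X.det_M X'] at this
  exact right_ne_zero_of_mul this

theorem ord_det_M (X : Adapted p G M ⊤ ⊤ a s) (XQ : LocAdapted p S G M a s) (Q : Place S M) :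
    Q.ord (X.θM.toMatrix (XQ Q).θM).det
      = Q.ord (X.phi (XQ Q)) + Q.ord (algebraMap G M (X.mu (XQ Q))) := by
  rw [X.det_M, Place.ord_mul _ (X.phi_ne_zero _) (X.mu_ne_zero _)]

theorem ord_det_G (hpow : ∀ x : M, ∃ g : G, algebraMap G M g = x ^ p)
    (X : Adapted p G M ⊤ ⊤ a s) (XQ : LocAdapted p S G M a s) (Q : Place S M) :
    Q.ord (algebraMap G M (X.θG.toMatrix (XQ Q).θG).det)
      = p * Q.ord (X.phi (XQ Q)) + Q.ord (algebraMap G M (X.mu (XQ Q))) := by
  rw [X.det_G hpow, Place.ord_mul _ (pow_ne_zero _ (X.phi_ne_zero _)) (X.mu_ne_zero _),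
    Place.ord_pow]

theorem ord_eq_zero_of_v_eq_one {Q : Place S M} {f : M} (h : Q.v f = 1) : Q.ord f = 0 := by
  rw [Place.ord, h]
  simp

/-- at a place where the global frames are local frames, `φ` and `μ` are units -/
theorem ord_phi_mu_eq_zero (hpow : ∀ x : M, ∃ g : G, algebraMap G M g = x ^ p)
    (X : Adapted p G M ⊤ ⊤ a s) (XQ : LocAdapted p S G M a s) {Q : Place S M}
    (h1 : IsTBasis Q X.θM) (h2 : IsTBasis (Q.belowP G) X.θG) :
    Q.ord (X.phi (XQ Q)) = 0 ∧ Q.ord (algebraMap G M (X.mu (XQ Q))) = 0 := by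
  have e1 : Q.ord (X.θM.toMatrix (XQ Q).θM).det = 0 :=
    ord_eq_zero_of_v_eq_one (h1.v_det (XQ.isTBasis_M Q))
  have hG : IsTBasis (Q.belowP G) (XQ Q).θG := (XQ Q).hG.isTBasis
  have e2 : Q.ord (algebraMap G M (X.θG.toMatrix (XQ Q).θG).det) = 0 := by
    apply ord_eq_zero_of_v_eq_one
    obtain ⟨e, -, he⟩ := Q.over_belowP G
    rw [he, h2.v_det hG, one_pow]
  rw [ord_det_M] at e1
  rw [ord_det_G hpow] at e2
  have hp : (2 : ℤ) ≤ p := by exact_mod_cast (Fact.out : p.Prime).two_le
  have h3 : ((p : ℤ) - 1) * Q.ord (X.phi (XQ Q)) = 0 := by linarith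
  have h4 : Q.ord (X.phi (XQ Q)) = 0 := by
    rcases mul_eq_zero.1 h3 with h | h
    · omega
    · exact h
  exact ⟨h4, by rw [h4] at e1; linarith⟩

theorem finite_bad (hpow : ∀ x : M, ∃ g : G, algebraMap G M g = x ^ p)
    (X : Adapted p G M ⊤ ⊤ a s)
    (finM : {Q : Place S M | ¬ IsTBasis Q X.θM}.Finite) (finG : {Q' : Place S G | ¬ IsTBasis Q' X.θG}.Finite) :
    {Q : Place S M | ¬ (IsTBasis Q X.θM ∧ IsTBasis (Q.belowP G) X.θG)}.Finite := by
  have h2 : {Q : Place S M | ¬ IsTBasis (Q.belowP G) X.θG}.Finite :=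
    finG.preimage ((placeEquivOfPow (S := S) hpow).symm.injective.injOn)
  refine (finM.union h2).subset fun Q hQ => ?_
  by_cases h : IsTBasis Q X.θM
  · exact Or.inr fun h' => hQ ⟨h, h'⟩
  · exact Or.inl h

/-- the local term of `κ(G)` in terms of the place above -/
theorem term_G (hpow : ∀ x : M, ∃ g : G, algebraMap G M g = x ^ p) (ha : Module.finrank G M = p ^ a)
    {Q : Place S M} {Q' : Place S G} (hQ : Q.Over Q') (g : G) :
    (p ^ a : ℤ) * (Q'.ord g * (Q'.deg : ℤ)) = Q.ord (algebraMap G M g) * (Q.deg : ℤ) := by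
  have h1 := ramIdx_mul_deg_of_pow hpow hQ
  rw [ha] at h1
  have h2 : ((Q.ramIdx Q' : ℕ) : ℤ) * (Q.deg : ℤ) = (p ^ a : ℤ) * (Q'.deg : ℤ) := by exact_mod_cast h1
  rw [hQ.ord_algebraMap]
  calc (p ^ a : ℤ) * (Q'.ord g * (Q'.deg : ℤ)) = Q'.ord g * ((p ^ a : ℤ) * (Q'.deg : ℤ)) := by ring
    _ = Q'.ord g * (((Q.ramIdx Q' : ℕ) : ℤ) * (Q.deg : ℤ)) := by rw [h2]
    _ = _ := by ring

theorem kap_heightOne (hpow : ∀ x : M, ∃ g : G, algebraMap G M g = x ^ p) (ha : Module.finrank G M = p ^ a)
    (X : Adapted p G M ⊤ ⊤ a s) (XQ : LocAdapted p S G M a s)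
    (finM : {Q : Place S M | ¬ IsTBasis Q X.θM}.Finite) (finG : {Q' : Place S G | ¬ IsTBasis Q' X.θG}.Finite) :
    {Q : Place S M | Q.ord (X.phi (XQ Q)) ≠ 0}.Finite ∧
    {Q : Place S M | Q.ord (algebraMap G M (X.mu (XQ Q))) ≠ 0}.Finite ∧
    kap X.θM (fun Q => (XQ Q).θM) = phiSum X XQ + muSum X XQ ∧
    (p ^ a : ℤ) * kap X.θG (fun Q' => (XQ (Q'.aboveP M)).θG) = p * phiSum X XQ + muSum X XQ := by
  have hbad := finite_bad hpow X finM finG
  have f1 : {Q : Place S M | Q.ord (X.phi (XQ Q)) ≠ 0}.Finite := by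
    refine hbad.subset fun Q hQ hgood => hQ ?_
    exact (ord_phi_mu_eq_zero hpow X XQ hgood.1 hgood.2).1
  have f2 : {Q : Place S M | Q.ord (algebraMap G M (X.mu (XQ Q))) ≠ 0}.Finite := by
    refine hbad.subset fun Q hQ hgood => hQ ?_
    exact (ord_phi_mu_eq_zero hpow X XQ hgood.1 hgood.2).2
  have s1 : Function.HasFiniteSupport
      (fun Q : Place S M => Q.ord (X.phi (XQ Q)) * (Q.deg : ℤ)) := by
    refine f1.subset fun Q hQ h0 => hQ ?_
    show Q.ord (X.phi (XQ Q)) * (Q.deg : ℤ) = 0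
    rw [h0, zero_mul]
  have s2 : Function.HasFiniteSupport
      (fun Q : Place S M => Q.ord (algebraMap G M (X.mu (XQ Q))) * (Q.deg : ℤ)) := by
    refine f2.subset fun Q hQ h0 => hQ ?_
    show Q.ord (algebraMap G M (X.mu (XQ Q))) * (Q.deg : ℤ) = 0
    rw [h0, zero_mul]
  refine ⟨f1, f2, ?_, ?_⟩
  · show ∑ᶠ Q : Place S M, Q.ord (X.θM.toMatrix (XQ Q).θM).det * (Q.deg : ℤ) = _
    rw [phiSum, muSum, ← finsum_add_distrib s1 s2]
    refine finsum_congr fun Q => ?_
    rw [ord_det_M, add_mul]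
  · have s1' : Function.HasFiniteSupport
        (fun Q : Place S M => (p : ℤ) * (Q.ord (X.phi (XQ Q)) * (Q.deg : ℤ))) := by
      refine s1.subset fun Q hQ h0 => hQ ?_
      show (p : ℤ) * (Q.ord (X.phi (XQ Q)) * (Q.deg : ℤ)) = 0
      rw [show Q.ord (X.phi (XQ Q)) * (Q.deg : ℤ) = 0 from h0, mul_zero]
    show (p ^ a : ℤ) * ∑ᶠ Q' : Place S G,
      Q'.ord (X.θG.toMatrix (XQ (Q'.aboveP M)).θG).det * (Q'.deg : ℤ) = _
    rw [phiSum, muSum, mul_finsum, mul_finsum, ← finsum_add_distrib s1' s2,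
      ← finsum_comp_equiv (placeEquivOfPow (S := S) hpow)]
    refine finsum_congr fun Q' => ?_
    show (p ^ a : ℤ) * (Q'.ord (X.θG.toMatrix (XQ (Q'.aboveP M)).θG).det * (Q'.deg : ℤ)) =
      (p : ℤ) * ((Q'.aboveP M).ord (X.phi (XQ (Q'.aboveP M))) * ((Q'.aboveP M).deg : ℤ))
        + (Q'.aboveP M).ord (algebraMap G M (X.mu (XQ (Q'.aboveP M)))) * ((Q'.aboveP M).deg : ℤ)
    rw [term_G hpow ha (Q'.aboveP_over M), ord_det_G hpow]
    ring

/-- **the recurrence** `p ν(M) = q ν(G) + (p-1) b°`  ([D] (5.13)) -/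
theorem heightOne_rec (hpow : ∀ x : M, ∃ g : G, algebraMap G M g = x ^ p) (ha : Module.finrank G M = p ^ a)
    (hM : AbsDet S M) (hG : AbsDet S G) (X : Adapted p G M ⊤ ⊤ a s) (XQ : LocAdapted p S G M a s) :
    (p : ℤ) * nu S M = (p ^ a : ℤ) * nu S G + ((p : ℤ) - 1) * muSum X XQ := by
  obtain ⟨-, -, h1, h2⟩ := kap_heightOne hpow ha X XQ (hM.finite _) (hG.finite _)
  rw [hM.nu_eq X.θM _ XQ.isTBasis_M, hG.nu_eq X.θG _ XQ.isTBasis_G, h1, h2]
  ring

end Sums

/-- generates the equation lemmas of the definitions of this file here (unique names) -/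
theorem heightOne_eqns_cite : True := by
  have := @Place.belowP.eq_1
  have := @Place.aboveP.eq_1
  have := @FrobTw.eq_1
  have := @frobDer.eq_1
  have := @powHom.eq_1
  have := @frobDerG.eq_1
  have := @placeEquivOfPow.eq_1
  have := @LocAdapted.eq_1
  have := @Adapted.phi.eq_1
  have := @Adapted.mu.eq_1
  have := @phiSum.eq_1
  have := @muSum.eq_1
  trivial

end Claimed.Agent.R280
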