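import Claimed.Agent.R280.Ins.LocP

/-!
# Row 280, Ins package D2 `Kappa`: the tangent lattices `T_Q` and the degree `κ = - deg T`

`T_Q = {δ ∈ Der M | δ O_Q ⊆ O_Q}`.  `IsTBasis Q θ`: the basis `θ` of `Der M` is an `O_Q`-basis of `T_Q`.
`kap θ θQ = ∑_Q deg Q · ord_Q det (θQ Q in terms of θ)`  (`= - deg T_M = deg det Ω`).
`AbsDet S M`: [D] Prop. 5.3 for `M/S`:  `ν(M/S) = κ`, for every choice of frames (+ a global frame is a local frame almost everywhere).

PLAN.
* `IsPBasisOn.isTBasis`: `δ (∑ c_I^p x^I) = ∑ c_I^p ∑_k I_k x^{I - e_k} δ(x_k)`; conversely `x_k ∈ O_Q`.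
* `isPBasisOn_of_isTBasis`: for `f = ∑ c_I^p x^I ∈ O_Q` apply `∂^I = ∏ ∂_k^{I_k}`: `∂^I f = I! c_I^p + ∑_{I' > I} (…) c_{I'}^p x^{I'-I}`; downward induction;
  `I!` is a unit of `𝔽_p`, and `c^p ∈ O_Q → c ∈ O_Q`.
* `IsTBasis.v_det`: both transition matrices have entries in `O_Q`.
* `finite_not_isTBasis_of`: `θ = A θ⁰`; the finitely many entries of `A`, `A⁻¹` are integral at almost all places (`finite_setOf_v_ne_one`).
* `absDet_of_frames`: `det (θ.toMatrix θQ) = det (θ.toMatrix θ⁰) · det (θ⁰.toMatrix θQ⁰) · det (θQ⁰.toMatrix θQ)`; the last factor is a unit (`v_det`), the first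
  one is a global function: product formula `deg_divf`; reindex if the index types differ (same cardinality).
~900 lines.   Owner of the statements: helper66.
-/

set_option autoImplicit false

namespace Claimed.Agent.R280

open WithZero

section Defs

variable {S M : Type} [Field S] [Field M] [Algebra S M] {ι : Type}

/-- `θ` is an `O_Q`-basis of the lattice `T_Q` of derivations preserving `O_Q` -/
def IsTBasis (Q : Place S M) (θ : Module.Basis ι M (Der M)) : Prop :=
  ∀ δ : Der M, (∀ f : M, Q.v f ≤ 1 → Q.v (δ f) ≤ 1) ↔ ∀ k, Q.v (θ.repr δ k) ≤ 1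

/-- `κ`, computed with a global frame `θ` and local frames `θQ` -/
noncomputable def kap [Fintype ι] [DecidableEq ι] (θ : Module.Basis ι M (Der M))
    (θQ : Place S M → Module.Basis ι M (Der M)) : ℤ :=
  ∑ᶠ Q : Place S M, Q.ord (θ.toMatrix (θQ Q)).det * (Q.deg : ℤ)

variable (S M) in
/-- **the absolute determinant computes the arithmetic genus** ([D] Prop. 5.3) -/
structure AbsDet : Prop where
  finite : ∀ {ι : Type} [Fintype ι] (θ : Module.Basis ι M (Der M)), {Q : Place S M | ¬ IsTBasis Q θ}.Finite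
  nu_eq : ∀ {ι : Type} [Fintype ι] [DecidableEq ι] (θ : Module.Basis ι M (Der M))
    (θQ : Place S M → Module.Basis ι M (Der M)), (∀ Q, IsTBasis Q (θQ Q)) → nu S M = kap θ θQ

end Defs

section KpFrames

variable {S M : Type} [Field S] [Field M] [Algebra S M]
  {ι : Type} [Fintype ι] 

/-- the members of a local frame preserve `O_Q` -/
theorem IsTBasis.kp_self {Q : Place S M} {θ : Module.Basis ι M (Der M)} (h : IsTBasis Q θ) (j : ι) (f : M)
    (hf : Q.v f ≤ 1) : Q.v (θ j f) ≤ 1 := by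
  classical
  refine (h (θ j)).2 (fun k => ?_) f hf
  rw [Module.Basis.repr_self, Finsupp.single_apply]
  split_ifs <;> simp

theorem IsTBasis.kp_toMatrix_le {ι' : Type} {Q : Place S M} {θ : Module.Basis ι M (Der M)} {θ' : Module.Basis ι' M (Der M)}
    [Fintype ι'] (h : IsTBasis Q θ) (h' : IsTBasis Q θ') (i : ι) (j : ι') : Q.v (θ.toMatrix θ' i j) ≤ 1 := by
  rw [Module.Basis.toMatrix_apply]
  exact (h (θ' j)).1 (h'.kp_self j) i

/-- two local frames differ by an element of `GL(O_Q)` -/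
theorem IsTBasis.kp_v_det [DecidableEq ι] {Q : Place S M} {θ θ' : Module.Basis ι M (Der M)} (h : IsTBasis Q θ) (h' : IsTBasis Q θ') :
    Q.v (θ.toMatrix θ').det = 1 := by
  have h1 : Q.v (θ.toMatrix θ').det ≤ 1 := Q.v_det_le_one _ (h.kp_toMatrix_le h')
  have h2 : Q.v (θ'.toMatrix θ).det ≤ 1 := Q.v_det_le_one _ (h'.kp_toMatrix_le h)
  have h3 : Q.v (θ.toMatrix θ').det * Q.v (θ'.toMatrix θ).det = 1 := by
    rw [← map_mul, ← Matrix.det_mul, Module.Basis.toMatrix_mul_toMatrix_flip, Matrix.det_one, map_one]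
  apply le_antisymm h1
  calc (1 : ℤᵐ⁰) = Q.v (θ.toMatrix θ').det * Q.v (θ'.toMatrix θ).det := h3.symm
    _ ≤ Q.v (θ.toMatrix θ').det * 1 := by gcongr
    _ = _ := mul_one _

/-- change of frame with integral transition matrices -/
theorem IsTBasis.kp_of_int {ι' : Type} [Fintype ι'] {Q : Place S M} {θ₀ : Module.Basis ι M (Der M)}
    {θ : Module.Basis ι' M (Der M)} (h : IsTBasis Q θ₀) (hA : ∀ i j, Q.v (θ₀.toMatrix θ i j) ≤ 1)
    (hB : ∀ i j, Q.v (θ.toMatrix θ₀ i j) ≤ 1) : IsTBasis Q θ := by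
  intro δ
  rw [h δ]
  constructor
  · intro h0 k
    have e : θ.repr δ k = ∑ i, θ.toMatrix θ₀ k i * θ₀.repr δ i := by
      have := congrFun (Module.Basis.toMatrix_mulVec_repr θ₀ θ δ) k
      rw [← this]
      rfl
    rw [e]
    refine Q.v.map_sum_le fun i _ => ?_
    rw [map_mul]
    exact mul_le_one' (hB k i) (h0 i)
  · intro h0 k
    have e : θ₀.repr δ k = ∑ i, θ₀.toMatrix θ k i * θ.repr δ i := by
      have := congrFun (Module.Basis.toMatrix_mulVec_repr θ θ₀ δ) k
      rw [← this]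
      rfl
    rw [e]
    refine Q.v.map_sum_le fun i _ => ?_
    rw [map_mul]
    exact mul_le_one' (hA k i) (h0 i)

theorem kp_finite_not_le_one [IsFF S M] (a : M) : {Q : Place S M | ¬ Q.v a ≤ 1}.Finite := by
  by_cases ha : a = 0
  · subst ha
    simp
  · refine (finite_setOf_v_ne_one (k := S) ha).subset fun Q hQ h1 => hQ ?_
    rw [h1]

theorem kp_finite_not_isTBasis_of [IsFF S M] {θ₀ : Module.Basis ι M (Der M)} (h : {Q : Place S M | ¬ IsTBasis Q θ₀}.Finite)
    {ι' : Type} [Fintype ι'] (θ : Module.Basis ι' M (Der M)) : {Q : Place S M | ¬ IsTBasis Q θ}.Finite := by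
  have hA : (⋃ i, ⋃ j, {Q : Place S M | ¬ Q.v (θ₀.toMatrix θ i j) ≤ 1}).Finite :=
    Set.finite_iUnion fun i => Set.finite_iUnion fun j => kp_finite_not_le_one _
  have hB : (⋃ i, ⋃ j, {Q : Place S M | ¬ Q.v (θ.toMatrix θ₀ i j) ≤ 1}).Finite :=
    Set.finite_iUnion fun i => Set.finite_iUnion fun j => kp_finite_not_le_one _
  refine ((h.union hA).union hB).subset fun Q hQ => ?_
  by_contra hcon
  simp only [Set.mem_union, Set.mem_iUnion, Set.mem_ofPred_eq, not_or, not_exists, not_not] at hcon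
  exact hQ (hcon.1.1.kp_of_int hcon.1.2 hcon.2)

theorem kp_det_ne_zero [DecidableEq ι] (θ θ' : Module.Basis ι M (Der M)) : (θ.toMatrix θ').det ≠ 0 := by
  intro h0
  have h3 : (θ.toMatrix θ').det * (θ'.toMatrix θ).det = 1 := by
    rw [← Matrix.det_mul, Module.Basis.toMatrix_mul_toMatrix_flip, Matrix.det_one]
  rw [h0, zero_mul] at h3
  exact zero_ne_one h3

theorem kp_ord_eq_zero {Q : Place S M} {f : M} (h : Q.v f = 1) : Q.ord f = 0 := by
  rw [Place.ord, h]
  simp

/-- independence of the frames, same index type -/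
theorem kp_kap_eq [IsFF S M] [DecidableEq ι] (θ₀ : Module.Basis ι M (Der M)) (θQ₀ : Place S M → Module.Basis ι M (Der M))
    (hfin : {Q : Place S M | ¬ IsTBasis Q θ₀}.Finite) (hQ : ∀ Q, IsTBasis Q (θQ₀ Q))
    (θ : Module.Basis ι M (Der M)) (θQ : Place S M → Module.Basis ι M (Der M)) (hθQ : ∀ Q, IsTBasis Q (θQ Q)) :
    kap θ θQ = kap θ₀ θQ₀ := by
  have hg : (θ.toMatrix θ₀).det ≠ 0 := kp_det_ne_zero θ θ₀
  have hterm : ∀ Q : Place S M, Q.ord (θ.toMatrix (θQ Q)).det * (Q.deg : ℤ)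
      = Q.ord (θ.toMatrix θ₀).det * (Q.deg : ℤ) + Q.ord (θ₀.toMatrix (θQ₀ Q)).det * (Q.deg : ℤ) := by
    intro Q
    have e : (θ.toMatrix (θQ Q)).det
        = (θ.toMatrix θ₀).det * (θ₀.toMatrix (θQ₀ Q)).det * ((θQ₀ Q).toMatrix (θQ Q)).det := by
      rw [← Matrix.det_mul, ← Matrix.det_mul, Module.Basis.toMatrix_mul_toMatrix, Module.Basis.toMatrix_mul_toMatrix]
    rw [e, Q.ord_mul (mul_ne_zero hg (kp_det_ne_zero _ _)) (kp_det_ne_zero _ _), Q.ord_mul hg (kp_det_ne_zero _ _),
      kp_ord_eq_zero ((hQ Q).kp_v_det (hθQ Q))]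
    ring
  unfold kap
  simp only [hterm]
  rw [finsum_add_distrib, finsum_ord_mul_deg hg, zero_add]
  · refine (finite_setOf_v_ne_one (k := S) hg).subset fun Q hQ' h1 => hQ' ?_
    show Q.ord (θ.toMatrix θ₀).det * (Q.deg : ℤ) = 0
    rw [kp_ord_eq_zero h1, zero_mul]
  · refine hfin.subset fun Q hQ' h1 => hQ' ?_
    show Q.ord (θ₀.toMatrix (θQ₀ Q)).det * (Q.deg : ℤ) = 0
    rw [kp_ord_eq_zero (IsTBasis.kp_v_det h1 (hQ Q)), zero_mul]

theorem IsTBasis.kp_reindex {ι' : Type} {Q : Place S M} {θ : Module.Basis ι' M (Der M)} (h : IsTBasis Q θ) (e : ι' ≃ ι) :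
    IsTBasis Q (θ.reindex e) := by
  intro δ
  rw [h δ]
  simp only [Module.Basis.repr_reindex_apply]
  exact ⟨fun h0 k => h0 _, fun h0 k => by simpa using h0 (e k)⟩

theorem kp_kap_reindex {ι' : Type} [Fintype ι'] [DecidableEq ι'] [DecidableEq ι] (θ : Module.Basis ι' M (Der M))
    (θQ : Place S M → Module.Basis ι' M (Der M)) (e : ι' ≃ ι) :
    kap (θ.reindex e) (fun Q => (θQ Q).reindex e) = kap θ θQ := by
  unfold kap
  refine finsum_congr fun Q => ?_
  congr 2
  rw [Module.Basis.toMatrix_reindex', Matrix.det_reindexAlgEquiv]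
  congr 2
  funext i
  simp

/-- independence of the frames -/
theorem kp_absDet_of_frames [IsFF S M] [DecidableEq ι] (θ₀ : Module.Basis ι M (Der M)) (θQ₀ : Place S M → Module.Basis ι M (Der M))
    (hfin : {Q : Place S M | ¬ IsTBasis Q θ₀}.Finite) (hQ : ∀ Q, IsTBasis Q (θQ₀ Q))
    (hnu : nu S M = kap θ₀ θQ₀) : AbsDet S M where
  finite := fun θ => kp_finite_not_isTBasis_of hfin θ
  nu_eq := fun {ι'} _ _ θ θQ hθQ => by
    have e : ι' ≃ ι := θ.indexEquiv θ₀
    rw [hnu, ← kp_kap_reindex θ θQ e]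
    exact (kp_kap_eq θ₀ θQ₀ hfin hQ _ _ fun Q => (hθQ Q).kp_reindex e).symm

end KpFrames

section PB

variable {p : ℕ} [Fact p.Prime] {S M : Type} [Field S] [Field M] [Algebra S M] [CharP M p]
  {ι : Type} [Fintype ι] [DecidableEq ι]

theorem kp_der_pow_p (δ : Der M) (c : M) : δ (c ^ p) = 0 := by
  rw [Derivation.leibniz_pow, ← Nat.cast_smul_eq_nsmul M, CharP.cast_eq_zero, zero_smul]

/-- the elements of `O_Q` that `δ` maps into `O_Q` -/
def kpRing (Q : Place S M) (δ : Der M) : Subring M where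
  carrier := {f | Q.v f ≤ 1 ∧ Q.v (δ f) ≤ 1}
  mul_mem' := fun {a b} ha hb => by
    refine ⟨by rw [map_mul]; exact mul_le_one' ha.1 hb.1, ?_⟩
    rw [Derivation.leibniz, smul_eq_mul, smul_eq_mul]
    refine Valuation.map_add_le _ ?_ ?_
    · rw [map_mul]; exact mul_le_one' ha.1 hb.2
    · rw [map_mul]; exact mul_le_one' hb.1 ha.2
  one_mem' := by simp
  add_mem' := fun {a b} ha hb => by
    refine ⟨Valuation.map_add_le _ ha.1 hb.1, ?_⟩
    rw [map_add]
    exact Valuation.map_add_le _ ha.2 hb.2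
  zero_mem' := by simp
  neg_mem' := fun {a} ha => by
    refine ⟨by rw [Valuation.map_neg]; exact ha.1, ?_⟩
    rw [map_neg, Valuation.map_neg]
    exact ha.2

theorem mem_kpRing {Q : Place S M} {δ : Der M} {f : M} : f ∈ kpRing Q δ ↔ Q.v f ≤ 1 ∧ Q.v (δ f) ≤ 1 := Iff.rfl

/-- the kernel of a derivation -/
def kpKer (δ : Der M) : Subring M where
  carrier := {f | δ f = 0}
  mul_mem' := fun {a b} ha hb => by
    show δ (a * b) = 0
    rw [Derivation.leibniz, show δ a = 0 from ha, show δ b = 0 from hb]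
    simp
  one_mem' := by simp
  add_mem' := fun {a b} ha hb => by
    show δ (a + b) = 0
    rw [map_add, show δ a = 0 from ha, show δ b = 0 from hb, add_zero]
  zero_mem' := by simp
  neg_mem' := fun {a} ha => by
    show δ (-a) = 0
    rw [map_neg, show δ a = 0 from ha, neg_zero]

theorem mem_kpKer {δ : Der M} {f : M} : f ∈ kpKer δ ↔ δ f = 0 := Iff.rfl

theorem kp_eqns_cite : True := by
  have := @kpRing.eq_1
  have := @kpKer.eq_1
  trivial

/-- a `p`-combination with integral coefficients of integral elements with integral derivatives -/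
theorem kp_pcomb_mem {Q : Place S M} {δ : Der M} {x : ι → M} (hx : ∀ k, x k ∈ kpRing Q δ)
    {c : (ι → Fin p) → M} (hc : ∀ I, Q.v (c I) ≤ 1) : pcomb p x c ∈ kpRing Q δ := by
  unfold pcomb
  refine Subring.sum_mem _ fun I _ => Subring.mul_mem _ ?_ ?_
  · refine ⟨by rw [map_pow]; exact pow_le_one' (hc I) p, ?_⟩
    rw [kp_der_pow_p]
    simp
  · unfold pmon
    exact Subring.prod_mem _ fun k _ => Subring.pow_mem _ (hx k) _

/-- the multi-index `e_k` -/
def kpE (p : ℕ) [Fact p.Prime] (k : ι) : ι → Fin p := fun j => if j = k then 1 else 0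

theorem kp_pmon_E (x : ι → M) (k : ι) : pmon x (kpE p k) = x k := by
  unfold pmon
  rw [Finset.prod_eq_single k]
  · have : 1 % p = 1 := Nat.mod_eq_of_lt (Fact.out : p.Prime).one_lt
    simp [kpE, this]
  · intro j _ hj
    simp [kpE, hj]
  · intro h; exact absurd (Finset.mem_univ k) h

theorem kp_pcomb_single (x : ι → M) (k : ι) :
    pcomb p x (fun I => if I = kpE p k then 1 else 0) = x k := by
  unfold pcomb
  rw [Finset.sum_eq_single (kpE p k)]
  · simp [kp_pmon_E]
  · intro I _ hI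
    simp [hI, (Fact.out : p.Prime).ne_zero]
  · intro h; exact absurd (Finset.mem_univ _) h

theorem IsPBasisOn.kp_int {Q : Place S M} {x : ι → M} (hx : IsPBasisOn p Q.O.toSubring x) (k : ι) :
    Q.v (x k) ≤ 1 := by
  have h := (hx.2 fun I => if I = kpE p k then 1 else 0).2 fun I => by
    split_ifs
    · exact Subring.one_mem _
    · exact Subring.zero_mem _
  rw [kp_pcomb_single] at h
  exact h

theorem IsPBasisOn.kp_isTBasis {Q : Place S M} {x : ι → M} (hx : IsPBasisOn p Q.O.toSubring x) :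
    IsTBasis Q hx.1.pd := by
  intro δ
  simp only [IsPBasis.pd_repr]
  constructor
  · intro h k
    exact h _ (hx.kp_int k)
  · intro h f hf
    obtain ⟨c, rfl⟩ := hx.1.2 f
    have hc : ∀ I, Q.v (c I) ≤ 1 := (hx.2 c).1 hf
    exact (kp_pcomb_mem (δ := δ) (fun k => ⟨hx.kp_int k, h k⟩) hc).2

/-! ### the converse: a `p`-basis of integral elements whose partial derivatives are a local frame -/

/-- raise the exponent of `x_k` (cyclically) -/
def kpUp (I : ι → Fin p) (k : ι) : ι → Fin p := Function.update I k (I k + 1)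

/-- lower the exponent of `x_k` (cyclically) -/
def kpDn (I : ι → Fin p) (k : ι) : ι → Fin p := Function.update I k (I k - 1)

theorem kp_dn_up (I : ι → Fin p) (k : ι) : kpDn (kpUp I k) k = I := by
  unfold kpDn kpUp
  rw [Function.update_idem, Function.update_self, add_sub_cancel_right, Function.update_eq_self]

theorem kp_up_dn (I : ι → Fin p) (k : ι) : kpUp (kpDn I k) k = I := by
  unfold kpDn kpUp
  rw [Function.update_idem, Function.update_self, sub_add_cancel, Function.update_eq_self]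

/-- the cyclic shift of the exponent of `x_k` -/
def kpShift (p : ℕ) [Fact p.Prime] (k : ι) : (ι → Fin p) ≃ (ι → Fin p) where
  toFun := fun I => kpUp I k
  invFun := fun I => kpDn I k
  left_inv := fun I => kp_dn_up I k
  right_inv := fun I => kp_up_dn I k

/-- total degree -/
def kpDeg (I : ι → Fin p) : ℕ := ∑ j, (I j : ℕ)

theorem kp_eqns_cite2 : True := by
  have := @kpE.eq_1
  have := @kpUp.eq_1
  have := @kpDn.eq_1
  have := @kpShift.eq_1
  have := @kpDeg.eq_1
  trivial

theorem kp_val_add_one (a : Fin p) (h : ((a + 1 : Fin p) : ℕ) ≠ 0) : ((a + 1 : Fin p) : ℕ) = (a : ℕ) + 1 := by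
  have e : ((a + 1 : Fin p) : ℕ) = ((a : ℕ) + 1) % p := by
    rw [Fin.val_add, Fin.val_one', Nat.add_mod_mod]
  rw [e] at h ⊢
  have h1 : (a : ℕ) + 1 ≤ p := a.2
  rcases Nat.lt_or_ge ((a : ℕ) + 1) p with h2 | h2
  · exact Nat.mod_eq_of_lt h2
  · have : (a : ℕ) + 1 = p := le_antisymm h1 h2
    rw [this, Nat.mod_self] at h
    exact absurd rfl h

theorem kp_deg_up (I : ι → Fin p) (k : ι) (h : ((I k + 1 : Fin p) : ℕ) ≠ 0) : kpDeg (kpUp I k) = kpDeg I + 1 := by
  unfold kpDeg
  rw [← Finset.add_sum_erase _ _ (Finset.mem_univ k), ← Finset.add_sum_erase (a := k) _ (fun j => (I j : ℕ)) (Finset.mem_univ k)]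
  have h1 : ∑ j ∈ Finset.univ.erase k, (kpUp I k j : ℕ) = ∑ j ∈ Finset.univ.erase k, (I j : ℕ) := by
    refine Finset.sum_congr rfl fun j hj => ?_
    unfold kpUp
    rw [Function.update_of_ne (Finset.ne_of_mem_erase hj)]
  rw [h1]
  have h2 : (kpUp I k k : ℕ) = (I k : ℕ) + 1 := by
    unfold kpUp
    rw [Function.update_self]
    exact kp_val_add_one _ h
  rw [h2]
  ring

theorem kp_pmon_split (x : ι → M) (I : ι → Fin p) (k : ι) :
    pmon x I = x k ^ (I k : ℕ) * ∏ j ∈ Finset.univ.erase k, x j ^ (I j : ℕ) := by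
  unfold pmon
  exact (Finset.mul_prod_erase _ (fun j => x j ^ (I j : ℕ)) (Finset.mem_univ k)).symm

theorem kp_pd_pmon {x : ι → M} (hx : IsPBasis p x) (k : ι) (I : ι → Fin p) :
    hx.pd k (pmon x I) = ((I k : ℕ) : M) * pmon x (kpDn I k) := by
  have hR : hx.pd k (∏ j ∈ Finset.univ.erase k, x j ^ (I j : ℕ)) = 0 := by
    rw [← mem_kpKer]
    refine Subring.prod_mem _ fun j hj => Subring.pow_mem _ ?_ _
    rw [mem_kpKer, hx.pd_apply, if_neg (Ne.symm (Finset.ne_of_mem_erase hj))]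
  have hR' : ∏ j ∈ Finset.univ.erase k, x j ^ (kpDn I k j : ℕ) = ∏ j ∈ Finset.univ.erase k, x j ^ (I j : ℕ) := by
    refine Finset.prod_congr rfl fun j hj => ?_
    unfold kpDn
    rw [Function.update_of_ne (Finset.ne_of_mem_erase hj)]
  rw [kp_pmon_split x I k, kp_pmon_split x (kpDn I k) k, hR', Derivation.leibniz, hR, smul_zero, zero_add,
    Derivation.leibniz_pow, hx.pd_apply, if_pos rfl]
  by_cases h0 : I k = 0
  · simp [h0]
  · have : (kpDn I k k : ℕ) = (I k : ℕ) - 1 := by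
      unfold kpDn
      rw [Function.update_self]
      exact Fin.val_sub_one_of_ne_zero h0
    rw [this]
    simp only [smul_eq_mul, nsmul_eq_mul, mul_one]
    ring

/-- the coefficients of `∂_k f` -/
def kpSc (c : (ι → Fin p) → M) (k : ι) : (ι → Fin p) → M :=
  fun I => (((I k + 1 : Fin p) : ℕ) : M) * c (kpUp I k)

theorem kp_eqns_cite3 : True := by
  have := @kpSc.eq_1
  trivial

theorem kp_natCast_pow (n : ℕ) : ((n : M)) ^ p = n := by
  rw [← frobenius_def, map_natCast]

theorem kp_pd_pcomb {x : ι → M} (hx : IsPBasis p x) (k : ι) (c : (ι → Fin p) → M) :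
    hx.pd k (pcomb p x c) = pcomb p x (kpSc c k) := by
  unfold pcomb
  rw [map_sum, ← Equiv.sum_comp (kpShift p k)]
  refine Finset.sum_congr rfl fun I _ => ?_
  show hx.pd k (c (kpUp I k) ^ p * pmon x (kpUp I k)) = _
  rw [Derivation.leibniz, kp_der_pow_p, smul_zero, add_zero, kp_pd_pmon, kp_dn_up, smul_eq_mul]
  unfold kpSc
  rw [mul_pow, kp_natCast_pow]
  have : kpUp I k k = I k + 1 := by
    unfold kpUp
    rw [Function.update_self]
  rw [this]
  ring

theorem kp_v_natCast (Q : Place S M) {n : ℕ} (h0 : n ≠ 0) (hn : n < p) : Q.v (n : M) = 1 := by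
  have h1 : (n : M) ≠ 0 := by
    intro h
    rw [CharP.cast_eq_zero_iff M p] at h
    exact h0 (Nat.eq_zero_of_dvd_of_lt h hn)
  have h2 : (n : S) ≠ 0 := by
    intro h
    apply h1
    rw [← map_natCast (algebraMap S M), h, map_zero]
  rw [← map_natCast (algebraMap S M)]
  exact Q.triv _ h2

theorem kp_W {Q : Place S M} {x : ι → M} (hx : IsPBasis p x) (hint : ∀ k, Q.v (x k) ≤ 1)
    (hT : IsTBasis Q hx.pd) : ∀ (d : ℕ) (c : (ι → Fin p) → M), (∀ I, d ≤ kpDeg I → c I = 0) →
      Q.v (pcomb p x c) ≤ 1 → ∀ I, Q.v (c I) ≤ 1 := by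
  intro d
  induction d with
  | zero =>
    intro c hc _ I
    rw [hc I (Nat.zero_le _)]
    simp
  | succ d ih =>
    intro c hc hf
    have step : ∀ k I, Q.v (kpSc c k I) ≤ 1 := by
      intro k
      refine ih (kpSc c k) (fun I hI => ?_) ?_
      · unfold kpSc
        by_cases h0 : ((I k + 1 : Fin p) : ℕ) = 0
        · rw [h0]; simp
        · rw [hc (kpUp I k) (by rw [kp_deg_up I k h0]; omega), mul_zero]
      · rw [← kp_pd_pcomb hx]
        exact hT.kp_self k _ hf
    have hne : ∀ J : ι → Fin p, (∃ k, J k ≠ 0) → Q.v (c J) ≤ 1 := by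
      rintro J ⟨k, hk⟩
      have h1 := step k (kpDn J k)
      unfold kpSc at h1
      have h2 : kpDn J k k + 1 = J k := by
        unfold kpDn
        rw [Function.update_self, sub_add_cancel]
      rw [kp_up_dn, h2, map_mul, kp_v_natCast Q (fun h => hk (Fin.ext h)) (J k).2, one_mul] at h1
      exact h1
    intro I
    by_cases hI : ∃ k, I k ≠ 0
    · exact hne I hI
    · push Not at hI
      have hmon : pmon x I = 1 := by
        unfold pmon
        refine Finset.prod_eq_one fun k _ => ?_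
        rw [hI k]
        simp
      have hsplit : c I ^ p = pcomb p x c - ∑ J ∈ Finset.univ.erase I, c J ^ p * pmon x J := by
        unfold pcomb
        rw [← Finset.add_sum_erase _ _ (Finset.mem_univ I), hmon]
        ring
      have h1 : Q.v (c I ^ p) ≤ 1 := by
        rw [hsplit]
        refine Valuation.map_sub_le _ hf (Valuation.map_sum_le _ fun J hJ => ?_)
        have hJ' : ∃ k, J k ≠ 0 := by
          by_contra hcon
          push Not at hcon
          exact Finset.ne_of_mem_erase hJ (funext fun k => by rw [hcon k, hI k])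
        rw [map_mul, map_pow]
        refine mul_le_one' (pow_le_one' (hne J hJ') p) ?_
        unfold pmon
        rw [map_prod]
        refine Finset.prod_le_one' fun k _ => ?_
        rw [map_pow]
        exact pow_le_one' (hint k) _
      rw [map_pow] at h1
      exact (pow_le_one_iff (Fact.out : p.Prime).ne_zero).1 h1

theorem kp_isPBasisOn_of_isTBasis {Q : Place S M} {x : ι → M} (hx : IsPBasis p x) (hint : ∀ k, Q.v (x k) ≤ 1)
    (hT : IsTBasis Q hx.pd) : IsPBasisOn p Q.O.toSubring x := by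
  refine ⟨hx, fun c => ⟨fun h I => ?_, fun h => ?_⟩⟩
  · refine kp_W hx hint hT (Finset.univ.sup (kpDeg : (ι → Fin p) → ℕ) + 1) c (fun J hJ => ?_) h I
    have : kpDeg J ≤ Finset.univ.sup (kpDeg : (ι → Fin p) → ℕ) :=
      Finset.le_sup (f := (kpDeg : (ι → Fin p) → ℕ)) (Finset.mem_univ J)
    omega
  · unfold pcomb
    refine Subring.sum_mem _ fun I _ => Subring.mul_mem _ (Subring.pow_mem _ (h I) _) ?_
    unfold pmon
    exact Subring.prod_mem _ fun k _ => Subring.pow_mem _ (hint k) _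

end PB

section Thms

variable {p : ℕ} [Fact p.Prime] {S M : Type} [Field S] [Field M] [Algebra S M] [CharP M p] [IsFF S M]
  {ι : Type} [Fintype ι] [DecidableEq ι]

theorem IsPBasisOn.isTBasis {Q : Place S M} {x : ι → M} (hx : IsPBasisOn p Q.O.toSubring x) :
    IsTBasis Q hx.1.pd := hx.kp_isTBasis

theorem isPBasisOn_of_isTBasis {Q : Place S M} {x : ι → M} (hx : IsPBasis p x) (hint : ∀ k, Q.v (x k) ≤ 1)
    (hT : IsTBasis Q hx.pd) : IsPBasisOn p Q.O.toSubring x := kp_isPBasisOn_of_isTBasis hx hint hT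

omit [Fact p.Prime] [CharP M p] [IsFF S M] in
/-- two local frames differ by an element of `GL(O_Q)` -/
theorem IsTBasis.v_det {Q : Place S M} {θ θ' : Module.Basis ι M (Der M)} (h : IsTBasis Q θ) (h' : IsTBasis Q θ') :
    Q.v (θ.toMatrix θ').det = 1 := h.kp_v_det h'

omit [Fact p.Prime] [CharP M p] [DecidableEq ι] in
theorem finite_not_isTBasis_of {θ₀ : Module.Basis ι M (Der M)} (h : {Q : Place S M | ¬ IsTBasis Q θ₀}.Finite)
    {ι' : Type} [Fintype ι'] (θ : Module.Basis ι' M (Der M)) : {Q : Place S M | ¬ IsTBasis Q θ}.Finite :=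
  kp_finite_not_isTBasis_of h θ

omit [Fact p.Prime] [CharP M p] in
/-- independence of the frames -/
theorem absDet_of_frames (θ₀ : Module.Basis ι M (Der M)) (θQ₀ : Place S M → Module.Basis ι M (Der M))
    (hfin : {Q : Place S M | ¬ IsTBasis Q θ₀}.Finite) (hQ : ∀ Q, IsTBasis Q (θQ₀ Q))
    (hnu : nu S M = kap θ₀ θQ₀) : AbsDet S M := kp_absDet_of_frames θ₀ θQ₀ hfin hQ hnu

end Thms

end Claimed.Agent.R280
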