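import Claimed.Agent.R280.Ins.PBasis

/-!
# Row 280, Ins package D1 `LocP`: local `p`-bases at the places of a function field

`S` a field of characteristic `p` with `[S:S^p] = p^n`, `M/S` a function field, `Q` a place.
(LP)  every STANDARD SYSTEM `(τ, y_1, …, y_n)` (`τ` a uniformiser, `y` lifts of a `p`-basis of the residue field) is a `p`-basis on `O_Q`.
This replaces "regular + essentially of finite type over a perfect field ⇒ smooth ⇒ `Ω` locally free" of [D] Prop. 5.3.

PLAN.
* `hasPDeg_res`: the residue field is finite over `S` (`Place.finite_res`), P5.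
* `val_pcomb_std`: for fixed exponent `i` of `τ` normalise `max_J v(c_{i,J}) = 1`; the residue of `∑_J c_{i,J}^p y^J` is `≠ 0` by `p`-independence,
  so its value is `max_J v(c_{i,J})^p ∈ v(M)^p`; the `p` terms `τ^i (…)` have orders in different classes mod `p`: no cancellation.
* `isPBasisOn_std`: `val_pcomb_std` gives `p`-independence and the integrality criterion (`p·ord c + i ≥ 0 ⇔ ord c ≥ 0` for `0 ≤ i < p`);
  P6 + P3 give spanning.
* `exists_adapted_place`: `e f = p^a` (`sum_ramIdx_mul_deg`, `Place.over_unique_of_purelyInseparable`), `e ∣ p` (`τ_Q^p ∈ G`), the residue extension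
  `k(Q)/k(Q')` has `k(Q)^p ⊆ k(Q')`, degree `f`; P10 for it gives `(b̄, c̄, ȳ)`.
  `e = 1`: `b` = lifts of `b̄` (`a` of them), `y = (τ', lifts of ȳ)`, `τ'` a uniformiser of `Q'` (and of `Q`).
  `e = p`: `b = (τ_Q, lifts of b̄)`, `c = b^p` (`τ_Q^p` is a uniformiser of `Q'`), `y` = lifts of `ȳ`.
  Both `(c, y)` and `(b, y)` are standard systems up to reindexing: (LP) twice.
~1400 lines.   Owner of the statements: helper66.
-/

set_option autoImplicit false

namespace Claimed.Agent.R280

open WithZero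

set_option linter.unusedSectionVars false

section Aux

/-- splitting off the exponent of the uniformiser -/
def locpEquiv (p : ℕ) (ι : Type) : Fin p × (ι → Fin p) ≃ (Unit ⊕ ι → Fin p) where
  toFun x := Sum.elim (fun _ => x.1) x.2
  invFun I := (I (Sum.inl ()), fun j => I (Sum.inr j))
  left_inv _ := rfl
  right_inv I := by ext (u | j) <;> rfl

theorem locp_sum_split {p : ℕ} {ι : Type} [Fintype ι] [DecidableEq ι] {A : Type} [AddCommMonoid A]
    (f : (Unit ⊕ ι → Fin p) → A) :
    ∑ I, f I = ∑ i : Fin p, ∑ J : ι → Fin p, f (Sum.elim (fun _ => i) J) := by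
  rw [← Fintype.sum_prod_type']
  exact (Fintype.sum_equiv (locpEquiv p ι) _ _ fun _ => rfl).symm

theorem locp_pmon_sum {p : ℕ} {M : Type} [Field M] {ι : Type} [Fintype ι] (τ : M) (y : ι → M)
    (i : Fin p) (J : ι → Fin p) :
    pmon (Sum.elim (fun _ : Unit => τ) y) (Sum.elim (fun _ => i) J) = τ ^ (i : ℕ) * pmon y J := by
  simp [pmon, Fintype.prod_sum_type]

theorem locp_pcomb_sum {p : ℕ} {M : Type} [Field M] {ι : Type} [Fintype ι] [DecidableEq ι] (τ : M)
    (y : ι → M) (c : (Unit ⊕ ι → Fin p) → M) :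
    pcomb p (Sum.elim (fun _ : Unit => τ) y) c
      = ∑ i : Fin p, τ ^ (i : ℕ) * pcomb p y fun J => c (Sum.elim (fun _ => i) J) := by
  rw [pcomb, locp_sum_split]
  refine Finset.sum_congr rfl fun i _ => ?_
  rw [pcomb, Finset.mul_sum]
  refine Finset.sum_congr rfl fun J _ => ?_
  rw [locp_pmon_sum]
  ring

theorem locp_val_sum_distinct {M : Type} [Field M] (v : Valuation M ℤᵐ⁰) {α : Type} (s : Finset α)
    (f : α → M) (h : ∀ i ∈ s, ∀ j ∈ s, i ≠ j → v (f i) ≠ 0 → v (f i) ≠ v (f j)) :
    v (∑ i ∈ s, f i) = s.sup fun i => v (f i) := by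
  classical
  rcases s.eq_empty_or_nonempty with rfl | hs
  · simp
  obtain ⟨j, hj, hmax⟩ := s.exists_max_image (fun i => v (f i)) hs
  have hsup : (s.sup fun i => v (f i)) = v (f j) :=
    le_antisymm (Finset.sup_le hmax) (Finset.le_sup (f := fun i => v (f i)) hj)
  rw [hsup]
  by_cases h0 : v (f j) = 0
  · rw [h0]
    have : ∀ i ∈ s, f i = 0 := fun i hi => by
      have := hmax i hi
      rw [h0] at this
      exact (v.zero_iff).1 (le_antisymm this zero_le)
    rw [Finset.sum_eq_zero this, map_zero]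
  · refine v.map_sum_eq_of_lt hj fun i hi => ?_
    rw [Finset.mem_sdiff, Finset.mem_singleton] at hi
    exact lt_of_le_of_ne (hmax i hi.1) fun he => h j hj i hi.1 (Ne.symm hi.2) h0 he.symm

end Aux

section LP

variable {p : ℕ} [Fact p.Prime] {S M : Type} [Field S] [Field M] [Algebra S M] [CharP S p] [CharP M p] [IsFF S M]

theorem Place.charP_res (p : ℕ) [Fact p.Prime] [CharP S p] (Q : Place S M) : CharP Q.Res p :=
  charP_of_injective_algebraMap (algebraMap S Q.Res).injective p

theorem Place.exists_isPBasis_res {n : ℕ} (hS : HasPDeg p S n) (Q : Place S M) :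
    ∃ y : Fin n → Q.Res, IsPBasis p y := by
  have := Q.charP_res p
  have := Q.finite_res
  exact exists_isPBasis p (hasPDeg_of_finite S hS)

omit [CharP S p] [CharP M p] [IsFF S M] in
/-- a `p`-combination of lifts of a `p`-independent family of the residue field -/
theorem locp_val_res (Q : Place S M) {ι : Type} [Fintype ι] [DecidableEq ι] (y : ι → Q.O)
    (hy : IsPIndep p fun j => IsLocalRing.residue Q.O (y j)) (c : (ι → Fin p) → M) :
    Q.v (pcomb p (fun j => (y j : M)) c) = Finset.univ.sup fun J => Q.v (c J) ^ p := by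
  have hp : p ≠ 0 := (Fact.out : p.Prime).ne_zero
  have : NeZero p := ⟨hp⟩
  obtain ⟨J₀, -, hJ₀⟩ := Finset.exists_max_image Finset.univ (fun J => Q.v (c J))
    ⟨fun _ => 0, Finset.mem_univ _⟩
  have hsup : (Finset.univ.sup fun J => Q.v (c J) ^ p) = Q.v (c J₀) ^ p :=
    le_antisymm (Finset.sup_le fun J hJ => pow_le_pow_left₀ zero_le (hJ₀ J hJ) p)
      (Finset.le_sup (f := fun J => Q.v (c J) ^ p) (Finset.mem_univ J₀))
  rw [hsup]
  by_cases hd : c J₀ = 0
  · have h0 : ∀ J, c J = 0 := fun J => by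
      have := hJ₀ J (Finset.mem_univ J)
      rw [hd, map_zero] at this
      exact (Q.v.zero_iff).1 (le_antisymm this zero_le)
    simp [pcomb, h0, hp]
  · have hvd : Q.v (c J₀) ≠ 0 := Q.v_ne_zero hd
    have hc' : ∀ J, Q.v (c J / c J₀) ≤ 1 := fun J => by
      rw [map_div₀]
      exact div_le_one_of_le₀ (hJ₀ J (Finset.mem_univ J)) zero_le
    set c' : (ι → Fin p) → Q.O := fun J => ⟨c J / c J₀, hc' J⟩ with hc'def
    set z : Q.O := ∑ J, c' J ^ p * ∏ k, y k ^ (J k : ℕ) with hz
    have e1 : pcomb p (fun j => (y j : M)) c = c J₀ ^ p * (z : M) := by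
      rw [hz, pcomb]
      push_cast
      rw [Finset.mul_sum]
      refine Finset.sum_congr rfl fun J _ => ?_
      rw [pmon, hc'def]
      simp only
      rw [div_pow]
      field_simp
    have e2 : IsLocalRing.residue Q.O z
        = pcomb p (fun j => IsLocalRing.residue Q.O (y j)) fun J => IsLocalRing.residue Q.O (c' J) := by
      rw [hz, pcomb, map_sum]
      refine Finset.sum_congr rfl fun J _ => ?_
      rw [map_mul, map_pow, map_prod, pmon]
      simp only [map_pow]
    have e3 : IsLocalRing.residue Q.O z ≠ 0 := by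
      intro h0
      have h1 : pcomb p (fun j => IsLocalRing.residue Q.O (y j))
          (fun J => IsLocalRing.residue Q.O (c' J))
          = pcomb p (fun j => IsLocalRing.residue Q.O (y j)) (fun _ => 0) := by
        rw [← e2, h0]
        simp [pcomb, hp]
      have h2 := congrFun (hy h1) J₀
      have h3 : c' J₀ = 1 := by
        ext
        simp [hc'def, hd]
      rw [h3, map_one] at h2
      exact one_ne_zero h2
    have e4 : Q.v (z : M) = 1 := by
      refine le_antisymm z.2 (not_lt.1 fun hlt => e3 ?_)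
      exact (Q.residue_eq_zero_iff z).2 hlt
    rw [e1, map_mul, map_pow, e4, mul_one]

/-- the valuation of a `p`-combination of a standard system -/
theorem val_pcomb_std (Q : Place S M) {ι : Type} [Fintype ι] [DecidableEq ι] {τ : M} (hτ : Q.v τ = exp (-1))
    (y : ι → Q.O) (hy : IsPIndep p fun j => IsLocalRing.residue Q.O (y j)) (c : (Unit ⊕ ι → Fin p) → M) :
    Q.v (pcomb p (Sum.elim (fun _ : Unit => τ) fun j => (y j : M)) c) =
      Finset.univ.sup fun I => Q.v (c I) ^ p * exp (-((I (Sum.inl ()) : ℕ) : ℤ)) := by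
  have hp : p ≠ 0 := (Fact.out : p.Prime).ne_zero
  have : NeZero p := ⟨hp⟩
  rw [locp_pcomb_sum]
  have hval : ∀ i : Fin p, ∃ J : ι → Fin p,
      Q.v (τ ^ (i : ℕ) * pcomb p (fun j => (y j : M)) fun J => c (Sum.elim (fun _ => i) J))
        = Q.v (c (Sum.elim (fun _ => i) J)) ^ p * exp (-((i : ℕ) : ℤ)) ∧
      ∀ J', Q.v (c (Sum.elim (fun _ => i) J')) ≤ Q.v (c (Sum.elim (fun _ => i) J)) := by
    intro i
    obtain ⟨J₀, -, hJ₀⟩ := Finset.exists_max_image Finset.univ
      (fun J => Q.v (c (Sum.elim (fun _ => i) J))) ⟨fun _ => 0, Finset.mem_univ _⟩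
    refine ⟨J₀, ?_, fun J' => hJ₀ J' (Finset.mem_univ _)⟩
    have hsup : (Finset.univ.sup fun J => Q.v (c (Sum.elim (fun _ => i) J)) ^ p)
        = Q.v (c (Sum.elim (fun _ => i) J₀)) ^ p :=
      le_antisymm (Finset.sup_le fun J hJ => pow_le_pow_left₀ zero_le (hJ₀ J hJ) p)
        (Finset.le_sup (f := fun J => Q.v (c (Sum.elim (fun _ => i) J)) ^ p) (Finset.mem_univ J₀))
    rw [map_mul, map_pow, hτ, locp_val_res Q y hy, hsup, ← exp_nsmul, mul_comm]
    simp
  choose J hJ1 hJ2 using hval
  rw [locp_val_sum_distinct]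
  · refine le_antisymm (Finset.sup_le fun i _ => ?_) (Finset.sup_le fun I _ => ?_)
    · rw [hJ1 i]
      exact Finset.le_sup (f := fun I : Unit ⊕ ι → Fin p =>
        Q.v (c I) ^ p * exp (-((I (Sum.inl ()) : ℕ) : ℤ))) (Finset.mem_univ (Sum.elim (fun _ => i) (J i)))
    · have hI : I = Sum.elim (fun _ => I (Sum.inl ())) (fun j => I (Sum.inr j)) :=
        ((locpEquiv p ι).right_inv I).symm
      refine le_trans ?_ (Finset.le_sup (f := fun i : Fin p => Q.v (τ ^ (i : ℕ) *
        pcomb p (fun j => (y j : M)) fun J => c (Sum.elim (fun _ => i) J)))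
        (Finset.mem_univ (I (Sum.inl ()))))
      rw [hJ1]
      refine mul_le_mul_left (pow_le_pow_left₀ zero_le ?_ p) _
      conv_lhs => rw [hI]
      exact hJ2 _ _
  · intro i _ j _ hij h0 he
    rw [hJ1 i] at h0
    rw [hJ1 i, hJ1 j] at he
    have hi0 : Q.v (c (Sum.elim (fun _ => i) (J i))) ≠ 0 := by
      intro h
      rw [h, zero_pow hp, zero_mul] at h0
      exact h0 rfl
    have hj0 : Q.v (c (Sum.elim (fun _ => j) (J j))) ≠ 0 := by
      intro h
      rw [h, zero_pow hp, zero_mul] at he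
      exact h0 he
    rw [← exp_log hi0, ← exp_log hj0, ← exp_nsmul, ← exp_nsmul, ← exp_add, ← exp_add, exp_inj] at he
    simp only [nsmul_eq_mul] at he
    have hdvd : (p : ℤ) ∣ ((i : ℕ) : ℤ) - ((j : ℕ) : ℤ) :=
      ⟨log (Q.v (c (Sum.elim (fun _ => i) (J i)))) - log (Q.v (c (Sum.elim (fun _ => j) (J j)))),
        by linarith⟩
    have hlt : |((i : ℕ) : ℤ) - ((j : ℕ) : ℤ)| < p := by
      have h1 := i.isLt
      have h2 := j.isLt
      rw [abs_lt]
      constructor <;> omega
    have := Int.eq_zero_of_abs_lt_dvd hdvd hlt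
    exact hij (Fin.ext (by omega))

omit [Algebra S M] [CharP S p] [IsFF S M] [Field S] in
theorem locp_pcomb_sub {ι : Type} [Fintype ι] [DecidableEq ι] (x : ι → M) (c c' : (ι → Fin p) → M) :
    pcomb p x (c - c') = pcomb p x c - pcomb p x c' := by
  simp only [pcomb, Pi.sub_apply, sub_pow_char, sub_mul, Finset.sum_sub_distrib]

omit [CharP S p] [CharP M p] [IsFF S M] [Fact p.Prime] in
theorem locp_weight_le_one (Q : Place S M) (f : M) (i : Fin p) :
    Q.v f ^ p * exp (-((i : ℕ) : ℤ)) ≤ 1 ↔ Q.v f ≤ 1 := by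
  have hp : p ≠ 0 := fun h => by subst h; exact i.elim0
  by_cases hf : f = 0
  · simp [hf, hp]
  · rw [← exp_log (Q.v_ne_zero hf), ← exp_nsmul, ← exp_add, ← exp_zero, exp_le_exp, exp_le_exp,
      nsmul_eq_mul]
    have hi := i.isLt
    constructor
    · intro h
      by_contra hcon
      have h1 : 1 ≤ log (Q.v f) := by omega
      have h2 : (p : ℤ) * 1 ≤ p * log (Q.v f) := by gcongr
      omega
    · intro h
      have h2 : (p : ℤ) * log (Q.v f) ≤ p * 0 := by gcongr
      omega

/-- (LP) for an arbitrary index type of the right size; only `p`-independence of the residues is needed -/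
theorem locp_isPBasisOn_std {n : ℕ} (hS : HasPDeg p S n) (Q : Place S M) {ι : Type} [Fintype ι]
    [DecidableEq ι] (hcard : Fintype.card ι = n) {τ : M} (hτ : Q.v τ = exp (-1)) (y : ι → Q.O)
    (hy : IsPIndep p fun j => IsLocalRing.residue Q.O (y j)) :
    IsPBasisOn p Q.O.toSubring (Sum.elim (fun _ : Unit => τ) fun j => (y j : M)) := by
  have hp : p ≠ 0 := (Fact.out : p.Prime).ne_zero
  have hind : IsPIndep p (Sum.elim (fun _ : Unit => τ) fun j => (y j : M)) := by
    intro c c' hcc
    have h0 : pcomb p (Sum.elim (fun _ : Unit => τ) fun j => (y j : M)) (c - c') = 0 := by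
      rw [locp_pcomb_sub]
      exact sub_eq_zero.2 hcc
    have h1 := val_pcomb_std Q hτ y hy (c - c')
    rw [h0, map_zero] at h1
    ext I
    have h2 := Finset.le_sup (f := fun I : Unit ⊕ ι → Fin p =>
      Q.v ((c - c') I) ^ p * exp (-((I (Sum.inl ()) : ℕ) : ℤ))) (Finset.mem_univ I)
    rw [← h1] at h2
    have h3 := le_antisymm h2 zero_le
    have h4 : Q.v ((c - c') I) = 0 := by
      rcases mul_eq_zero.1 h3 with h | h
      · exact pow_eq_zero_iff hp |>.1 h
      · exact absurd h exp_ne_zero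
    exact sub_eq_zero.1 ((Q.v.zero_iff).1 h4)
  refine ⟨hind.isPBasis ?_, fun c => ?_⟩
  · have : Fintype.card (Unit ⊕ ι) = n + 1 := by
      rw [Fintype.card_sum, hcard, Fintype.card_unit, add_comm]
    rw [this]
    exact hasPDeg_of_isFF S hS
  · rw [ValuationSubring.mem_toSubring, Valuation.mem_valuationSubring_iff, val_pcomb_std Q hτ y hy,
      Finset.sup_le_iff]
    refine ⟨fun h I => ?_, fun h I _ => ?_⟩
    · rw [ValuationSubring.mem_toSubring, Valuation.mem_valuationSubring_iff]
      exact (locp_weight_le_one Q _ _).1 (h I (Finset.mem_univ I))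
    · have := h I
      rw [ValuationSubring.mem_toSubring, Valuation.mem_valuationSubring_iff] at this
      exact (locp_weight_le_one Q _ _).2 this

/-- **(LP)** a standard system is a `p`-basis on `O_Q` -/
theorem isPBasisOn_std {n : ℕ} (hS : HasPDeg p S n) (Q : Place S M) {τ : M} (hτ : Q.v τ = exp (-1))
    (y : Fin n → Q.O) (hy : IsPBasis p fun j => IsLocalRing.residue Q.O (y j)) :
    IsPBasisOn p Q.O.toSubring (Sum.elim (fun _ : Unit => τ) fun j => (y j : M)) :=
  locp_isPBasisOn_std hS Q (Fintype.card_fin n) hτ y hy.1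

theorem exists_isPBasisOn {n : ℕ} (hS : HasPDeg p S n) (Q : Place S M) :
    ∃ x : Fin (n + 1) → M, IsPBasisOn p Q.O.toSubring x := by
  obtain ⟨τ, hτ⟩ := Q.exists_unif
  obtain ⟨ybar, hybar⟩ := Q.exists_isPBasis_res hS
  choose y hy using fun j => IsLocalRing.residue_surjective (R := Q.O) (ybar j)
  have h1 : IsPBasis p fun j => IsLocalRing.residue Q.O (y j) := by
    simp only [hy]
    exact hybar
  have h2 := isPBasisOn_std hS Q hτ y h1
  have e : Fin (n + 1) ≃ Unit ⊕ Fin n :=
    Fintype.equivOfCardEq (by rw [Fintype.card_sum, Fintype.card_unit, Fintype.card_fin,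
      Fintype.card_fin, add_comm])
  exact ⟨_, h2.reindex e⟩

end LP

section Reindex

/-- move the distinguished element behind the first block -/
def locpSigma (α β : Type) : α ⊕ (Unit ⊕ β) ≃ Unit ⊕ (α ⊕ β) where
  toFun := Sum.elim (fun l => Sum.inr (Sum.inl l))
    (Sum.elim (fun u => Sum.inl u) (fun j => Sum.inr (Sum.inr j)))
  invFun := Sum.elim (fun u => Sum.inr (Sum.inl u))
    (Sum.elim (fun l => Sum.inl l) (fun j => Sum.inr (Sum.inr j)))
  left_inv := by rintro (l | u | j) <;> rfl
  right_inv := by rintro (u | l | j) <;> rfl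

variable {p : ℕ} [Fact p.Prime] {M : Type} [Field M] [CharP M p]
  {α β γ : Type} [Fintype α] [DecidableEq α] [Fintype β] [DecidableEq β] [Fintype γ] [DecidableEq γ]

theorem locp_reindex_right {O : Subring M} {x₀ : M} {u : α → M} {w : β → M}
    (h : IsPBasisOn p O (Sum.elim (fun _ : Unit => x₀) (Sum.elim u w))) (e₀ : γ ≃ Unit ⊕ β) :
    IsPBasisOn p O (Sum.elim u fun i : γ => Sum.elim (fun _ : Unit => x₀) w (e₀ i)) := by
  have h1 := h.reindex ((Equiv.sumCongr (Equiv.refl α) e₀).trans (locpSigma α β))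
  have h2 : (Sum.elim (fun _ : Unit => x₀) (Sum.elim u w)) ∘
      ((Equiv.sumCongr (Equiv.refl α) e₀).trans (locpSigma α β))
      = Sum.elim u fun i : γ => Sum.elim (fun _ : Unit => x₀) w (e₀ i) := by
    funext j
    rcases j with l | i
    · rfl
    · simp only [Function.comp_apply, Equiv.trans_apply, Equiv.sumCongr_apply, Sum.map_inr,
        Sum.elim_inr]
      rcases e₀ i with u | j <;> rfl
  rw [← h2]
  exact h1

theorem locp_reindex_left {O : Subring M} {x₀ : M} {u : α → M} {w : β → M}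
    (h : IsPBasisOn p O (Sum.elim (fun _ : Unit => x₀) (Sum.elim u w))) (e₁ : γ ≃ Unit ⊕ α) :
    IsPBasisOn p O (Sum.elim (fun i : γ => Sum.elim (fun _ : Unit => x₀) u (e₁ i)) w) := by
  have h1 := h.reindex ((Equiv.sumCongr e₁ (Equiv.refl β)).trans (Equiv.sumAssoc Unit α β))
  have h2 : (Sum.elim (fun _ : Unit => x₀) (Sum.elim u w)) ∘
      ((Equiv.sumCongr e₁ (Equiv.refl β)).trans (Equiv.sumAssoc Unit α β))
      = Sum.elim (fun i : γ => Sum.elim (fun _ : Unit => x₀) u (e₁ i)) w := by
    funext j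
    rcases j with i | l
    · simp only [Function.comp_apply, Equiv.trans_apply, Equiv.sumCongr_apply, Sum.map_inl,
        Sum.elim_inl]
      rcases e₁ i with u | j <;> rfl
    · rfl
  rw [← h2]
  exact h1

end Reindex

section Adapted

variable {p : ℕ} [Fact p.Prime] {S G M : Type} [Field S] [Field G] [Field M] [Algebra S G] [Algebra S M]
  [Algebra G M] [IsScalarTower S G M] [CharP S p] [CharP G p] [CharP M p] [IsFF S G] [IsFF S M] [Module.Finite G M]

/-- height one: the local index divides `p` -/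
theorem ramIdx_dvd_of_pow (hpow : ∀ x : M, ∃ g : G, algebraMap G M g = x ^ p) {Q : Place S M} {Q' : Place S G}
    (hQ : Q.Over Q') : Q.ramIdx Q' ∣ p := by
  obtain ⟨t, ht⟩ := Q.exists_unif
  obtain ⟨g, hg⟩ := hpow t
  have h1 := (Place.overE_ramIdx hQ).2 g
  rw [hg, map_pow, ht] at h1
  have hg0 : Q'.v g ≠ 0 := by
    intro h
    rw [h, zero_pow hQ.ramIdx_pos.ne'] at h1
    exact pow_ne_zero _ exp_ne_zero h1
  rw [← exp_log hg0, ← exp_nsmul, ← exp_nsmul, exp_inj] at h1
  simp only [nsmul_eq_mul] at h1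
  have : (Q.ramIdx Q' : ℤ) ∣ p := ⟨- log (Q'.v g), by linarith⟩
  exact_mod_cast this

omit [Fact p.Prime] [IsScalarTower S G M] [CharP S p] [CharP G p] [CharP M p] [IsFF S G] [IsFF S M]
  [Module.Finite G M] in
theorem locp_over_unique (hp : p ≠ 0) (hpow : ∀ x : M, ∃ g : G, algebraMap G M g = x ^ p)
    {Q R : Place S M} {Q' : Place S G} (hQ : Q.Over Q') (hR : R.Over Q') : R = Q := by
  have key : ∀ {T : Place S M}, T.Over Q' → ∀ y : M, T.v y ≤ 1 ↔
      ∃ g : G, algebraMap G M g = y ^ p ∧ Q'.v g ≤ 1 := by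
    intro T hT y
    constructor
    · intro hy
      obtain ⟨g, hg⟩ := hpow y
      refine ⟨g, hg, ?_⟩
      rw [← hT.v_le_one_iff, hg, map_pow]
      exact pow_le_one' hy _
    · rintro ⟨g, hg, hg'⟩
      rw [← hT.v_le_one_iff, hg, map_pow] at hg'
      exact (pow_le_one_iff hp).1 hg'
  apply Place.eq_of_O_eq
  ext y
  rw [Valuation.mem_valuationSubring_iff, Valuation.mem_valuationSubring_iff, key hQ, key hR]

/-- height one: exactly one place above, `e · deg Q = [M:G] · deg Q'` -/
theorem ramIdx_mul_deg_of_pow (hpow : ∀ x : M, ∃ g : G, algebraMap G M g = x ^ p) {Q : Place S M} {Q' : Place S G}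
    (hQ : Q.Over Q') : Q.ramIdx Q' * Q.deg = Module.finrank G M * Q'.deg := by
  have hp : p ≠ 0 := (Fact.out : p.Prime).ne_zero
  have h := sum_ramIdx_mul_deg (M' := M) Q'
  rw [finsum_eq_single _ Q fun R hR => by
    rw [Place.ramIdx_eq_zero fun h => hR (locp_over_unique hp hpow hQ h), zero_mul]] at h
  exact h

/-- the residue field extension of a height one extension: lifts of adapted `p`-bases of the residue fields -/
theorem locp_residue_data {n : ℕ} (hS : HasPDeg p S n)
    (hpow : ∀ x : M, ∃ g : G, algebraMap G M g = x ^ p) {Q : Place S M} {Q' : Place S G}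
    (hQ : Q.Over Q') {a' : ℕ} (hf : p ^ a' * Q'.deg = Q.deg) :
    ∃ s' : ℕ, a' + s' = n ∧ ∃ (b : Fin a' → Q.O) (c : Fin a' → Q'.O) (y : Fin s' → Q'.O),
      (∀ l, algebraMap G M (c l : G) = (b l : M) ^ p) ∧
      IsPIndep p (fun j : Fin a' ⊕ Fin s' => IsLocalRing.residue Q'.O (Sum.elim c y j)) ∧
      IsPIndep p (fun j : Fin a' ⊕ Fin s' =>
        IsLocalRing.residue Q.O (Sum.elim b (fun i => hQ.mapO (y i)) j)) := by
  have hloc : IsLocalHom hQ.mapO := hQ.isLocalHom_mapO
  let alg : Algebra Q'.Res Q.Res := (IsLocalRing.ResidueField.map hQ.mapO).toAlgebra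
  have halg : ∀ a : Q'.O, algebraMap Q'.Res Q.Res (IsLocalRing.residue Q'.O a)
      = IsLocalRing.residue Q.O (hQ.mapO a) := fun a => rfl
  have tower : IsScalarTower S Q'.Res Q.Res := by
    refine IsScalarTower.of_algebraMap_eq fun a => ?_
    show IsLocalRing.residue Q.O (algebraMap S Q.O a) =
      algebraMap Q'.Res Q.Res (IsLocalRing.residue Q'.O (algebraMap S Q'.O a))
    rw [halg]
    congr 1
    ext
    rw [hQ.coe_mapO]
    exact IsScalarTower.algebraMap_apply S G M a
  have finQ : Module.Finite S Q.Res := Q.finite_res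
  have finQ' : Module.Finite S Q'.Res := Q'.finite_res
  have finQP : Module.Finite Q'.Res Q.Res := Module.Finite.of_restrictScalars_finite S Q'.Res Q.Res
  have cQ : CharP Q.Res p := Q.charP_res p
  have cQ' : CharP Q'.Res p := Q'.charP_res p
  have hrank : Module.finrank Q'.Res Q.Res = p ^ a' := by
    have h1 : Q'.deg * Module.finrank Q'.Res Q.Res = Q.deg := Module.finrank_mul_finrank S Q'.Res Q.Res
    have h2 : Q'.deg * Module.finrank Q'.Res Q.Res = Q'.deg * p ^ a' := by
      rw [h1, ← hf, mul_comm]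
    exact Nat.eq_of_mul_eq_mul_left Q'.deg_pos h2
  have hlift : ∀ z : Q.O, ∃ g : Q'.O, algebraMap G M (g : G) = (z : M) ^ p := by
    intro z
    obtain ⟨g, hg⟩ := hpow (z : M)
    have hgO : Q'.v g ≤ 1 := by
      rw [← hQ.v_le_one_iff, hg, map_pow]
      exact pow_le_one' z.2 p
    exact ⟨⟨g, hgO⟩, hg⟩
  have hres : ∀ (z : Q.O) (g : Q'.O), algebraMap G M (g : G) = (z : M) ^ p →
      algebraMap Q'.Res Q.Res (IsLocalRing.residue Q'.O g) = IsLocalRing.residue Q.O z ^ p := by
    intro z g hg
    rw [halg, ← map_pow]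
    congr 1
    ext
    rw [hQ.coe_mapO]
    exact hg
  have hpowR : ∀ x : Q.Res, ∃ g : Q'.Res, algebraMap Q'.Res Q.Res g = x ^ p := by
    intro x
    obtain ⟨z, rfl⟩ := IsLocalRing.residue_surjective x
    obtain ⟨g, hg⟩ := hlift z
    exact ⟨_, hres z g hg⟩
  have hdQ : HasPDeg p Q.Res n := hasPDeg_of_finite S hS
  have hdQ' : HasPDeg p Q'.Res n := hasPDeg_of_finite S hS
  have hle : a' ≤ n := le_of_hasPDeg hpowR hrank hdQ
  obtain ⟨s', hs'⟩ := Nat.exists_eq_add_of_le hle
  obtain ⟨X⟩ := exists_adapted_field hpowR hrank (s := s') (by rw [← hs']; exact hdQ')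
  choose b hb using fun l => IsLocalRing.residue_surjective (R := Q.O) (X.b l)
  choose y hy using fun i => IsLocalRing.residue_surjective (R := Q'.O) (X.y i)
  choose c hc using fun l => hlift (b l)
  have hcres : ∀ l, IsLocalRing.residue Q'.O (c l) = X.c l := by
    intro l
    apply (algebraMap Q'.Res Q.Res).injective
    rw [hres (b l) (c l) (hc l), X.hc, hb]
  refine ⟨s', hs'.symm, b, c, y, hc, ?_, ?_⟩
  · have : (fun j : Fin a' ⊕ Fin s' => IsLocalRing.residue Q'.O (Sum.elim c y j))
        = Sum.elim X.c X.y := by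
      funext j
      rcases j with l | i
      · exact hcres l
      · exact hy i
    rw [this]
    exact X.hG.1.1
  · have : (fun j : Fin a' ⊕ Fin s' =>
        IsLocalRing.residue Q.O (Sum.elim b (fun i => hQ.mapO (y i)) j))
        = Sum.elim X.b fun i => algebraMap Q'.Res Q.Res (X.y i) := by
      funext j
      rcases j with l | i
      · exact hb l
      · show IsLocalRing.residue Q.O (hQ.mapO (y i)) = algebraMap Q'.Res Q.Res (X.y i)
        rw [← halg, hy]
    rw [this]
    exact X.hM.1.1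

/-- **adapted local `p`-bases** ([D] (5.9), with the `p`-basis of the base included) -/
theorem exists_adapted_place {n : ℕ} (hS : HasPDeg p S n) (hpow : ∀ x : M, ∃ g : G, algebraMap G M g = x ^ p)
    {a s : ℕ} (ha : Module.finrank G M = p ^ a) (hs : a + s = n + 1) {Q : Place S M} {Q' : Place S G}
    (hQ : Q.Over Q') : Nonempty (Adapted p G M Q'.O.toSubring Q.O.toSubring a s) := by
  have hp : p.Prime := Fact.out
  have hdvd := ramIdx_dvd_of_pow hpow hQ
  have hmul := ramIdx_mul_deg_of_pow hpow hQ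
  rw [ha] at hmul
  rcases (Nat.dvd_prime hp).1 hdvd with he | he
  · -- unramified: the uniformiser comes from below
    rw [he, one_mul] at hmul
    obtain ⟨s', hs', b, c, y, hc, h1, h2⟩ := locp_residue_data hS hpow hQ hmul.symm
    obtain rfl : s = s' + 1 := by omega
    obtain ⟨τ', hτ'⟩ := Q'.exists_unif
    have hτ : Q.v (algebraMap G M τ') = exp (-1) := by
      rw [(Place.overE_ramIdx hQ).2, he, pow_one, hτ']
    have hcard : Fintype.card (Fin a ⊕ Fin s') = n := by simp [hs']
    have B1 := locp_isPBasisOn_std hS Q' hcard hτ' _ h1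
    have B2 := locp_isPBasisOn_std hS Q hcard hτ _ h2
    have E1 : (fun j : Fin a ⊕ Fin s' => ((Sum.elim c y j : Q'.O) : G))
        = Sum.elim (fun l => (c l : G)) (fun i => (y i : G)) := by
      funext j
      rcases j with l | i <;> rfl
    have E2 : (fun j : Fin a ⊕ Fin s' => ((Sum.elim b (fun i => hQ.mapO (y i)) j : Q.O) : M))
        = Sum.elim (fun l => (b l : M)) (fun i => algebraMap G M (y i : G)) := by
      funext j
      rcases j with l | i <;> rfl
    rw [E1] at B1
    rw [E2] at B2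
    have e₀ : Fin (s' + 1) ≃ Unit ⊕ Fin s' :=
      Fintype.equivOfCardEq (by simp [add_comm])
    refine ⟨{ b := fun l => (b l : M), c := fun l => (c l : G),
              y := fun i => Sum.elim (fun _ : Unit => τ') (fun i => (y i : G)) (e₀ i),
              hc := hc, hG := locp_reindex_right B1 e₀, hM := ?_ }⟩
    have h3 := locp_reindex_right B2 e₀
    have E3 : (fun i : Fin (s' + 1) => algebraMap G M
        (Sum.elim (fun _ : Unit => τ') (fun i => (y i : G)) (e₀ i)))
        = fun i : Fin (s' + 1) => Sum.elim (fun _ : Unit => algebraMap G M τ')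
          (fun i => algebraMap G M (y i : G)) (e₀ i) := by
      funext i
      rcases e₀ i with u | j <;> rfl
    rw [E3]
    exact h3
  · -- ramified: a uniformiser of `Q` is one of the `b`
    rw [he] at hmul
    obtain ⟨f, hf⟩ := Place.deg_dvd_deg hQ
    have ha0 : a ≠ 0 := by
      rintro rfl
      rw [pow_zero, one_mul, hf] at hmul
      have h1 : Q'.deg * (p * f) = Q'.deg * 1 := by rw [mul_one]; linarith [hmul]
      have h2 := Nat.eq_of_mul_eq_mul_left Q'.deg_pos h1
      exact hp.one_lt.ne' (Nat.eq_one_of_mul_eq_one_right h2)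
    obtain ⟨a', rfl⟩ := Nat.exists_eq_succ_of_ne_zero ha0
    have hmul' : p ^ a' * Q'.deg = Q.deg := by
      rw [Nat.succ_eq_add_one, pow_succ] at hmul
      have h1 : p * Q.deg = p * (p ^ a' * Q'.deg) := by rw [hmul]; ring
      exact (Nat.eq_of_mul_eq_mul_left hp.pos h1).symm
    obtain ⟨s', hs', b, c, y, hc, h1, h2⟩ := locp_residue_data hS hpow hQ hmul'
    obtain rfl : s = s' := by omega
    obtain ⟨τ, hτ⟩ := Q.exists_unif
    obtain ⟨g₀, hg₀⟩ := hpow τ
    have hτ' : Q'.v g₀ = exp (-1) := by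
      have h3 := (Place.overE_ramIdx hQ).2 g₀
      rw [hg₀, map_pow, hτ, he] at h3
      exact ((pow_left_inj₀ zero_le zero_le hp.ne_zero).1 h3).symm
    have hcard : Fintype.card (Fin a' ⊕ Fin s) = n := by simp [hs']
    have B1 := locp_isPBasisOn_std hS Q' hcard hτ' _ h1
    have B2 := locp_isPBasisOn_std hS Q hcard hτ _ h2
    have E1 : (fun j : Fin a' ⊕ Fin s => ((Sum.elim c y j : Q'.O) : G))
        = Sum.elim (fun l => (c l : G)) (fun i => (y i : G)) := by
      funext j
      rcases j with l | i <;> rfl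
    have E2 : (fun j : Fin a' ⊕ Fin s => ((Sum.elim b (fun i => hQ.mapO (y i)) j : Q.O) : M))
        = Sum.elim (fun l => (b l : M)) (fun i => algebraMap G M (y i : G)) := by
      funext j
      rcases j with l | i <;> rfl
    rw [E1] at B1
    rw [E2] at B2
    have e₁ : Fin (a' + 1) ≃ Unit ⊕ Fin a' :=
      Fintype.equivOfCardEq (by simp [add_comm])
    refine ⟨{ b := fun i => Sum.elim (fun _ : Unit => τ) (fun l => (b l : M)) (e₁ i),
              c := fun i => Sum.elim (fun _ : Unit => g₀) (fun l => (c l : G)) (e₁ i),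
              y := fun i => (y i : G),
              hc := ?_, hG := locp_reindex_left B1 e₁, hM := locp_reindex_left B2 e₁ }⟩
    intro i
    rcases e₁ i with u | l
    · exact hg₀
    · exact hc l

end Adapted

end Claimed.Agent.R280
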