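import Claimed.Agent.R280.Ins.PBasisMon

/-!
# Row 280, Ins package D0 `PBasis`, auxiliary file 3: `p`-bases of rational function fields

If `s` is a `p`-basis of `S` and `K = S(x)` with `x` transcendental, then `(s, x)` is a `p`-basis of `K`.   (helper240)
-/

set_option autoImplicit false

namespace Claimed.Agent.R280

open Polynomial

section Poly

variable {p : ℕ} [Fact p.Prime] {S : Type} [Field S] [CharP S p]

theorem pbx_coeff_pow (A : S[X]) (k : ℕ) :
    (A ^ p).coeff k = if p ∣ k then (A.coeff (k / p)) ^ p else 0 := by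
  have hp : p.Prime := Fact.out
  rw [← map_frobenius_expand, coeff_map, coeff_expand hp.pos]
  split_ifs
  · rfl
  · exact map_zero _

variable {ι : Type} [Fintype ι] [DecidableEq ι]

theorem pbx_coeff_plin (s : ι → S) (A : (ι → Fin p) → S[X]) (k : ℕ) :
    (plin (frobenius S[X] p) (pmonR (p := p) (⇑(C : S →+* S[X]) ∘ s)) A).coeff k
      = if p ∣ k then plin (frobenius S p) (pmonR (p := p) s) (fun I => (A I).coeff (k / p))
        else 0 := by
  unfold plin
  rw [finsetSum_coeff]
  by_cases hk : p ∣ k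
  · rw [if_pos hk]
    refine Finset.sum_congr rfl fun I _ => ?_
    rw [← pbx_pmonR_map, coeff_mul_C, frobenius_def, pbx_coeff_pow, if_pos hk, frobenius_def]
  · rw [if_neg hk]
    refine Finset.sum_eq_zero fun I _ => ?_
    rw [← pbx_pmonR_map, coeff_mul_C, frobenius_def, pbx_coeff_pow, if_neg hk, zero_mul]

theorem pbx_mod_aux {m i i₀ : ℕ} (hi : i < p) (hi₀ : i₀ < p) (hle : i ≤ p * m + i₀)
    (hd : p ∣ p * m + i₀ - i) : i = i₀ := by
  obtain ⟨q, hq⟩ := hd
  have h1 : p * m + i₀ = p * q + i := by omega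
  have h2 : (p * m + i₀) % p = i₀ := by
    rw [Nat.mul_add_mod, Nat.mod_eq_of_lt hi₀]
  have h3 : (p * q + i) % p = i := by
    rw [Nat.mul_add_mod, Nat.mod_eq_of_lt hi]
  rw [h1, h3] at h2
  exact h2

/-- `(s, X)` is `p`-independent in `S[X]` -/
theorem pbx_poly_indep {s : ι → S} (hs : Function.Injective (plin (frobenius S p) (pmonR (p := p) s))) :
    Function.Injective (plin (frobenius S[X] p)
      (pmonR (p := p) (Sum.elim (⇑(C : S →+* S[X]) ∘ s) (fun _ : Unit => (X : S[X]))))) := by
  have hp : p.Prime := Fact.out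
  rw [pbx_injective_iff]
  intro A hA
  have h1 := pbx_plin_comp_mon (p := p) (frobenius S[X] p) (RingHom.id S[X])
    (⇑(C : S →+* S[X]) ∘ s) (fun _ : Unit => (X : S[X])) A
  rw [RingHom.id_comp] at h1
  have e0 : (⇑(RingHom.id S[X]) ∘ (⇑(C : S →+* S[X]) ∘ s)) = (⇑(C : S →+* S[X]) ∘ s) := rfl
  rw [e0, hA] at h1
  have key : ∀ (J₀ : Unit → Fin p) (m : ℕ),
      plin (frobenius S p) (pmonR (p := p) s) (fun I => (A (Sum.elim I J₀)).coeff m) = 0 := by
    intro J₀ m
    have h2 := congrArg (fun P : S[X] => P.coeff (p * m + (J₀ () : ℕ))) h1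
    simp only [coeff_zero] at h2
    unfold plin at h2
    rw [finsetSum_coeff, Finset.sum_eq_single J₀] at h2
    · rw [RingHom.id_apply, pbx_pmonR_unit, coeff_mul_X_pow', if_pos (Nat.le_add_left _ _),
        Nat.add_sub_cancel] at h2
      have h3 := pbx_coeff_plin s (fun I => A (Sum.elim I J₀)) (p * m)
      unfold plin at h3
      rw [h3, if_pos (dvd_mul_right _ _), Nat.mul_div_cancel_left _ hp.pos] at h2
      exact h2.symm
    · intro J _ hJ
      rw [RingHom.id_apply, pbx_pmonR_unit, coeff_mul_X_pow']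
      split_ifs with hle
      · have h3 := pbx_coeff_plin s (fun I => A (Sum.elim I J)) (p * m + (J₀ () : ℕ) - (J () : ℕ))
        unfold plin at h3
        rw [h3, if_neg]
        intro hd
        apply hJ
        funext u
        exact Fin.ext (pbx_mod_aux (J ()).isLt (J₀ ()).isLt hle hd)
      · rfl
    · intro h
      exact absurd (Finset.mem_univ _) h
  funext Q
  ext m
  have h2 := (pbx_injective_iff _ _).mp hs _ (key (Q ∘ Sum.inr) m)
  have h3 := congrFun h2 (Q ∘ Sum.inl)
  simpa using h3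

end Poly

section Rat

variable {p : ℕ} [Fact p.Prime] {S K : Type} [Field S] [Field K] [CharP S p] [CharP K p] [Algebra S K]

theorem pbx_common_denom {x : K} (hgen : ∀ f : K, ∃ A B : S[X], f = aeval x A / aeval x B)
    {κ : Type} [Fintype κ] (d : κ → K) :
    ∃ D : K, D ≠ 0 ∧ ∀ Q, ∃ A : S[X], d Q * D = aeval x A := by
  classical
  have h1 : ∀ f : K, ∃ A B : S[X], aeval x B ≠ 0 ∧ f * aeval x B = aeval x A := by
    intro f
    obtain ⟨A, B, h⟩ := hgen f
    by_cases hB : aeval x B = 0
    · refine ⟨0, 1, by simp, ?_⟩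
      rw [h, hB]
      simp
    · refine ⟨A, B, hB, ?_⟩
      rw [h]
      field_simp
  choose A B hB hAB using fun Q => h1 (d Q)
  refine ⟨aeval x (∏ Q, B Q), ?_, fun Q => ⟨A Q * ∏ Q' ∈ Finset.univ.erase Q, B Q', ?_⟩⟩
  · rw [map_prod]
    exact Finset.prod_ne_zero_iff.mpr fun Q _ => hB Q
  · rw [← Finset.mul_prod_erase Finset.univ B (Finset.mem_univ Q), map_mul, map_mul, ← mul_assoc,
      hAB]

variable {ι : Type} [Fintype ι] [DecidableEq ι]

theorem pbx_rat_indep {x : K} (htr : Transcendental S x)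
    (hgen : ∀ f : K, ∃ A B : S[X], f = aeval x A / aeval x B) {s : ι → S}
    (hs : Function.Injective (plin (frobenius S p) (pmonR (p := p) s))) :
    Function.Injective (plin (frobenius K p)
      (pmonR (p := p) (Sum.elim (⇑(algebraMap S K) ∘ s) (fun _ : Unit => x)))) := by
  rw [pbx_injective_iff]
  intro d hd
  obtain ⟨D, hD, hA⟩ := pbx_common_denom hgen d
  choose A hA using hA
  have h1 : plin (frobenius K p)
      (pmonR (p := p) (Sum.elim (⇑(algebraMap S K) ∘ s) (fun _ : Unit => x)))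
      (fun Q => aeval x (A Q)) = 0 := by
    have e : (fun Q => aeval x (A Q)) = fun Q => d Q * D := funext fun Q => (hA Q).symm
    rw [e]
    have e2 : plin (frobenius K p)
        (pmonR (p := p) (Sum.elim (⇑(algebraMap S K) ∘ s) (fun _ : Unit => x)))
        (fun Q => d Q * D) = frobenius K p D * plin (frobenius K p)
        (pmonR (p := p) (Sum.elim (⇑(algebraMap S K) ∘ s) (fun _ : Unit => x))) d := by
      unfold plin
      rw [Finset.mul_sum]
      refine Finset.sum_congr rfl fun Q _ => ?_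
      rw [map_mul]
      ring
    rw [e2, hd, mul_zero]
  have h2 := pbx_map_plin_mon (p := p) (frobenius S[X] p) (aeval x : S[X] →ₐ[S] K).toRingHom
    (Sum.elim (⇑(C : S →+* S[X]) ∘ s) (fun _ : Unit => (X : S[X]))) A
  have e3 : (aeval x : S[X] →ₐ[S] K).toRingHom.comp (frobenius S[X] p)
      = (frobenius K p).comp (aeval x : S[X] →ₐ[S] K).toRingHom := by
    ext a
    · simp [frobenius_def]
    · simp [frobenius_def]
  have e4 : (⇑(aeval x : S[X] →ₐ[S] K).toRingHom ∘
      (Sum.elim (⇑(C : S →+* S[X]) ∘ s) (fun _ : Unit => (X : S[X]))))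
      = Sum.elim (⇑(algebraMap S K) ∘ s) (fun _ : Unit => x) := by
    funext q
    rcases q with k | u
    · simp
    · simp
  rw [e3, e4] at h2
  have h3 : (aeval x : S[X] →ₐ[S] K).toRingHom (plin (frobenius S[X] p)
      (pmonR (p := p) (Sum.elim (⇑(C : S →+* S[X]) ∘ s) (fun _ : Unit => (X : S[X])))) A) = 0 := by
    rw [h2]
    exact h1
  have h4 := (transcendental_iff.mp htr) _ h3
  have h5 := (pbx_injective_iff _ _).mp (pbx_poly_indep hs) A h4
  funext Q
  have h6 := hA Q
  rw [h5] at h6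
  simp only [Pi.zero_apply, map_zero] at h6
  exact (mul_eq_zero.mp h6).resolve_right hD

theorem pbx_rat_span {x : K} (hgen : ∀ f : K, ∃ A B : S[X], f = aeval x A / aeval x B) {s : ι → S}
    (hs : Function.Surjective (plin (frobenius S p) (pmonR (p := p) s))) :
    Function.Surjective (plin (frobenius K p)
      (pmonR (p := p) (Sum.elim (⇑(algebraMap S K) ∘ s) (fun _ : Unit => x)))) := by
  have hp : p.Prime := Fact.out
  obtain ⟨L, hL⟩ := pbx_exists_subfield hp.pos (frobenius K p) (fun y => ⟨y, rfl⟩)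
    (Sum.elim (⇑(algebraMap S K) ∘ s) (fun _ : Unit => x))
  have hpowL : ∀ c : K, c ^ p ∈ L := by
    intro c
    rw [hL]
    refine ⟨Pi.single (fun _ => ⟨0, hp.pos⟩) c, ?_⟩
    rw [pbx_plin_single, pbx_pmonR_zero, mul_one, frobenius_def]
  have htL : ∀ q, (Sum.elim (⇑(algebraMap S K) ∘ s) (fun _ : Unit => x)) q ∈ L := by
    intro q
    rw [hL]
    refine ⟨Pi.single (fun l => if l = q then (⟨1, hp.one_lt⟩ : Fin p) else ⟨0, hp.pos⟩) 1, ?_⟩
    rw [pbx_plin_single, map_one, one_mul]
    exact pbx_pmonR_single hp.one_lt _ q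
  have hSL : ∀ a : S, algebraMap S K a ∈ L := by
    intro a
    obtain ⟨u, rfl⟩ := hs a
    rw [pbx_map_plin_mon]
    unfold plin
    refine sum_mem fun I _ => mul_mem ?_ ?_
    · show algebraMap S K (u I ^ p) ∈ L
      rw [map_pow]
      exact hpowL _
    · exact prod_mem fun k _ => pow_mem (htL (Sum.inl k)) _
  have hpolyL : ∀ A : S[X], aeval x A ∈ L := by
    intro A
    rw [aeval_eq_sum_range]
    refine sum_mem fun i _ => ?_
    rw [Algebra.smul_def]
    exact mul_mem (hSL _) (pow_mem (htL (Sum.inr ())) _)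
  intro f
  obtain ⟨A, B, rfl⟩ := hgen f
  exact (hL _).mp (div_mem (hpolyL A) (hpolyL B))

end Rat

end Claimed.Agent.R280
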