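import Claimed.Agent.R280.Ins.PBasisAux

/-!
# Row 280, Ins package D0 `PBasis`, auxiliary file 2: monomials with exponents `< p`

`pmonR x I = ∏ k, x k ^ I k`; towers, reindexing, reduction of exponents, the subfield `φ(G)(c)`,
the extension step, existence of relative `p`-bases, the universal property.   (helper240)
-/

set_option autoImplicit false

namespace Claimed.Agent.R280

section Mon

variable {E : Type} [CommRing E] {ι : Type} [Fintype ι] {p : ℕ}

/-- the monomial `x^I` in a commutative ring -/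
def pmonR (x : ι → E) (I : ι → Fin p) : E := ∏ k, x k ^ (I k : ℕ)

theorem pbx_eqns_cite2 : True := by
  have := @pmonR.eq_1
  trivial

theorem pbx_pmonR_map {E' : Type} [CommRing E'] (ψ : E →+* E') (x : ι → E) (I : ι → Fin p) :
    ψ (pmonR x I) = pmonR (ψ ∘ x) I := by
  simp only [pmonR, map_prod, map_pow, Function.comp_apply]

theorem pbx_pmonR_sum {κ : Type} [Fintype κ] (b : ι → E) (z : κ → E) (I : ι ⊕ κ → Fin p) :
    pmonR (Sum.elim b z) I = pmonR b (I ∘ Sum.inl) * pmonR z (I ∘ Sum.inr) := by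
  simp only [pmonR, Fintype.prod_sum_type, Sum.elim_inl, Sum.elim_inr, Function.comp_apply]

theorem pbx_pmonR_reindex {ι' : Type} [Fintype ι'] (x : ι → E) (e : ι' ≃ ι) (I : ι' → Fin p) :
    pmonR (x ∘ e) I = pmonR x (I ∘ e.symm) := by
  unfold pmonR
  rw [← Equiv.prod_comp e]
  simp only [Function.comp_apply, Equiv.symm_apply_apply]

theorem pbx_pmonR_pow (x : ι → E) (I : ι → Fin p) (n : ℕ) :
    pmonR x I ^ n = pmonR (fun k => x k ^ n) I := by
  unfold pmonR
  rw [← Finset.prod_pow]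
  exact Finset.prod_congr rfl fun k _ => by rw [← pow_mul, ← pow_mul, mul_comm]

theorem pbx_pmonR_mem (O : Subring E) {x : ι → E} (hx : ∀ k, x k ∈ O) (I : ι → Fin p) :
    pmonR x I ∈ O :=
  Subring.prod_mem _ fun k _ => Subring.pow_mem _ (hx k) _

theorem pbx_pmonR_unit (z : E) (J : Unit → Fin p) : pmonR (fun _ : Unit => z) J = z ^ (J () : ℕ) := by
  simp [pmonR]

theorem pbx_pmonR_zero (hp : 0 < p) (x : ι → E) : pmonR x (fun _ => (⟨0, hp⟩ : Fin p)) = 1 := by
  simp [pmonR]

theorem pbx_pmonR_single [DecidableEq ι] (hp : 1 < p) (x : ι → E) (k : ι) :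
    pmonR x (fun l => if l = k then (⟨1, hp⟩ : Fin p) else ⟨0, by omega⟩) = x k := by
  unfold pmonR
  rw [Finset.prod_eq_single k]
  · simp
  · intro l _ hl
    simp [hl]
  · intro h
    exact absurd (Finset.mem_univ k) h

/-- reduction of the exponents modulo `p` -/
theorem pbx_reduce (hp : 0 < p) {G : Type} [CommRing G] (χ : G →+* E) (η : ι → E) (e : ι → G)
    (h : ∀ k, η k ^ p = χ (e k)) (n : ι → ℕ) :
    ∏ k, η k ^ n k
      = χ (∏ k, e k ^ (n k / p)) * pmonR η (fun k => (⟨n k % p, Nat.mod_lt _ hp⟩ : Fin p)) := by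
  unfold pmonR
  rw [map_prod, ← Finset.prod_mul_distrib]
  refine Finset.prod_congr rfl fun k _ => ?_
  rw [map_pow, ← h k, ← pow_mul, ← pow_add, Nat.div_add_mod]

end Mon

section MonLin

variable {p : ℕ} {ι κ : Type} [Fintype ι] [Fintype κ] [DecidableEq ι] [DecidableEq κ]

theorem pbx_pmonR_reindex_fun {E : Type} [CommRing E] (x : ι → E) (e : κ ≃ ι) :
    (pmonR (x ∘ e) : (κ → Fin p) → E) = pmonR x ∘ (Equiv.arrowCongr e (Equiv.refl (Fin p))) := by
  funext I
  rw [pbx_pmonR_reindex]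
  rfl

theorem pbx_pmonR_sum_fun {E : Type} [CommRing E] (b : ι → E) (z : κ → E) :
    (pmonR (Sum.elim b z) : (ι ⊕ κ → Fin p) → E)
      = (fun q : (ι → Fin p) × (κ → Fin p) => pmonR b q.1 * pmonR z q.2) ∘
        (Equiv.sumArrowEquivProdArrow ι κ (Fin p)) := by
  funext I
  rw [pbx_pmonR_sum]
  rfl

variable {G L M : Type} [CommRing G] [CommRing L] [CommRing M]

theorem pbx_on_reindex_mon {φ : G →+* M} {OG : Subring G} {OM : Subring M} {x : ι → M} (e : κ ≃ ι)
    (h : PLinOn φ OG OM (pmonR (p := p) x)) : PLinOn φ OG OM (pmonR (p := p) (x ∘ e)) := by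
  rw [pbx_pmonR_reindex_fun]
  exact pbx_on_reindex _ h

theorem pbx_injective_reindex_mon {φ : G →+* M} {x : ι → M} (e : κ ≃ ι)
    (h : Function.Injective (plin φ (pmonR (p := p) x))) :
    Function.Injective (plin φ (pmonR (p := p) (x ∘ e))) := by
  rw [pbx_pmonR_reindex_fun]
  exact pbx_injective_reindex _ h

theorem pbx_bijective_reindex_mon {φ : G →+* M} {x : ι → M} (e : κ ≃ ι)
    (h : Function.Bijective (plin φ (pmonR (p := p) x))) :
    Function.Bijective (plin φ (pmonR (p := p) (x ∘ e))) := by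
  rw [pbx_pmonR_reindex_fun]
  exact pbx_bijective_reindex _ h

theorem pbx_on_comp_mon {φ : G →+* L} {ψ : L →+* M} {OG : Subring G} {OL : Subring L}
    {OM : Subring M} {b : ι → L} {z : κ → M} (hb : PLinOn φ OG OL (pmonR (p := p) b))
    (hz : PLinOn ψ OL OM (pmonR (p := p) z)) :
    PLinOn (ψ.comp φ) OG OM (pmonR (p := p) (Sum.elim (ψ ∘ b) z)) := by
  rw [pbx_pmonR_sum_fun]
  refine pbx_on_reindex _ ?_
  have := pbx_on_comp hb hz
  simpa only [pbx_pmonR_map] using this

theorem pbx_on_of_comp_mon {φ : G →+* L} {ψ : L →+* M} {OG : Subring G} {OL : Subring L}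
    {OM : Subring M} {b : ι → L} {z : κ → M} (hb : PLinOn φ OG OL (pmonR (p := p) b))
    (h : PLinOn (ψ.comp φ) OG OM (pmonR (p := p) (Sum.elim (ψ ∘ b) z))) :
    PLinOn ψ OL OM (pmonR (p := p) z) := by
  refine pbx_on_of_comp hb ?_
  rw [pbx_pmonR_sum_fun] at h
  have h2 := pbx_on_reindex (Equiv.sumArrowEquivProdArrow ι κ (Fin p)).symm h
  have e : ((fun q : (ι → Fin p) × (κ → Fin p) => pmonR (ψ ∘ b) q.1 * pmonR z q.2) ∘
        (Equiv.sumArrowEquivProdArrow ι κ (Fin p))) ∘ (Equiv.sumArrowEquivProdArrow ι κ (Fin p)).symm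
      = fun q : (ι → Fin p) × (κ → Fin p) => ψ (pmonR b q.1) * pmonR z q.2 := by
    funext q
    simp only [Function.comp_apply, Equiv.apply_symm_apply, pbx_pmonR_map]
  rwa [e] at h2

end MonLin

section NF

variable {p : ℕ} {ι : Type} [Fintype ι] [DecidableEq ι]

/-- simultaneous normal form of a polynomial expression in two targets -/
theorem pbx_normal_form (hp : 0 < p) {G E₁ E₂ : Type} [CommRing G] [CommRing E₁] [CommRing E₂]
    (χ₁ : G →+* E₁) (η₁ : ι → E₁) (χ₂ : G →+* E₂) (η₂ : ι → E₂) (e : ι → G)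
    (h₁ : ∀ k, η₁ k ^ p = χ₁ (e k)) (h₂ : ∀ k, η₂ k ^ p = χ₂ (e k)) (P : MvPolynomial ι G) :
    ∃ g : (ι → Fin p) → G, MvPolynomial.eval₂ χ₁ η₁ P = plin χ₁ (pmonR η₁) g ∧
      MvPolynomial.eval₂ χ₂ η₂ P = plin χ₂ (pmonR η₂) g := by
  classical
  induction P using MvPolynomial.induction_on' with
  | monomial n a =>
    refine ⟨Pi.single (fun k => (⟨n k % p, Nat.mod_lt _ hp⟩ : Fin p)) (a * ∏ k, e k ^ (n k / p)),
      ?_, ?_⟩
    · rw [MvPolynomial.eval₂_monomial, pbx_plin_single, Finsupp.prod_fintype _ _ (fun _ => pow_zero _),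
        pbx_reduce hp χ₁ η₁ e h₁, map_mul, mul_assoc]
    · rw [MvPolynomial.eval₂_monomial, pbx_plin_single, Finsupp.prod_fintype _ _ (fun _ => pow_zero _),
        pbx_reduce hp χ₂ η₂ e h₂, map_mul, mul_assoc]
  | add P Q hP hQ =>
    obtain ⟨g, hg1, hg2⟩ := hP
    obtain ⟨g', hg1', hg2'⟩ := hQ
    refine ⟨g + g', ?_, ?_⟩
    · rw [MvPolynomial.eval₂_add, pbx_plin_add, hg1, hg1']
    · rw [MvPolynomial.eval₂_add, pbx_plin_add, hg2, hg2']

/-- a reduced combination is a polynomial expression -/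
theorem pbx_plin_eq_eval₂ {G E : Type} [CommRing G] [CommRing E] (χ : G →+* E) (η : ι → E)
    (g : (ι → Fin p) → G) :
    plin χ (pmonR η) g = MvPolynomial.eval₂ χ η
      (∑ I, MvPolynomial.C (g I) * ∏ k, MvPolynomial.X k ^ (I k : ℕ)) := by
  unfold plin pmonR
  rw [MvPolynomial.eval₂_sum]
  refine Finset.sum_congr rfl fun I _ => ?_
  rw [MvPolynomial.eval₂_mul, MvPolynomial.eval₂_C, MvPolynomial.eval₂_prod]
  congr 1
  exact Finset.prod_congr rfl fun k _ => by rw [MvPolynomial.eval₂_pow, MvPolynomial.eval₂_X]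

variable {G M : Type} [Field G] [Field M]

/-- the subfield `φ(G)(c)` consists of the reduced combinations -/
theorem pbx_exists_subfield (hp : 0 < p) (φ : G →+* M) (hpow : ∀ x : M, ∃ g, φ g = x ^ p)
    (c : ι → M) : ∃ L : Subfield M, ∀ f, f ∈ L ↔ ∃ g, plin φ (pmonR (p := p) c) g = f := by
  choose e he using fun k => hpow (c k)
  have key : ∀ f, f ∈ (MvPolynomial.eval₂Hom φ c).range ↔ ∃ g, plin φ (pmonR (p := p) c) g = f := by
    intro f
    constructor
    · rintro ⟨P, rfl⟩
      obtain ⟨g, hg, _⟩ := pbx_normal_form hp φ c φ c e (fun k => (he k).symm)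
        (fun k => (he k).symm) P
      exact ⟨g, hg.symm⟩
    · rintro ⟨g, rfl⟩
      rw [pbx_plin_eq_eval₂]
      exact ⟨_, rfl⟩
  refine ⟨{ (MvPolynomial.eval₂Hom φ c).range with
    inv_mem' := ?_ }, key⟩
  intro f hf
  by_cases hf0 : f = 0
  · rw [hf0, inv_zero]
    exact Subring.zero_mem _
  · obtain ⟨g, hg⟩ := hpow f
    have e1 : f⁻¹ = f ^ (p - 1) * φ g⁻¹ := by
      rw [map_inv₀, hg]
      have : f ^ p = f ^ (p - 1) * f := by rw [← pow_succ, Nat.sub_add_cancel hp]
      rw [this]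
      field_simp
    rw [e1]
    refine Subring.mul_mem _ (Subring.pow_mem _ hf _) ⟨MvPolynomial.C g⁻¹, ?_⟩
    simp

/-- powers of an element outside a subfield containing `M^p` -/
theorem pbx_li_pow [Fact p.Prime] [CharP M p] (L : Subfield M) (hL : ∀ x : M, x ^ p ∈ L) {z : M}
    (hz : z ∉ L) : LinearIndependent L (fun i : Fin p => z ^ (i : ℕ)) := by
  have hp : p.Prime := Fact.out
  let a : L := ⟨z ^ p, hL z⟩
  have hirr : Irreducible (Polynomial.X ^ p - Polynomial.C a : Polynomial L) := by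
    refine X_pow_sub_C_irreducible_of_prime hp fun b hb => hz ?_
    have h1 : (b : M) ^ p = z ^ p := by
      have := congrArg Subtype.val hb
      simpa using this
    have h2 : (b : M) = z := frobenius_inj M p h1
    rw [← h2]
    exact b.2
  have hmon : (Polynomial.X ^ p - Polynomial.C a : Polynomial L).Monic :=
    Polynomial.monic_X_pow_sub_C a hp.ne_zero
  have hroot : Polynomial.aeval z (Polynomial.X ^ p - Polynomial.C a : Polynomial L) = 0 := by
    simp only [map_sub, map_pow, Polynomial.aeval_X, Polynomial.aeval_C]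
    exact sub_self _
  have hmin : minpoly L z = Polynomial.X ^ p - Polynomial.C a :=
    (minpoly.eq_of_irreducible_of_monic hirr hroot hmon).symm
  have hdeg : (minpoly L z).natDegree = p := by
    rw [hmin, Polynomial.natDegree_X_pow_sub_C]
  have h := linearIndependent_pow (K := L) z
  have h2 := h.comp (Fin.cast hdeg.symm) (Fin.cast_injective _)
  exact h2

variable {κ κ' : Type} [Fintype κ] [Fintype κ']

theorem pbx_injective_prod {φ : G →+* M} {v : κ → M} {w : κ' → M}
    (hv : Function.Injective (plin φ v)) (L : Subfield M) (hL : ∀ g, plin φ v g ∈ L)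
    (hw : LinearIndependent L w) :
    Function.Injective (plin φ (fun q : κ × κ' => v q.1 * w q.2)) := by
  rw [pbx_injective_iff]
  intro g hg
  have h1 := pbx_plin_comp φ (RingHom.id M) v w g
  rw [RingHom.id_comp] at h1
  simp only [RingHom.id_apply] at h1
  rw [hg] at h1
  rw [Fintype.linearIndependent_iff] at hw
  have h2 := hw (fun j' => ⟨plin φ v (fun j => g (j, j')), hL _⟩) h1.symm
  funext ⟨j, j'⟩
  have h3 : plin φ v (fun j => g (j, j')) = 0 := congrArg Subtype.val (h2 j')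
  exact congrFun ((pbx_injective_iff φ v).mp hv _ h3) j

/-- **the extension step**: adjoining an element outside `φ(G)(c)` -/
theorem pbx_injective_step [Fact p.Prime] [CharP M p] {φ : G →+* M}
    (hpow : ∀ x : M, ∃ g, φ g = x ^ p) {c : ι → M}
    (hc : Function.Injective (plin φ (pmonR (p := p) c))) {z : M}
    (hz : ∀ g, plin φ (pmonR (p := p) c) g ≠ z) :
    Function.Injective (plin φ (pmonR (p := p) (Sum.elim c (fun _ : Unit => z)))) := by
  have hp : p.Prime := Fact.out
  obtain ⟨L, hL⟩ := pbx_exists_subfield hp.pos φ hpow c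
  have hzL : z ∉ L := fun h => by
    obtain ⟨g, hg⟩ := (hL z).mp h
    exact hz g hg
  have hLp : ∀ x : M, x ^ p ∈ L := by
    intro x
    obtain ⟨g, hg⟩ := hpow x
    rw [hL]
    classical
    refine ⟨Pi.single (fun _ => ⟨0, hp.pos⟩) g, ?_⟩
    rw [pbx_plin_single, pbx_pmonR_zero, mul_one, hg]
  have hli := pbx_li_pow L hLp hzL
  have hli2 : LinearIndependent L (pmonR (p := p) (fun _ : Unit => z)) := by
    have := hli.comp (fun J : Unit → Fin p => J ()) (fun J J' h => by funext u; exact h)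
    convert this using 1
    funext J
    exact pbx_pmonR_unit z J
  rw [pbx_pmonR_sum_fun]
  exact pbx_injective_reindex _ (pbx_injective_prod hc L (fun g => (hL _).mpr ⟨g, rfl⟩) hli2)

end NF

section Exist

/-- moving one element from the left block to the right block -/
def pbxShift (ι : Type) (s : ℕ) : ι ⊕ Fin (s + 1) ≃ (ι ⊕ Unit) ⊕ Fin s where
  toFun := Sum.elim (fun i => Sum.inl (Sum.inl i))
    (Fin.cases (Sum.inl (Sum.inr ())) (fun j => Sum.inr j))
  invFun := Sum.elim (Sum.elim Sum.inl (fun _ => Sum.inr 0)) (fun j => Sum.inr j.succ)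
  left_inv := by
    rintro (i | j)
    · rfl
    · refine Fin.cases ?_ (fun j => ?_) j
      · rfl
      · rfl
  right_inv := by
    rintro ((i | u) | j)
    · rfl
    · rfl
    · rfl

theorem pbx_eqns_cite3 : True := by
  have := @pbxShift.eq_1
  trivial

theorem pbx_shift_comp {ι M : Type} {s : ℕ} (c : ι → M) (z : M) (y : Fin s → M) :
    (Sum.elim (Sum.elim c (fun _ : Unit => z)) y) ∘ (pbxShift ι s) = Sum.elim c (Fin.cons z y) := by
  funext q
  rcases q with i | j
  · rfl
  · refine Fin.cases ?_ (fun j => ?_) j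
    · rfl
    · rfl

variable {p : ℕ} {G M : Type} [Field G] [Field M]

theorem pbx_card_idx (ι : Type) [Fintype ι] [DecidableEq ι] :
    Fintype.card (ι → Fin p) = p ^ Fintype.card ι := by
  rw [Fintype.card_fun, Fintype.card_fin]

/-- **existence of relative `p`-bases**: completion of an independent family -/
theorem pbx_exists_compl [Fact p.Prime] [CharP M p] {φ : G →+* M}
    (hpow : ∀ x : M, ∃ g, φ g = x ^ p) :
    ∀ (s : ℕ) (ι : Type) [Fintype ι] [DecidableEq ι] (c : ι → M),
      Function.Injective (plin φ (pmonR (p := p) c)) →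
      Module.finrank φ.fieldRange M = p ^ (Fintype.card ι + s) →
      ∃ y : Fin s → M, Function.Bijective (plin φ (pmonR (p := p) (Sum.elim c y))) := by
  have hp : p.Prime := Fact.out
  intro s
  induction s with
  | zero =>
    intro ι _ _ c hc hfin
    have hb : Function.Bijective (plin φ (pmonR (p := p) c)) :=
      pbx_bijective_of_card hc (by rw [hfin, add_zero, pbx_card_idx]) ⟨fun _ => ⟨0, hp.pos⟩⟩
    refine ⟨Fin.elim0, ?_⟩
    have h2 := pbx_bijective_reindex_mon (Equiv.sumEmpty ι (Fin 0)) hb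
    have e : c ∘ (Equiv.sumEmpty ι (Fin 0)) = Sum.elim c Fin.elim0 := by
      funext q
      rcases q with i | j
      · rfl
      · exact j.elim0
    rwa [e] at h2
  | succ s ih =>
    intro ι _ _ c hc hfin
    have hns : ¬ Function.Surjective (plin φ (pmonR (p := p) c)) := by
      intro hs
      have h1 := pbx_finrank ⟨hc, hs⟩
      rw [hfin, pbx_card_idx] at h1
      have := Nat.pow_right_injective hp.two_le h1
      omega
    obtain ⟨z, hz⟩ : ∃ z, ∀ g, plin φ (pmonR (p := p) c) g ≠ z := by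
      by_contra hcon
      push Not at hcon
      exact hns hcon
    have hc1 := pbx_injective_step hpow hc hz
    obtain ⟨y₁, hy₁⟩ := ih (ι ⊕ Unit) (Sum.elim c (fun _ => z)) hc1 (by
      rw [hfin, Fintype.card_sum, Fintype.card_unit]
      congr 1
      omega)
    refine ⟨Fin.cons z y₁, ?_⟩
    have h2 := pbx_bijective_reindex_mon (pbxShift ι s) hy₁
    rwa [pbx_shift_comp] at h2

variable {ι : Type} [Fintype ι] [DecidableEq ι]

/-- **universal property**: `M = G[X_k]/(X_k^p - e_k)` -/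
theorem pbx_exists_hom (hp : 0 < p) {φ : G →+* M} {b : ι → M}
    (hb : Function.Bijective (plin φ (pmonR (p := p) b))) (e : ι → G)
    (he : ∀ k, b k ^ p = φ (e k)) {E : Type} [CommRing E] (ψ₀ : G →+* E) (ξ : ι → E)
    (hξ : ∀ k, ξ k ^ p = ψ₀ (e k)) :
    ∃ Θ : M →+* E, (∀ g, Θ (φ g) = ψ₀ g) ∧ ∀ k, Θ (b k) = ξ k := by
  have hsurj : Function.Surjective (MvPolynomial.eval₂Hom φ b) := by
    intro f
    obtain ⟨g, rfl⟩ := hb.2 f
    rw [pbx_plin_eq_eval₂]
    exact ⟨_, rfl⟩
  have hker : RingHom.ker (MvPolynomial.eval₂Hom φ b) ≤ RingHom.ker (MvPolynomial.eval₂Hom ψ₀ ξ) := by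
    intro P hP
    rw [RingHom.mem_ker] at hP ⊢
    obtain ⟨g, h1, h2⟩ := pbx_normal_form hp φ b ψ₀ ξ e he hξ P
    have h3 : plin φ (pmonR (p := p) b) g = 0 := by rw [← h1]; exact hP
    have h4 := (pbx_injective_iff _ _).mp hb.1 g h3
    show MvPolynomial.eval₂ ψ₀ ξ P = 0
    rw [h2, h4, pbx_plin_zero]
  refine ⟨RingHom.liftOfSurjective _ hsurj ⟨_, hker⟩, fun g => ?_, fun k => ?_⟩
  · have h1 := RingHom.liftOfRightInverse_comp_apply (MvPolynomial.eval₂Hom φ b) _
      (Function.rightInverse_surjInv hsurj) ⟨_, hker⟩ (MvPolynomial.C g)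
    simpa using h1
  · have h1 := RingHom.liftOfRightInverse_comp_apply (MvPolynomial.eval₂Hom φ b) _
      (Function.rightInverse_surjInv hsurj) ⟨_, hker⟩ (MvPolynomial.X k)
    simpa using h1

end Exist

section More

variable {p : ℕ} {ι κ : Type} [Fintype ι] [Fintype κ] [DecidableEq ι] [DecidableEq κ]
variable {G L M : Type} [CommRing G] [CommRing L] [CommRing M]

theorem pbx_map_plin {κ₀ : Type} [Fintype κ₀] (φ : G →+* L) (ψ : L →+* M) (v : κ₀ → L)
    (g : κ₀ → G) : ψ (plin φ v g) = plin (ψ.comp φ) (ψ ∘ v) g := by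
  simp only [plin, map_sum, map_mul, RingHom.comp_apply, Function.comp_apply]

theorem pbx_map_plin_mon (φ : G →+* L) (ψ : L →+* M) (b : ι → L) (g : (ι → Fin p) → G) :
    ψ (plin φ (pmonR b) g) = plin (ψ.comp φ) (pmonR (ψ ∘ b)) g := by
  rw [pbx_map_plin]
  congr 1
  funext I
  exact pbx_pmonR_map ψ b I

theorem pbx_plin_comp_mon (φ : G →+* L) (ψ : L →+* M) (b : ι → L) (z : κ → M)
    (g : (ι ⊕ κ → Fin p) → G) :
    plin (ψ.comp φ) (pmonR (Sum.elim (ψ ∘ b) z)) g
      = plin ψ (pmonR z) (fun J => plin φ (pmonR b) (fun I => g (Sum.elim I J))) := by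
  rw [pbx_pmonR_sum_fun, pbx_plin_reindex]
  have h := pbx_plin_comp φ ψ (pmonR (p := p) b) (pmonR (p := p) z)
    (g ∘ (Equiv.sumArrowEquivProdArrow ι κ (Fin p)).symm)
  simp only [pbx_pmonR_map] at h
  rw [h]
  rfl

theorem pbx_mem_of_on (hp : 1 < p) {φ : G →+* M} {OG : Subring G} {OM : Subring M} {x : ι → M}
    (h : PLinOn φ OG OM (pmonR (p := p) x)) (k : ι) : x k ∈ OM := by
  have h1 := (h.2 (Pi.single (fun l => if l = k then (⟨1, hp⟩ : Fin p) else ⟨0, by omega⟩) 1)).mpr
    (fun I => by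
      by_cases hI : I = (fun l => if l = k then (⟨1, hp⟩ : Fin p) else ⟨0, by omega⟩)
      · rw [hI, Pi.single_eq_same]
        exact Subring.one_mem _
      · rw [Pi.single_eq_of_ne hI]
        exact Subring.zero_mem _)
  rwa [pbx_plin_single, map_one, one_mul, pbx_pmonR_single] at h1

theorem pbx_injective_left (hp : 0 < p) {φ : G →+* M} {b : ι → M} {z : κ → M}
    (h : Function.Injective (plin φ (pmonR (p := p) (Sum.elim b z)))) :
    Function.Injective (plin φ (pmonR (p := p) b)) := by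
  rw [pbx_injective_iff] at h ⊢
  intro d hd
  have h1 := pbx_plin_comp_mon (p := p) φ (RingHom.id M) b z
    (fun K => if K ∘ Sum.inr = (fun _ => (⟨0, hp⟩ : Fin p)) then d (K ∘ Sum.inl) else 0)
  rw [RingHom.id_comp] at h1
  have h2 : (fun J : κ → Fin p => plin φ (pmonR b) (fun I : ι → Fin p =>
      if (Sum.elim I J : ι ⊕ κ → Fin p) ∘ Sum.inr = (fun _ => (⟨0, hp⟩ : Fin p))
        then d ((Sum.elim I J : ι ⊕ κ → Fin p) ∘ Sum.inl) else 0)) = 0 := by
    funext J
    simp only [Sum.elim_comp_inr, Sum.elim_comp_inl]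
    by_cases hJ : J = (fun _ => (⟨0, hp⟩ : Fin p))
    · simp only [hJ, if_true]
      exact hd
    · simp only [hJ, if_false]
      exact pbx_plin_zero _ _
  rw [h2, pbx_plin_zero] at h1
  have h3 := h _ h1
  funext I
  have h4 := congrFun h3 (Sum.elim I (fun _ => (⟨0, hp⟩ : Fin p)))
  simpa using h4

end More

end Claimed.Agent.R280
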