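import Claimed.Agent.R280.Ins.Defs
import Claimed.Agent.R280.Ins.PBasisMon
import Claimed.Agent.R280.Ins.PBasisFF

/-!
# Row 280, Ins package D0 `PBasis`: `p`-bases of fields and of subrings

Pure field theory in characteristic `p` (no places).  A family `x : ι → M` is a `p`-basis if every `f : M` is uniquely
`∑_I c_I^p x^I`, `I : ι → Fin p` (`pcomb p x c`); it is a `p`-basis ON a subring `O` if moreover `f ∈ O ↔ ∀ I, c_I ∈ O`
(i.e. `O = ⊕ O^p x^I`; for a valuation ring `c ∈ O ↔ c^p ∈ O`).

PLAN.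
* P1-P4: view `M` as a vector space over `M^p = (frobenius M p).fieldRange`; `IsPBasis` ⇔ the monomials are a basis.
  Existence / completion: add elements `y ∉ M^p(x)` one at a time, each step multiplies the degree by `p`
  (`X^p - y^p` is irreducible or has a root: `X_pow_sub_C_irreducible_of_prime` / `IsPurelyInseparable` API).
* P5: `[M:M^p][M^p:K^p] = [M:K][K:K^p]`, `[M^p:K^p] = [M:K]` (Frobenius is an isomorphism of pairs).
* P6: `IsFF` gives `x` transcendental with `M` finite over `K = S(x)`; `K^p = S^p(x^p)`, `[S(x):S^p(x)] = p^n`, `[S^p(x):S^p(x^p)] = p`;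
  then P5.  (Equivalently: `(x, s)` is a `p`-basis of `S(x)` if `s` is one of `S`; clear denominators by `p`-th powers.)
* P7, P8: `∂_k (∑ c_I^p x^I) := ∑ c_I^p I_k x^{I - e_k}` is a derivation (check Leibniz on monomials, reduce exponents `≥ p` by
  `x_k^p ∈ M^p`); a derivation kills `p`-th powers, so it is determined by its values on `x`.
* P9: `f = ∑_I g_I b^I`, `g_I = ∑ u_{I,I',J}^p c^{I'} y^J`, so `f = ∑_{I,J} (∑_{I'} u_{I,I',J} b^{I'})^p b^I y^J`; everything is reversible.
* P10: choose `b_1, …` successively outside the field generated so far; Frobenius maps `(M, G, b)` isomorphically to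
  `(M^p, G^p, c)`, so `c` is `p`-independent in `G`; P4, P5, P9.
~1500 lines (two files welcome: P1-P6 degrees, P7-P10 derivations and extension).   Owner of the statements: helper66.
-/

set_option autoImplicit false

namespace Claimed.Agent.R280

section Defs

variable {M : Type} [Field M] {ι : Type} [Fintype ι]

/-- the monomial `x^I` -/
def pmon {p : ℕ} (x : ι → M) (I : ι → Fin p) : M := ∏ k, x k ^ (I k : ℕ)

variable [DecidableEq ι] (p : ℕ)

/-- `∑_I c_I^p x^I` -/
def pcomb (x : ι → M) (c : (ι → Fin p) → M) : M := ∑ I, c I ^ p * pmon x I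

/-- `p`-independence -/
def IsPIndep (x : ι → M) : Prop := Function.Injective (pcomb p x)

/-- `p`-basis of the field `M` -/
def IsPBasis (x : ι → M) : Prop := Function.Bijective (pcomb p x)

/-- `p`-basis of the subring `O` of `M` -/
def IsPBasisOn (O : Subring M) (x : ι → M) : Prop :=
  IsPBasis p x ∧ ∀ c : (ι → Fin p) → M, pcomb p x c ∈ O ↔ ∀ I, c I ∈ O

/-- `[M : M^p] = p^r` -/
def HasPDeg [Fact p.Prime] (M : Type) [Field M] [CharP M p] (r : ℕ) : Prop :=
  Module.finrank (frobenius M p).fieldRange M = p ^ r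

end Defs

section Bridge

variable {p : ℕ} [Fact p.Prime] {M : Type} [Field M] [CharP M p] {ι : Type} [Fintype ι] [DecidableEq ι]

theorem pbx_pmon_eq (x : ι → M) : (pmon x : (ι → Fin p) → M) = pmonR x := rfl

theorem pbx_pcomb_eq (x : ι → M) : pcomb p x = plin (frobenius M p) (pmonR x) := rfl

theorem pbx_isPIndep_iff (x : ι → M) :
    IsPIndep p x ↔ Function.Injective (plin (frobenius M p) (pmonR (p := p) x)) := Iff.rfl

theorem pbx_isPBasis_iff (x : ι → M) :
    IsPBasis p x ↔ Function.Bijective (plin (frobenius M p) (pmonR (p := p) x)) := Iff.rfl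

theorem pbx_isPBasisOn_iff (O : Subring M) (x : ι → M) :
    IsPBasisOn p O x ↔ PLinOn (frobenius M p) O O (pmonR (p := p) x) := Iff.rfl

theorem pbx_frob_pow (x : M) : ∃ g, frobenius M p g = x ^ p := ⟨x, rfl⟩

theorem pbx_injective_empty {G : Type} [Field G] [IsEmpty ι] (φ : G →+* M) (c : ι → M) :
    Function.Injective (plin φ (pmonR (p := p) c)) := by
  rw [pbx_injective_iff]
  intro g hg
  unfold plin at hg
  rw [Fintype.sum_unique] at hg
  have h1 : ∀ I, pmonR (p := p) c I = 1 := fun I => by simp [pmonR]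
  rw [h1, mul_one, map_eq_zero] at hg
  funext I
  exact (congrArg g (Subsingleton.elim _ _)).trans hg

end Bridge

section Degrees

variable (p : ℕ) [Fact p.Prime] {M : Type} [Field M] [CharP M p] {ι : Type} [Fintype ι] [DecidableEq ι]

/-- P1 -/
theorem exists_isPBasis {r : ℕ} (h : HasPDeg p M r) : ∃ x : Fin r → M, IsPBasis p x := by
  obtain ⟨y, hy⟩ := pbx_exists_compl (p := p) (φ := frobenius M p) pbx_frob_pow r (Fin 0) Fin.elim0
    (pbx_injective_empty _ _) (by rw [Fintype.card_fin, zero_add]; exact h)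
  refine ⟨y, ?_⟩
  have h2 := pbx_bijective_reindex_mon (Equiv.emptySum (Fin 0) (Fin r)).symm hy
  exact h2

variable {p}

/-- P2 -/
theorem IsPBasis.hasPDeg {x : ι → M} (hx : IsPBasis p x) : HasPDeg p M (Fintype.card ι) := by
  have := pbx_finrank ((pbx_isPBasis_iff x).mp hx)
  rwa [pbx_card_idx] at this

/-- P3 -/
theorem IsPIndep.isPBasis {x : ι → M} (hx : IsPIndep p x) (h : HasPDeg p M (Fintype.card ι)) :
    IsPBasis p x :=
  pbx_bijective_of_card ((pbx_isPIndep_iff x).mp hx) (by rw [pbx_card_idx]; exact h)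
    ⟨fun _ => ⟨0, (Fact.out : p.Prime).pos⟩⟩

/-- P4: completion of a `p`-independent family -/
theorem IsPIndep.exists_compl {a s : ℕ} {c : Fin a → M} (hc : IsPIndep p c) (h : HasPDeg p M (a + s)) :
    ∃ y : Fin s → M, IsPBasis p (Sum.elim c y) :=
  pbx_exists_compl (p := p) (φ := frobenius M p) pbx_frob_pow s (Fin a) c ((pbx_isPIndep_iff c).mp hc)
    (by rw [Fintype.card_fin]; exact h)

theorem IsPBasis.reindex {ι' : Type} [Fintype ι'] [DecidableEq ι'] {x : ι → M} (hx : IsPBasis p x) (e : ι' ≃ ι) :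
    IsPBasis p (x ∘ e) :=
  pbx_bijective_reindex_mon e ((pbx_isPBasis_iff x).mp hx)

theorem IsPBasisOn.reindex {ι' : Type} [Fintype ι'] [DecidableEq ι'] {O : Subring M} {x : ι → M}
    (hx : IsPBasisOn p O x) (e : ι' ≃ ι) : IsPBasisOn p O (x ∘ e) :=
  pbx_on_reindex_mon e ((pbx_isPBasisOn_iff O x).mp hx)

theorem pbx_frob_comm (K : Type) [Field K] [CharP K p] [Algebra K M] :
    (algebraMap K M).comp (frobenius K p) = (frobenius M p).comp (algebraMap K M) := by
  ext a
  simp [frobenius_def]

/-- P5: the `p`-degree is invariant under finite extensions -/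
theorem hasPDeg_of_finite (K : Type) [Field K] [CharP K p] [Algebra K M] [Module.Finite K M] {r : ℕ}
    (h : HasPDeg p K r) : HasPDeg p M r := by
  have hp : p.Prime := Fact.out
  have hn : Module.finrank K M ≠ 0 := Module.finrank_pos.ne'
  obtain ⟨e, he⟩ := pbx_exists_basis_alg (G := K) (M := M) rfl hn
  obtain ⟨w₀, hw₀⟩ := pbx_exists_basis h (pow_ne_zero _ hp.ne_zero)
  have h1 := pbx_bijective_comp hw₀ he
  rw [pbx_frob_comm] at h1
  -- `M` is finite over `M^p`
  have hsurj : Function.Surjective (plin (frobenius M p)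
      (fun q : Fin (p ^ r) × Fin (Module.finrank K M) => algebraMap K M (w₀ q.1) * e q.2)) := by
    intro f
    obtain ⟨g, hg⟩ := h1.2 f
    exact ⟨fun q => algebraMap K M (g q), hg⟩
  have hfin := pbx_finite hsurj
  have hd : Module.finrank (frobenius M p).fieldRange M ≠ 0 := Module.finrank_pos.ne'
  obtain ⟨w, hw⟩ := pbx_exists_basis (φ := frobenius M p) rfl hd
  have h2 := pbx_bijective_comp he hw
  have c1 := pbx_finrank h1
  have c2 := pbx_finrank h2
  rw [c1, Fintype.card_prod, Fintype.card_prod, Fintype.card_fin, Fintype.card_fin,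
    Fintype.card_fin, mul_comm] at c2
  exact (Nat.eq_of_mul_eq_mul_left (Nat.pos_of_ne_zero hn) c2).symm

/-- P6: function fields of one variable -/
theorem hasPDeg_of_isFF (S : Type) [Field S] [CharP S p] [Algebra S M] [IsFF S M] {n : ℕ}
    (h : HasPDeg p S n) : HasPDeg p M (n + 1) := by
  obtain ⟨x, htr, hfin⟩ := IsFF.exists_finite (k := S) (M := M)
  have hK : CharP (IntermediateField.adjoin S {x}) p :=
    charP_of_injective_algebraMap (algebraMap S (IntermediateField.adjoin S {x})).injective p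
  obtain ⟨s, hs⟩ := exists_isPBasis p h
  refine hasPDeg_of_finite (IntermediateField.adjoin S {x}) ?_
  have hco : ∀ A : Polynomial S, ((Polynomial.aeval (IntermediateField.AdjoinSimple.gen S x) A :
      IntermediateField.adjoin S {x}) : M) = Polynomial.aeval x A :=
    fun A => IntermediateField.AdjoinSimple.coe_aeval_gen_apply S x A
  have htrK : Transcendental S (IntermediateField.AdjoinSimple.gen S x) := by
    rw [transcendental_iff] at htr ⊢
    intro A hA
    refine htr A ?_
    rw [← hco, hA]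
    rfl
  have hgen : ∀ f : IntermediateField.adjoin S {x}, ∃ A B : Polynomial S,
      f = Polynomial.aeval (IntermediateField.AdjoinSimple.gen S x) A
        / Polynomial.aeval (IntermediateField.AdjoinSimple.gen S x) B := by
    intro f
    obtain ⟨A, B, hAB⟩ := (IntermediateField.mem_adjoin_simple_iff S f.1).mp f.2
    refine ⟨A, B, Subtype.ext ?_⟩
    rw [IntermediateField.coe_div, hco, hco]
    exact hAB
  have hb : IsPBasis p (Sum.elim (⇑(algebraMap S (IntermediateField.adjoin S {x})) ∘ s)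
      (fun _ : Unit => IntermediateField.AdjoinSimple.gen S x)) :=
    ⟨pbx_rat_indep htrK hgen hs.1, pbx_rat_span hgen hs.2⟩
  have h2 := hb.hasPDeg
  rwa [Fintype.card_sum, Fintype.card_fin, Fintype.card_unit] at h2

end Degrees

section Derivations

variable {p : ℕ} [Fact p.Prime] {M : Type} [Field M] [CharP M p] {ι : Type} [Fintype ι] [DecidableEq ι]

theorem pbx_der_pow {N : Type} [Field N] [Algebra M N] (δ : Derivation ℤ M N) (c : M) :
    δ (c ^ p) = 0 := by
  have : CharP N p := charP_of_injective_algebraMap (algebraMap M N).injective p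
  rw [Derivation.leibniz_pow, nsmul_eq_mul, CharP.cast_eq_zero, zero_mul]

theorem pbx_der_ext {x : ι → M} (hx : IsPBasis p x) {N : Type} [Field N] [Algebra M N]
    {δ δ' : Derivation ℤ M N} (h : ∀ k, δ (x k) = δ' (x k)) : δ = δ' := by
  ext f
  have hs : Set.EqOn δ δ' (Set.range x ∪ Set.range fun c : M => c ^ p) := by
    rintro _ (⟨k, rfl⟩ | ⟨c, rfl⟩)
    · exact h k
    · show δ (c ^ p) = δ' (c ^ p)
      rw [pbx_der_pow, pbx_der_pow]
  have hmem : f ∈ Algebra.adjoin ℤ (Set.range x ∪ Set.range fun c : M => c ^ p) := by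
    obtain ⟨c, rfl⟩ := hx.2 f
    have hxk : ∀ k, x k ∈ Algebra.adjoin ℤ (Set.range x ∪ Set.range fun c : M => c ^ p) :=
      fun k => Algebra.subset_adjoin (Or.inl ⟨k, rfl⟩)
    unfold pcomb pmon
    refine sum_mem fun I _ => mul_mem ?_ ?_
    · exact Algebra.subset_adjoin (Or.inr ⟨c I, rfl⟩)
    · exact prod_mem fun k _ => pow_mem (hxk k) _
  exact Derivation.eqOn_adjoin hs hmem

theorem pbx_exists_der {x : ι → M} (hx : IsPBasis p x) {N : Type} [Field N] [Algebra M N] (u : ι → N) :
    ∃ δ : Derivation ℤ M N, ∀ k, δ (x k) = u k := by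
  have hp : p.Prime := Fact.out
  have hN : CharP N p := charP_of_injective_algebraMap (algebraMap M N).injective p
  obtain ⟨Θ, hΘ1, hΘ2⟩ := pbx_exists_hom hp.pos ((pbx_isPBasis_iff x).mp hx) x (fun _ => rfl)
    ((TrivSqZeroExt.inlHom N N).comp ((algebraMap M N).comp (frobenius M p)))
    (fun k => TrivSqZeroExt.inl (algebraMap M N (x k)) + TrivSqZeroExt.inr (u k)) (fun k => by
      refine TrivSqZeroExt.ext ?_ ?_
      · simp [frobenius_def]
      · rw [TrivSqZeroExt.snd_pow, nsmul_eq_mul, CharP.cast_eq_zero, zero_mul]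
        simp)
  have hfst : ∀ f, (Θ f).fst = algebraMap M N f := by
    intro f
    apply frobenius_inj N p
    rw [frobenius_def, frobenius_def, ← TrivSqZeroExt.fst_pow, ← map_pow]
    have := hΘ1 f
    rw [frobenius_def] at this
    rw [this]
    simp [frobenius_def]
  let D₀ : M →+ N :=
    { toFun := fun f => (Θ f).snd
      map_zero' := by rw [map_zero, TrivSqZeroExt.snd_zero]
      map_add' := fun a b => by rw [map_add, TrivSqZeroExt.snd_add] }
  have hD₀ : ∀ f, D₀ f = (Θ f).snd := fun _ => rfl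
  refine ⟨Derivation.mk' D₀.toIntLinearMap (fun a b => ?_), fun k => ?_⟩
  · show D₀ (a * b) = a • D₀ b + b • D₀ a
    rw [hD₀, hD₀, hD₀, map_mul, TrivSqZeroExt.snd_mul, hfst, hfst, op_smul_eq_smul,
      smul_eq_mul, smul_eq_mul, Algebra.smul_def, Algebra.smul_def]
  · show D₀ (x k) = u k
    rw [hD₀, hΘ2]
    simp

/-- P7: the partial derivatives of a `p`-basis form a basis of `Der M`, with coordinates `δ ↦ δ (x k)` -/
theorem IsPBasis.exists_basis {x : ι → M} (hx : IsPBasis p x) :
    ∃ θ : Module.Basis ι M (Der M), ∀ (δ : Der M) (k : ι), θ.repr δ k = δ (x k) := by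
  let T : Der M →ₗ[M] (ι → M) :=
    { toFun := fun δ k => δ (x k)
      map_add' := fun δ δ' => by funext k; rfl
      map_smul' := fun a δ => by funext k; rfl }
  have hT : Function.Bijective T := by
    constructor
    · intro δ δ' h
      exact pbx_der_ext hx fun k => congrFun h k
    · intro u
      obtain ⟨δ, hδ⟩ := pbx_exists_der hx u
      exact ⟨δ, funext hδ⟩
  refine ⟨Module.Basis.ofRepr ((LinearEquiv.ofBijective T hT).trans
    (Finsupp.linearEquivFunOnFinite M M ι).symm), fun δ k => ?_⟩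
  rfl

/-- the basis `∂/∂x_k` of `Der M` -/
noncomputable def IsPBasis.pd {x : ι → M} (hx : IsPBasis p x) : Module.Basis ι M (Der M) :=
  hx.exists_basis.choose

theorem IsPBasis.pd_repr {x : ι → M} (hx : IsPBasis p x) (δ : Der M) (k : ι) : hx.pd.repr δ k = δ (x k) :=
  hx.exists_basis.choose_spec δ k

theorem IsPBasis.pd_apply {x : ι → M} (hx : IsPBasis p x) (i k : ι) :
    hx.pd i (x k) = if i = k then 1 else 0 := by
  rw [← hx.pd_repr, Module.Basis.repr_self, Finsupp.single_apply]

/-- P8: a derivation into an extension field is determined by its values on a `p`-basis, which are arbitrary -/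
theorem IsPBasis.der_ext {x : ι → M} (hx : IsPBasis p x) {N : Type} [Field N] [Algebra M N]
    {δ δ' : Derivation ℤ M N} (h : ∀ k, δ (x k) = δ' (x k)) : δ = δ' := pbx_der_ext hx h

theorem IsPBasis.exists_der {x : ι → M} (hx : IsPBasis p x) {N : Type} [Field N] [Algebra M N] (u : ι → N) :
    ∃ δ : Derivation ℤ M N, ∀ k, δ (x k) = u k := pbx_exists_der hx u

end Derivations

section Extension

variable {p : ℕ} [Fact p.Prime] {G M : Type} [Field G] [Field M] [Algebra G M] [CharP G p] [CharP M p]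

/-- P9: **the extension step.**  If `O_M = ⊕_I O_G b^I`, `b_l^p = c_l` and `(c, y)` is a `p`-basis on `O_G`, then `(b, y)` is a
`p`-basis on `O_M`. -/
theorem IsPBasisOn.extend {a s : ℕ} {OG : Subring G} {OM : Subring M} {b : Fin a → M} {c : Fin a → G}
    {y : Fin s → G} (hc : ∀ l, algebraMap G M (c l) = b l ^ p)
    (hfree : Function.Bijective fun g : (Fin a → Fin p) → G => ∑ I, algebraMap G M (g I) * pmon b I)
    (hint : ∀ g : (Fin a → Fin p) → G, (∑ I, algebraMap G M (g I) * pmon b I) ∈ OM ↔ ∀ I, g I ∈ OG)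
    (hG : IsPBasisOn p OG (Sum.elim c y)) :
    IsPBasisOn p OM (Sum.elim b fun i => algebraMap G M (y i)) := by
  have hB : PLinOn (algebraMap G M) OG OM (pmonR (p := p) b) := ⟨hfree, hint⟩
  have h1 := pbx_on_comp_mon ((pbx_isPBasisOn_iff OG _).mp hG) hB
  rw [pbx_frob_comm] at h1
  rw [pbx_isPBasisOn_iff]
  refine pbx_on_of_comp_mon hB ?_
  have h2 := pbx_on_reindex_mon ((Equiv.sumCongr (Equiv.refl (Fin a)) (Equiv.sumComm (Fin a) (Fin s))).trans
    (Equiv.sumAssoc (Fin a) (Fin s) (Fin a)).symm) h1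
  have e : (Sum.elim (⇑(algebraMap G M) ∘ Sum.elim c y) b) ∘
      ((Equiv.sumCongr (Equiv.refl (Fin a)) (Equiv.sumComm (Fin a) (Fin s))).trans
        (Equiv.sumAssoc (Fin a) (Fin s) (Fin a)).symm)
      = Sum.elim (⇑(frobenius M p) ∘ b) (Sum.elim b fun i => algebraMap G M (y i)) := by
    funext q
    rcases q with l | l | i
    · exact hc l
    · rfl
    · rfl
  rwa [e] at h2

/-- **Adapted `p`-bases** of a height one extension `G ⊆ M` (`M^p ⊆ G`) on subrings `OG`, `OM`:
`(b, y)` on `OM` and `(b^p, y)` on `OG`, with `y` in `G`. -/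
structure Adapted (p : ℕ) (G M : Type) [Field G] [Field M] [Algebra G M] (OG : Subring G) (OM : Subring M)
    (a s : ℕ) where
  b : Fin a → M
  c : Fin a → G
  y : Fin s → G
  hc : ∀ l, algebraMap G M (c l) = b l ^ p
  hG : IsPBasisOn p OG (Sum.elim c y)
  hM : IsPBasisOn p OM (Sum.elim b fun i => algebraMap G M (y i))

/-- the frame `∂/∂b_l, ∂/∂y_i` of `Der M` -/
noncomputable def Adapted.θM {OG : Subring G} {OM : Subring M} {a s : ℕ} (X : Adapted p G M OG OM a s) :
    Module.Basis (Fin a ⊕ Fin s) M (Der M) := X.hM.1.pd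

/-- the frame `∂/∂c_l, ∂/∂y_i` of `Der G` -/
noncomputable def Adapted.θG {OG : Subring G} {OM : Subring M} {a s : ℕ} (X : Adapted p G M OG OM a s) :
    Module.Basis (Fin a ⊕ Fin s) G (Der G) := X.hG.1.pd

/-- `b^I` independent over `G` iff `c^I = (b^I)^p` independent over `G^p` -/
theorem pbx_indep_iff {a : ℕ} {b : Fin a → M} {c : Fin a → G}
    (hc : ∀ l, algebraMap G M (c l) = b l ^ p) :
    Function.Injective (plin (algebraMap G M) (pmonR (p := p) b)) ↔
      Function.Injective (plin (frobenius G p) (pmonR (p := p) c)) := by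
  have key : ∀ d, frobenius M p (plin (algebraMap G M) (pmonR (p := p) b) d)
      = algebraMap G M (plin (frobenius G p) (pmonR (p := p) c) d) := by
    intro d
    rw [pbx_map_plin_mon, pbx_map_plin_mon, pbx_frob_comm]
    congr 2
    funext l
    exact (hc l).symm
  rw [pbx_injective_iff, pbx_injective_iff]
  constructor
  · intro h d hd
    refine h d ?_
    have := key d
    rw [hd, map_zero] at this
    exact (map_eq_zero _).mp this
  · intro h d hd
    refine h d ?_
    have := key d
    rw [hd, map_zero] at this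
    exact (map_eq_zero _).mp this.symm

/-- the monomials `b^I` form a basis of `M` over `G`, integral on the subrings
(needs `c ∈ OM → c^p ∈ G ∩ OM = OG`, whence the hypothesis) -/
theorem Adapted.free {OG : Subring G} {OM : Subring M} {a s : ℕ} (X : Adapted p G M OG OM a s)
    (hpow : ∀ x : M, ∃ g : G, algebraMap G M g = x ^ p)
    (hO : ∀ g : G, algebraMap G M g ∈ OM ↔ g ∈ OG) :
    (Function.Bijective fun g : (Fin a → Fin p) → G => ∑ I, algebraMap G M (g I) * pmon X.b I) ∧
    ∀ g : (Fin a → Fin p) → G, (∑ I, algebraMap G M (g I) * pmon X.b I) ∈ OM ↔ ∀ I, g I ∈ OG := by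
  have hp : p.Prime := Fact.out
  show PLinOn (algebraMap G M) OG OM (pmonR (p := p) X.b)
  have hG := (pbx_isPBasisOn_iff OG _).mp X.hG
  have hM := (pbx_isPBasisOn_iff OM _).mp X.hM
  have hM' : PLinOn (frobenius M p) OM OM
      (pmonR (p := p) (Sum.elim (⇑(algebraMap G M) ∘ X.y) X.b)) := by
    have h2 := pbx_on_reindex_mon (Equiv.sumComm (Fin s) (Fin a)) hM
    have e : (Sum.elim X.b fun i => algebraMap G M (X.y i)) ∘ (Equiv.sumComm (Fin s) (Fin a))
        = Sum.elim (⇑(algebraMap G M) ∘ X.y) X.b := by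
      funext q
      rcases q with i | l
      · rfl
      · rfl
    rwa [e] at h2
  have hy : ∀ i, X.y i ∈ OG := fun i => pbx_mem_of_on hp.one_lt hG (Sum.inr i)
  have hb : ∀ l, X.b l ∈ OM := fun l => pbx_mem_of_on hp.one_lt hM (Sum.inl l)
  have hinj : Function.Injective (plin (algebraMap G M) (pmonR (p := p) X.b)) :=
    (pbx_indep_iff X.hc).mpr (pbx_injective_left hp.pos hG.1.1)
  have key : ∀ f, ∃ g, plin (algebraMap G M) (pmonR (p := p) X.b) g = f ∧
      (f ∈ OM → ∀ I, g I ∈ OG) := by
    intro f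
    obtain ⟨v, hv⟩ := hM'.1.2 f
    choose w hw using fun K => hpow (v K)
    have h1 : plin (frobenius M p) (pmonR (p := p) (Sum.elim (⇑(algebraMap G M) ∘ X.y) X.b)) v
        = plin ((algebraMap G M).comp (RingHom.id G))
          (pmonR (p := p) (Sum.elim (⇑(algebraMap G M) ∘ X.y) X.b)) w := by
      unfold plin
      refine Finset.sum_congr rfl fun K _ => ?_
      rw [RingHom.comp_id, hw K]
      rfl
    rw [pbx_plin_comp_mon] at h1
    refine ⟨_, h1.symm.trans hv, fun hf I => ?_⟩
    have hvO : ∀ K, v K ∈ OM := (hM'.2 v).mp (by rw [hv]; exact hf)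
    have hwO : ∀ K, w K ∈ OG := fun K => (hO _).mp (by rw [hw K]; exact Subring.pow_mem _ (hvO K) _)
    exact Subring.sum_mem _ fun J _ => Subring.mul_mem _ (hwO _) (pbx_pmonR_mem _ hy J)
  refine ⟨⟨hinj, fun f => ?_⟩, fun g => ⟨fun hf => ?_, fun hg => ?_⟩⟩
  · obtain ⟨g, hg, _⟩ := key f
    exact ⟨g, hg⟩
  · obtain ⟨g', hg', hO'⟩ := key (plin (algebraMap G M) (pmonR (p := p) X.b) g)
    rw [← hinj hg']
    exact hO' hf
  · exact Subring.sum_mem _ fun I _ => Subring.mul_mem _ ((hO _).mpr (hg I)) (pbx_pmonR_mem _ hb I)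

/-- `[M:G] ≤ [M:M^p]` -/
theorem le_of_hasPDeg [Module.Finite G M] (hpow : ∀ x : M, ∃ g : G, algebraMap G M g = x ^ p) {a r : ℕ}
    (ha : Module.finrank G M = p ^ a) (hM : HasPDeg p M r) : a ≤ r := by
  have hp : p.Prime := Fact.out
  obtain ⟨w, hw⟩ := pbx_exists_basis_alg ha (pow_ne_zero _ hp.ne_zero)
  have hinj : Function.Injective (plin (frobenius M p) w) := by
    rw [pbx_injective_iff]
    intro d hd
    choose g hg using fun j => hpow (d j)
    have h1 : plin (algebraMap G M) w g = 0 := by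
      rw [← hd]
      unfold plin
      exact Finset.sum_congr rfl fun j _ => by rw [hg j]; rfl
    have h2 := (pbx_injective_iff _ _).mp hw.1 g h1
    funext j
    have h3 := hg j
    rw [h2] at h3
    simp only [Pi.zero_apply, map_zero] at h3
    exact (pow_eq_zero_iff hp.ne_zero).mp h3.symm
  have h1 := pbx_card_le hinj (by rw [hM]; exact pow_ne_zero _ hp.ne_zero)
  rw [Fintype.card_fin, hM] at h1
  exact (Nat.pow_le_pow_iff_right hp.one_lt).mp h1

/-- P10: adapted `p`-bases of fields -/
theorem exists_adapted_field [Module.Finite G M] (hpow : ∀ x : M, ∃ g : G, algebraMap G M g = x ^ p) {a s : ℕ}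
    (ha : Module.finrank G M = p ^ a) (hG : HasPDeg p G (a + s)) : Nonempty (Adapted p G M ⊤ ⊤ a s) := by
  have hp : p.Prime := Fact.out
  obtain ⟨w, hw⟩ := pbx_exists_basis_alg ha (pow_ne_zero _ hp.ne_zero)
  have hfr := pbx_finrank hw
  rw [Fintype.card_fin] at hfr
  obtain ⟨b, hb⟩ := pbx_exists_compl (p := p) (φ := algebraMap G M) hpow a (Fin 0) Fin.elim0
    (pbx_injective_empty _ _) (by rw [Fintype.card_fin, zero_add]; exact hfr)
  have hb' : Function.Bijective (plin (algebraMap G M) (pmonR (p := p) b)) :=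
    pbx_bijective_reindex_mon (Equiv.emptySum (Fin 0) (Fin a)).symm hb
  choose c hc using fun l => hpow (b l)
  have hci : IsPIndep p c := (pbx_indep_iff hc).mp hb'.1
  obtain ⟨y, hy⟩ := hci.exists_compl hG
  have hGon : IsPBasisOn p (⊤ : Subring G) (Sum.elim c y) :=
    (pbx_isPBasisOn_iff _ _).mpr ((pbx_on_top _ _).mpr ((pbx_isPBasis_iff _).mp hy))
  have hBon : PLinOn (algebraMap G M) ⊤ ⊤ (pmonR (p := p) b) := (pbx_on_top _ _).mpr hb'
  have hMon : IsPBasisOn p (⊤ : Subring M) (Sum.elim b fun i => algebraMap G M (y i)) :=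
    IsPBasisOn.extend hc hBon.1 hBon.2 hGon
  exact ⟨⟨b, c, y, hc, hGon, hMon⟩⟩

end Extension

end Claimed.Agent.R280
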