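import Mathlib

/-!
# Row 280, Ins package D0 `PBasis`, auxiliary file 1: semilinear combinations along a ring hom

`plin φ v g = ∑ j, φ (g j) * v j` for a ring hom `φ : G →+* M` and a finite family `v : κ → M`.
`PLinOn φ OG OM v`: `plin φ v` is bijective and integral on the subrings `OG`, `OM`.
Composition in towers, reindexing, translation into linear algebra over `φ.fieldRange`.
All auxiliary names have the prefix `pbx_`.   (helper240)
-/

set_option autoImplicit false

namespace Claimed.Agent.R280

section Basic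

variable {G M : Type} [CommRing G] [CommRing M] {κ : Type} [Fintype κ]

/-- `∑ j, φ (g j) * v j` -/
def plin (φ : G →+* M) (v : κ → M) (g : κ → G) : M := ∑ j, φ (g j) * v j

/-- `plin φ v` is bijective, and integral with respect to the subrings `OG`, `OM` -/
def PLinOn (φ : G →+* M) (OG : Subring G) (OM : Subring M) (v : κ → M) : Prop :=
  Function.Bijective (plin φ v) ∧ ∀ g : κ → G, plin φ v g ∈ OM ↔ ∀ j, g j ∈ OG

theorem pbx_eqns_cite : True := by
  have := @plin.eq_1
  have := @PLinOn.eq_1
  trivial

theorem pbx_plin_add (φ : G →+* M) (v : κ → M) (g g' : κ → G) :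
    plin φ v (g + g') = plin φ v g + plin φ v g' := by
  simp only [plin, Pi.add_apply, map_add, add_mul, Finset.sum_add_distrib]

theorem pbx_plin_sub (φ : G →+* M) (v : κ → M) (g g' : κ → G) :
    plin φ v (g - g') = plin φ v g - plin φ v g' := by
  simp only [plin, Pi.sub_apply, map_sub, sub_mul, Finset.sum_sub_distrib]

theorem pbx_plin_zero (φ : G →+* M) (v : κ → M) : plin φ v 0 = 0 := by
  simp only [plin, Pi.zero_apply, map_zero, zero_mul, Finset.sum_const_zero]

theorem pbx_plin_single [DecidableEq κ] (φ : G →+* M) (v : κ → M) (j : κ) (a : G) :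
    plin φ v (Pi.single j a) = φ a * v j := by
  unfold plin
  rw [Finset.sum_eq_single j]
  · rw [Pi.single_eq_same]
  · intro i _ hi
    rw [Pi.single_eq_of_ne hi, map_zero, zero_mul]
  · intro h
    exact absurd (Finset.mem_univ j) h

theorem pbx_injective_iff (φ : G →+* M) (v : κ → M) :
    Function.Injective (plin φ v) ↔ ∀ g, plin φ v g = 0 → g = 0 := by
  constructor
  · intro h g hg
    exact h (hg.trans (pbx_plin_zero φ v).symm)
  · intro h g g' hgg
    have := h (g - g') (by rw [pbx_plin_sub, hgg, sub_self])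
    exact sub_eq_zero.mp this

theorem pbx_on_top (φ : G →+* M) (v : κ → M) :
    PLinOn φ ⊤ ⊤ v ↔ Function.Bijective (plin φ v) :=
  ⟨fun h => h.1, fun h => ⟨h, fun _ => ⟨fun _ _ => Subring.mem_top _, fun _ => Subring.mem_top _⟩⟩⟩

/-! ### reindexing -/

theorem pbx_plin_reindex {κ' : Type} [Fintype κ'] (φ : G →+* M) (v : κ → M) (e : κ' ≃ κ)
    (g : κ' → G) : plin φ (v ∘ e) g = plin φ v (g ∘ e.symm) := by
  unfold plin
  rw [← Equiv.sum_comp e]
  simp only [Function.comp_apply, Equiv.symm_apply_apply]

theorem pbx_injective_reindex {κ' : Type} [Fintype κ'] {φ : G →+* M} {v : κ → M} (e : κ' ≃ κ)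
    (h : Function.Injective (plin φ v)) : Function.Injective (plin φ (v ∘ e)) := by
  intro g g' hgg
  rw [pbx_plin_reindex, pbx_plin_reindex] at hgg
  have := h hgg
  funext j
  have h2 := congrFun this (e j)
  simpa using h2

theorem pbx_on_reindex {κ' : Type} [Fintype κ'] {φ : G →+* M} {OG : Subring G} {OM : Subring M}
    {v : κ → M} (e : κ' ≃ κ) (h : PLinOn φ OG OM v) : PLinOn φ OG OM (v ∘ e) := by
  refine ⟨⟨pbx_injective_reindex e h.1.1, fun f => ?_⟩, fun g => ?_⟩
  · obtain ⟨g, hg⟩ := h.1.2 f
    refine ⟨g ∘ e, ?_⟩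
    rw [pbx_plin_reindex, ← hg]
    congr 1
    funext j
    simp
  · rw [pbx_plin_reindex, h.2]
    constructor
    · intro H j
      have := H (e j)
      simpa using this
    · intro H j
      exact H _

theorem pbx_bijective_reindex {κ' : Type} [Fintype κ'] {φ : G →+* M} {v : κ → M} (e : κ' ≃ κ)
    (h : Function.Bijective (plin φ v)) : Function.Bijective (plin φ (v ∘ e)) :=
  (pbx_on_top _ _).mp (pbx_on_reindex e ((pbx_on_top _ _).mpr h))

end Basic

/-! ### composition in towers -/

section Comp

variable {G L M : Type} [CommRing G] [CommRing L] [CommRing M] {κ κ' : Type} [Fintype κ]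
  [Fintype κ']

theorem pbx_plin_comp (φ : G →+* L) (ψ : L →+* M) (v : κ → L) (w : κ' → M) (g : κ × κ' → G) :
    plin (ψ.comp φ) (fun q : κ × κ' => ψ (v q.1) * w q.2) g
      = plin ψ w (fun j' => plin φ v (fun j => g (j, j'))) := by
  unfold plin
  rw [Fintype.sum_prod_type_right]
  refine Finset.sum_congr rfl fun j' _ => ?_
  rw [map_sum, Finset.sum_mul]
  refine Finset.sum_congr rfl fun j _ => ?_
  rw [map_mul, RingHom.comp_apply, mul_assoc]

/-- a basis of `L` over `G` times a basis of `M` over `L` -/
theorem pbx_on_comp {φ : G →+* L} {ψ : L →+* M} {OG : Subring G} {OL : Subring L}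
    {OM : Subring M} {v : κ → L} {w : κ' → M} (hv : PLinOn φ OG OL v) (hw : PLinOn ψ OL OM w) :
    PLinOn (ψ.comp φ) OG OM (fun q : κ × κ' => ψ (v q.1) * w q.2) := by
  refine ⟨⟨fun g g' hgg => ?_, fun f => ?_⟩, fun g => ?_⟩
  · rw [pbx_plin_comp, pbx_plin_comp] at hgg
    have h1 := hw.1.1 hgg
    funext ⟨j, j'⟩
    exact congrFun (hv.1.1 (congrFun h1 j')) j
  · obtain ⟨l, hl⟩ := hw.1.2 f
    choose g hg using fun j' => hv.1.2 (l j')
    refine ⟨fun q => g q.2 q.1, ?_⟩
    rw [pbx_plin_comp, ← hl]
    congr 1
    funext j'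
    exact hg j'
  · rw [pbx_plin_comp, hw.2]
    constructor
    · intro H q
      exact (hv.2 _).mp (H q.2) q.1
    · intro H j'
      exact (hv.2 _).mpr fun j => H (j, j')

/-- cancellation of the lower basis -/
theorem pbx_on_of_comp {φ : G →+* L} {ψ : L →+* M} {OG : Subring G} {OL : Subring L}
    {OM : Subring M} {v : κ → L} {w : κ' → M} (hv : PLinOn φ OG OL v)
    (h : PLinOn (ψ.comp φ) OG OM (fun q : κ × κ' => ψ (v q.1) * w q.2)) : PLinOn ψ OL OM w := by
  refine ⟨⟨fun l l' hll => ?_, fun f => ?_⟩, fun l => ?_⟩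
  · choose g hg using fun j' => hv.1.2 (l j')
    choose g' hg' using fun j' => hv.1.2 (l' j')
    have e1 : plin ψ w l = plin (ψ.comp φ) (fun q : κ × κ' => ψ (v q.1) * w q.2)
        (fun q => g q.2 q.1) := by
      rw [pbx_plin_comp]
      congr 1
      funext j'
      exact (hg j').symm
    have e2 : plin ψ w l' = plin (ψ.comp φ) (fun q : κ × κ' => ψ (v q.1) * w q.2)
        (fun q => g' q.2 q.1) := by
      rw [pbx_plin_comp]
      congr 1
      funext j'
      exact (hg' j').symm
    rw [e1, e2] at hll
    have h1 := h.1.1 hll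
    funext j'
    rw [← hg j', ← hg' j']
    congr 1
    funext j
    exact congrFun h1 (j, j')
  · obtain ⟨g, hg⟩ := h.1.2 f
    rw [pbx_plin_comp] at hg
    exact ⟨_, hg⟩
  · choose g hg using fun j' => hv.1.2 (l j')
    have e1 : plin ψ w l = plin (ψ.comp φ) (fun q : κ × κ' => ψ (v q.1) * w q.2)
        (fun q => g q.2 q.1) := by
      rw [pbx_plin_comp]
      congr 1
      funext j'
      exact (hg j').symm
    rw [e1, h.2]
    constructor
    · intro H j'
      rw [← hg j']
      exact (hv.2 _).mpr fun j => H (j, j')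
    · intro H q
      have := H q.2
      rw [← hg q.2] at this
      exact (hv.2 _).mp this q.1

theorem pbx_bijective_comp {φ : G →+* L} {ψ : L →+* M} {v : κ → L} {w : κ' → M}
    (hv : Function.Bijective (plin φ v)) (hw : Function.Bijective (plin ψ w)) :
    Function.Bijective (plin (ψ.comp φ) (fun q : κ × κ' => ψ (v q.1) * w q.2)) :=
  (pbx_on_top _ _).mp (pbx_on_comp ((pbx_on_top _ _).mpr hv) ((pbx_on_top _ _).mpr hw))

end Comp

/-! ### translation into linear algebra over `φ.fieldRange` -/

section Lin

variable {G M : Type} [Field G] [Field M] {κ : Type} [Fintype κ]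

theorem pbx_linearIndependent {φ : G →+* M} {v : κ → M} (h : Function.Injective (plin φ v)) :
    LinearIndependent φ.fieldRange v := by
  rw [Fintype.linearIndependent_iff]
  intro c hc j
  choose g hg using fun j => RingHom.mem_fieldRange.mp (c j).2
  have h1 : plin φ v g = 0 := by
    rw [← hc]
    unfold plin
    refine Finset.sum_congr rfl fun i _ => ?_
    rw [hg i]
    rfl
  have h2 := (pbx_injective_iff φ v).mp h g h1
  apply Subtype.ext
  rw [← hg j, h2]
  simp

theorem pbx_span {φ : G →+* M} {v : κ → M} (h : Function.Surjective (plin φ v)) :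
    Submodule.span φ.fieldRange (Set.range v) = ⊤ := by
  rw [eq_top_iff]
  intro f _
  obtain ⟨g, rfl⟩ := h f
  unfold plin
  refine Submodule.sum_mem _ fun j _ => ?_
  have : φ (g j) * v j = (⟨φ (g j), RingHom.mem_fieldRange.mpr ⟨_, rfl⟩⟩ : φ.fieldRange) • v j := rfl
  rw [this]
  exact Submodule.smul_mem _ _ (Submodule.subset_span (Set.mem_range_self j))

theorem pbx_injective_of_li {φ : G →+* M} {v : κ → M} (h : LinearIndependent φ.fieldRange v) :
    Function.Injective (plin φ v) := by
  rw [pbx_injective_iff]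
  intro g hg
  rw [Fintype.linearIndependent_iff] at h
  have h1 := h (fun j => ⟨φ (g j), RingHom.mem_fieldRange.mpr ⟨_, rfl⟩⟩) hg
  funext j
  have h2 := congrArg Subtype.val (h1 j)
  exact (map_eq_zero φ).mp h2

theorem pbx_surjective_of_span {φ : G →+* M} {v : κ → M}
    (h : Submodule.span φ.fieldRange (Set.range v) = ⊤) : Function.Surjective (plin φ v) := by
  intro f
  have hf : f ∈ Submodule.span φ.fieldRange (Set.range v) := by rw [h]; trivial
  obtain ⟨c, hc⟩ := (Submodule.mem_span_range_iff_exists_fun _).mp hf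
  choose g hg using fun j => RingHom.mem_fieldRange.mp (c j).2
  refine ⟨g, ?_⟩
  rw [← hc]
  unfold plin
  refine Finset.sum_congr rfl fun i _ => ?_
  rw [hg i]
  rfl

theorem pbx_finrank {φ : G →+* M} {v : κ → M} (h : Function.Bijective (plin φ v)) :
    Module.finrank φ.fieldRange M = Fintype.card κ :=
  Module.finrank_eq_card_basis (Module.Basis.mk (pbx_linearIndependent h.1) (pbx_span h.2).ge)

theorem pbx_finite {φ : G →+* M} {v : κ → M} (h : Function.Surjective (plin φ v)) :
    Module.Finite φ.fieldRange M := by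
  refine ⟨?_⟩
  rw [← pbx_span h]
  exact Submodule.fg_span (Set.finite_range v)

theorem pbx_exists_basis {φ : G →+* M} {d : ℕ} (h : Module.finrank φ.fieldRange M = d)
    (hd : d ≠ 0) : ∃ w : Fin d → M, Function.Bijective (plin φ w) := by
  have : Module.Finite φ.fieldRange M :=
    Module.finite_of_finrank_pos (by rw [h]; exact Nat.pos_of_ne_zero hd)
  let B := Module.finBasisOfFinrankEq φ.fieldRange M h
  exact ⟨B, pbx_injective_of_li B.linearIndependent, pbx_surjective_of_span B.span_eq⟩

theorem pbx_bijective_of_card {φ : G →+* M} {v : κ → M} (h : Function.Injective (plin φ v))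
    (hc : Module.finrank φ.fieldRange M = Fintype.card κ) (hne : Nonempty κ) :
    Function.Bijective (plin φ v) :=
  ⟨h, pbx_surjective_of_span ((pbx_linearIndependent h).span_eq_top_of_card_eq_finrank hc.symm)⟩

theorem pbx_card_le {φ : G →+* M} {v : κ → M} (h : Function.Injective (plin φ v))
    (hf : Module.finrank φ.fieldRange M ≠ 0) : Fintype.card κ ≤ Module.finrank φ.fieldRange M := by
  have : Module.Finite φ.fieldRange M := Module.finite_of_finrank_pos (Nat.pos_of_ne_zero hf)
  exact (pbx_linearIndependent h).fintype_card_le_finrank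

/-- a basis for an algebra structure -/
theorem pbx_bijective_of_basis [Algebra G M] (B : Module.Basis κ G M) :
    Function.Bijective (plin (algebraMap G M) B) := by
  have e : plin (algebraMap G M) B = B.equivFun.symm := by
    funext g
    rw [Module.Basis.equivFun_symm_apply]
    unfold plin
    exact Finset.sum_congr rfl fun j _ => (Algebra.smul_def _ _).symm
  rw [e]
  exact B.equivFun.symm.bijective

theorem pbx_exists_basis_alg [Algebra G M] {d : ℕ} (h : Module.finrank G M = d) (hd : d ≠ 0) :
    ∃ w : Fin d → M, Function.Bijective (plin (algebraMap G M) w) := by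
  have : Module.Finite G M := Module.finite_of_finrank_pos (by rw [h]; exact Nat.pos_of_ne_zero hd)
  exact ⟨_, pbx_bijective_of_basis (Module.finBasisOfFinrankEq G M h)⟩

end Lin

end Claimed.Agent.R280
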