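import Claimed.Agent.R280.Ins.Coord

/-!
# Row 280, Ins package D4b `Stage`: one stage of the Frobenius tower  ([D] §5.4, "From independent vanishing conditions to a degree bound")

`ES ⊆ G ⊆ M`, `M^p ⊆ G`, `[M:G] = p^a`, and every derivation of `M` killing `ES` kills `G` (true for `G = ES·M^p`).  `d = [M:ES]`.
RESULT (`stage`):   `p^a ν(G) + (p-1) d (|A| - h - a) ≤ p ν(M)`,   `A = {i | M/ES is ramified at the label i} = {i | deg z_i < d}`.

PLAN.  `s = n + 1 - a` is the rank of the image `H` of the tangent map.  `minor lam X = det (⟨lam_j, ∂/∂y_k⟩)_{j,k}`: a Plücker coordinate of `H`.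
* `exists_indep`: `C.rank A`; extract from the family `cov i`, `i ∈ A`, a basis of its span (`exists_linearIndependent` / `Module.Basis.ofSpan`-type lemmas).
* `exists_minor`: the vectors `coord (∂/∂y_k) ∈ M^{n+1}` are `M`-independent: `∑ u_k ∂/∂y_k` kills `ES` ⇒ kills `G` (`hder`) ⇒ `u_k = (∑ u ∂)(y_k) = 0`.
  Extend `(cov i)_{i ∈ A₀}` to a basis `λ_1 … λ_{n+1}` of `S^{n+1}`; the `λ`'s span the dual of `M^{n+1}`, so `s` of them restrict to a basis of `H^*`;
  at most `n + 1 - |A₀|` of these are not of the form `cov i`:  `|J| ≥ s - (n+1-|A₀|) = |A₀| - a`.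
* `minor_local`: `∂/∂y'_i = ∑_l (∂b_l/∂y'_i) ∂/∂b_l + ∑_k (∂y_k/∂y'_i) ∂/∂y_k` (`pd_repr`), `coord (∂/∂b_l) = 0` (`θM_inl`, `coord_eq_zero_iff`), `θM_inr`; `Matrix.det_mul`.
* `minor_int`, `minor_label`: all entries integral (`pair_int`, `IsPBasisOn.isTBasis`); one row divisible by `exp(-e)` (`label_vanish`); expand `det` (`Matrix.det_apply`).
* `muSum_ge`: `ord μ_Q = ord E(Q) - ord E`; `∑ ord_Q E · deg Q = 0` (`deg_divf`, `divf_apply`); finite supports from `kap_heightOne`;
  `∑_Q ord E(Q) deg Q ≥ ∑_{i ∈ J} e_i deg z_i = |J| d`  (`e_i deg z_i = d` by `sum_ramIdx_mul_deg`, `tS_deg`, uniqueness of the place above; `e_i > 1`, `e_i ∣ d = p^k` ⇒ `p ∣ e_i`; `z` injective).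
* `stage`: PROVED below.
~1500 lines (two files welcome: StageA = `exists_indep`, `exists_minor`; StageB = the rest).   Owner of the statements: helper66.
-/

set_option autoImplicit false
set_option linter.unusedSectionVars false

namespace Claimed.Agent.R280

open WithZero

/-- from a spanning family of `K^s` one can select a basis -/
theorem stg_select {K β : Type} [Field K] [Fintype β] {s : ℕ} (c : β → Fin s → K) (b : Set β)
    (hb : Submodule.span K (c '' b) = ⊤) :
    ∃ T : Set β, T ⊆ b ∧ ∃ e : Fin s ≃ T, LinearIndependent K (fun j => c (e j)) := by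
  classical
  obtain ⟨T, hTb, -, hsp, hli⟩ := exists_linearIndepOn_extension (K := K) (v := c) (s := ∅) (t := b)
    (linearIndepOn_empty _ _) (Set.empty_subset _)
  have hT : Submodule.span K (c '' T) = ⊤ := by
    rw [eq_top_iff, ← hb]
    exact Submodule.span_le.2 hsp
  have hli' : LinearIndependent K (fun x : T => c x) := hli
  have hcard : Fintype.card T = s := by
    have h1 := finrank_span_eq_card hli'
    have h2 : Set.range (fun x : T => c x) = c '' T := by
      ext x
      simp only [Set.mem_range, Set.mem_image, Subtype.exists, exists_prop]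
    rw [h2, hT, finrank_top, Module.finrank_fin_fun] at h1
    exact h1.symm
  exact ⟨T, hTb, (Fintype.equivFinOfCardEq hcard).symm, hli'.comp _ (Equiv.injective _)⟩

namespace InsData

section Pair

variable {p : ℕ} [Fact p.Prime] {m h : ℕ} (C : InsData p m h) {M : Type} [Field M] [Algebra C.S M] [Algebra C.ES M]

theorem stg_pair_add (lam : Fin (C.n + 1) → C.S) (δ δ' : Der M) :
    C.pair lam (δ + δ') = C.pair lam δ + C.pair lam δ' := by
  unfold pair
  rw [C.coord_add, ← Finset.sum_add_distrib]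
  exact Finset.sum_congr rfl fun k _ => by rw [Pi.add_apply, add_mul]

theorem stg_pair_smul (lam : Fin (C.n + 1) → C.S) (c : M) (δ : Der M) :
    C.pair lam (c • δ) = c * C.pair lam δ := by
  unfold pair
  rw [C.coord_smul, Finset.mul_sum]
  exact Finset.sum_congr rfl fun k _ => by rw [Pi.smul_apply, smul_eq_mul, mul_assoc]

/-- `pair lam` as a linear form on `Der M` -/
noncomputable def stgPairL (lam : Fin (C.n + 1) → C.S) : Der M →ₗ[M] M where
  toFun := C.pair lam
  map_add' := C.stg_pair_add lam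
  map_smul' := fun c δ => by rw [C.stg_pair_smul, RingHom.id_apply, smul_eq_mul]

theorem stg_pair_sum (lam : Fin (C.n + 1) → C.S) {ι : Type} (s : Finset ι) (c : ι → M) (δ : ι → Der M) :
    C.pair lam (∑ i ∈ s, c i • δ i) = ∑ i ∈ s, c i * C.pair lam (δ i) := by
  have h1 := map_sum (C.stgPairL (M := M) lam) (fun i => c i • δ i) s
  refine h1.trans (Finset.sum_congr rfl fun i _ => ?_)
  exact C.stg_pair_smul lam (c i) (δ i)

theorem stg_pair_eq_zero (lam : Fin (C.n + 1) → C.S) (δ : Der M)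
    (hδ : ∀ f : C.ES, δ (algebraMap C.ES M f) = 0) : C.pair lam δ = 0 := by
  unfold pair
  rw [(C.coord_eq_zero_iff δ).2 hδ]
  simp

/-- `pair · δ` as an `S`-linear map in the covector -/
noncomputable def stgPairR (δ : Der M) : (Fin (C.n + 1) → C.S) →ₗ[C.S] M where
  toFun := fun lam => C.pair lam δ
  map_add' := fun x y => by
    unfold pair
    rw [← Finset.sum_add_distrib]
    exact Finset.sum_congr rfl fun k _ => by rw [Pi.add_apply, map_add, mul_add]
  map_smul' := fun r x => by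
    unfold pair
    rw [RingHom.id_apply, Finset.smul_sum]
    exact Finset.sum_congr rfl fun k _ => by
      rw [Pi.smul_apply, smul_eq_mul, map_mul, Algebra.smul_def]; ring

theorem stg_der_sum_apply {ι : Type} (s : Finset ι) (δ : ι → Der M) (f : M) :
    (∑ i ∈ s, δ i) f = ∑ i ∈ s, δ i f := by
  have h1 := map_sum (Derivation.coeFnAddMonoidHom (R := ℤ) (A := M) (M := M)) δ s
  have h2 := congrFun h1 f
  rw [Finset.sum_apply] at h2
  exact h2

theorem stg_pair_single (δ : Der M) (k : Fin (C.n + 1)) : C.pair (Pi.single k 1) δ = C.coord δ k := by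
  classical
  unfold pair
  rw [Finset.sum_eq_single k]
  · rw [Pi.single_eq_same, map_one, mul_one]
  · intro j _ hj
    rw [Pi.single_eq_of_ne hj, map_zero, mul_zero]
  · intro hk
    exact absurd (Finset.mem_univ k) hk

/-- a derivation which pairs to zero with a spanning set of covectors kills `ES` -/
theorem stg_kills_of_pair (δ : Der M) (B : Set (Fin (C.n + 1) → C.S)) (hB : Submodule.span C.S B = ⊤)
    (h0 : ∀ lam ∈ B, C.pair lam δ = 0) (f : C.ES) : δ (algebraMap C.ES M f) = 0 := by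
  have h1 : C.stgPairR δ = 0 := LinearMap.ext_on hB fun lam hlam => h0 lam hlam
  refine (C.coord_eq_zero_iff δ).1 ?_ f
  ext k
  rw [← C.stg_pair_single δ k]
  exact LinearMap.congr_fun h1 _

end Pair

variable {p : ℕ} [Fact p.Prime] {m h : ℕ} (C : InsData p m h) {G M : Type} [Field G] [Field M]
  [Algebra C.S G] [Algebra C.S M] [Algebra C.ES G] [Algebra C.ES M] [Algebra G M]
  [IsScalarTower C.S C.ES G] [IsScalarTower C.S C.ES M] [IsScalarTower C.S G M] [IsScalarTower C.ES G M]
  [Module.Finite C.ES G] [Module.Finite C.ES M] [Module.Finite G M]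
  [IsPurelyInseparable C.ES G] [IsPurelyInseparable C.ES M]
  [CharP G p] [CharP M p] [IsFF C.S G] [IsFF C.S M]

/-- label rank: an independent subfamily -/
theorem exists_indep (A : Finset C.I) : ∃ A₀ : Finset C.I, A₀ ⊆ A ∧ A.card ≤ A₀.card + h ∧
    LinearIndependent C.S (fun i : A₀ => C.cov i) := by
  classical
  obtain ⟨b, hbA, -, hsp, hli⟩ := exists_linearIndepOn_extension (K := C.S) (v := C.cov)
    (s := ∅) (t := (A : Set C.I)) (linearIndepOn_empty _ _) (Set.empty_subset _)
  have hb : ((A.filter (· ∈ b) : Finset C.I) : Set C.I) = b := by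
    ext i
    simp only [Finset.coe_filter, Set.mem_ofPred_eq]
    exact ⟨fun hi => hi.2, fun hi => ⟨hbA hi, hi⟩⟩
  have hli' : LinearIndependent C.S (fun i : (A.filter (· ∈ b) : Finset C.I) => C.cov i) := by
    have h1 : LinearIndepOn C.S C.cov ((A.filter (· ∈ b) : Finset C.I) : Set C.I) := by rw [hb]; exact hli
    exact h1
  refine ⟨A.filter (· ∈ b), Finset.filter_subset _ _, ?_, hli'⟩
  have h2 := finrank_span_eq_card hli'
  rw [Fintype.card_coe] at h2
  have h3 : Set.range (fun i : (A.filter (· ∈ b) : Finset C.I) => C.cov i) =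
      C.cov '' ((A.filter (· ∈ b) : Finset C.I) : Set C.I) := by
    ext x
    simp only [Set.mem_range, Set.mem_image, Subtype.exists, Finset.mem_coe, exists_prop]
  have h4 : Submodule.span C.S (C.cov '' b) = Submodule.span C.S (C.cov '' (A : Set C.I)) :=
    le_antisymm (Submodule.span_mono (Set.image_mono hbA)) (Submodule.span_le.2 hsp)
  rw [h3, hb, h4] at h2
  rw [← h2]
  exact C.rank A

/-- a Plücker coordinate of the image of the tangent map -/
noncomputable def minor {OG : Subring G} {OM : Subring M} {a s : ℕ} (lam : Fin s → Fin (C.n + 1) → C.S)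
    (X : Adapted p G M OG OM a s) : M :=
  Matrix.det (Matrix.of fun j k : Fin s => C.pair (lam j) (X.θM (Sum.inr k)))

/-- the vectors `(⟨λ, ∂/∂y_k⟩)_k`, `λ` in a spanning set of covectors, span `M^s` -/
theorem stg_span_top
    (hder : ∀ δ : Der M, (∀ e : C.ES, δ (algebraMap C.ES M e) = 0) → ∀ g : G, δ (algebraMap G M g) = 0)
    {OG : Subring G} {OM : Subring M} {a s : ℕ} (X : Adapted p G M OG OM a s) {β : Type}
    (v : β → Fin (C.n + 1) → C.S) (b : Set β) (hb : Submodule.span C.S (v '' b) = ⊤) :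
    Submodule.span M ((fun (x : β) (k : Fin s) => C.pair (v x) (X.θM (Sum.inr k))) '' b) = ⊤ := by
  classical
  by_contra hne
  obtain ⟨f, hf0, hf⟩ := Submodule.exists_le_ker_of_lt_top _ (lt_top_iff_ne_top.2 hne)
  apply hf0
  set u : Fin s → M := fun k => f fun j => if k = j then 1 else 0 with hu
  set δ : Der M := ∑ k, u k • X.θM (Sum.inr k) with hδ
  have h1 : ∀ lam ∈ v '' b, C.pair lam δ = 0 := by
    rintro _ ⟨x, hx, rfl⟩
    have h2 : f (fun k : Fin s => C.pair (v x) (X.θM (Sum.inr k))) = 0 :=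
      hf (Submodule.subset_span ⟨x, hx, rfl⟩)
    rw [LinearMap.pi_apply_eq_sum_univ] at h2
    rw [hδ, C.stg_pair_sum, ← h2]
    exact Finset.sum_congr rfl fun k _ => by rw [smul_eq_mul, mul_comm]
  have h3 : ∀ g : G, δ (algebraMap G M g) = 0 := hder δ (C.stg_kills_of_pair δ _ hb h1)
  have h4 : ∀ k, u k = 0 := by
    intro k
    have h5 := h3 (X.y k)
    rw [hδ, stg_der_sum_apply, Finset.sum_eq_single k] at h5
    · have h6 : X.θM (Sum.inr k) (algebraMap G M (X.y k)) = 1 := by
        have := X.hM.1.pd_apply (Sum.inr k) (Sum.inr k)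
        rwa [if_pos rfl] at this
      rw [Derivation.smul_apply, h6, smul_eq_mul, mul_one] at h5
      exact h5
    · intro j _ hj
      have h6 : X.θM (Sum.inr j) (algebraMap G M (X.y k)) = 0 := by
        have := X.hM.1.pd_apply (Sum.inr j) (Sum.inr k)
        rwa [if_neg (fun h => hj (Sum.inr.inj h))] at this
      rw [Derivation.smul_apply, h6, smul_zero]
    · intro hk
      exact absurd (Finset.mem_univ k) hk
  refine LinearMap.ext fun x => ?_
  rw [LinearMap.pi_apply_eq_sum_univ, LinearMap.zero_apply]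
  exact Finset.sum_eq_zero fun k _ => by
    have h7 : (f fun j => if k = j then 1 else 0) = 0 := h4 k
    rw [h7, smul_zero]

theorem exists_minor
    (hder : ∀ δ : Der M, (∀ e : C.ES, δ (algebraMap C.ES M e) = 0) → ∀ g : G, δ (algebraMap G M g) = 0)
    {a s : ℕ} (hs : a + s = C.n + 1) (X : Adapted p G M ⊤ ⊤ a s) (A₀ : Finset C.I)
    (hA₀ : LinearIndependent C.S (fun i : A₀ => C.cov i)) :
    ∃ (lam : Fin s → Fin (C.n + 1) → C.S) (J : Finset C.I), J ⊆ A₀ ∧ A₀.card ≤ J.card + a ∧
      (∀ i ∈ J, ∃ j, lam j = C.cov i) ∧ C.minor lam X ≠ 0 := by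
  classical
  -- a basis of the space of covectors containing the `cov i`, `i ∈ A₀`
  set v : C.I ⊕ Fin (C.n + 1) → (Fin (C.n + 1) → C.S) := Sum.elim C.cov (fun k => Pi.single k 1) with hv
  have hs0 : LinearIndepOn C.S v (Sum.inl '' (A₀ : Set C.I)) :=
    LinearIndepOn.image_of_comp Sum.inl v (show LinearIndepOn C.S (v ∘ Sum.inl) (A₀ : Set C.I) from hA₀)
  obtain ⟨b, -, hsb, hsp, hli⟩ := exists_linearIndepOn_extension hs0 (Set.subset_univ _)
  have hb : Submodule.span C.S (v '' b) = ⊤ := by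
    rw [eq_top_iff, ← (Pi.basisFun C.S (Fin (C.n + 1))).span_eq]
    refine Submodule.span_le.2 ?_
    rintro _ ⟨k, rfl⟩
    rw [Pi.basisFun_apply]
    exact hsp ⟨Sum.inr k, Set.mem_univ _, rfl⟩
  have hli' : LinearIndependent C.S (fun x : b => v x) := hli
  have hcardb : Fintype.card b = a + s := by
    have h1 := finrank_span_eq_card hli'
    have h2 : Set.range (fun x : b => v x) = v '' b := by
      ext x
      simp only [Set.mem_range, Set.mem_image, Subtype.exists, exists_prop]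
    rw [h2, hb, finrank_top, Module.finrank_fin_fun] at h1
    rw [← h1, hs]
  -- selection of `s` covectors
  obtain ⟨T, hTb, e, hTli⟩ := stg_select _ b (C.stg_span_top hder X v b hb)
  have hcardT : Fintype.card T = s := by
    rw [← Fintype.card_congr e, Fintype.card_fin]
  refine ⟨fun j => v (e j), A₀.filter (fun i => Sum.inl i ∈ T), Finset.filter_subset _ _, ?_, ?_, ?_⟩
  · -- counting
    have h1 : (A₀.filter (fun i => Sum.inl i ∈ T)).card + (A₀.filter (fun i => ¬ Sum.inl i ∈ T)).card = A₀.card :=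
      Finset.card_filter_add_card_filter_not _
    have h2 : (A₀.filter (fun i => ¬ (Sum.inl i : C.I ⊕ Fin (C.n + 1)) ∈ T)).card ≤ (b.toFinset \ T.toFinset).card := by
      refine Finset.card_le_card_of_injOn Sum.inl ?_ (Sum.inl_injective.injOn)
      intro i hi
      rw [Finset.mem_coe, Finset.mem_filter] at hi
      rw [Finset.mem_coe, Finset.mem_sdiff, Set.mem_toFinset, Set.mem_toFinset]
      exact ⟨hsb ⟨i, hi.1, rfl⟩, hi.2⟩
    have h3 : (b.toFinset \ T.toFinset).card = a := by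
      rw [Finset.card_sdiff_of_subset (Set.toFinset_subset_toFinset.2 hTb), Set.toFinset_card, Set.toFinset_card,
        hcardb, hcardT]
      omega
    omega
  · intro i hi
    refine ⟨e.symm ⟨Sum.inl i, (Finset.mem_filter.1 hi).2⟩, ?_⟩
    show v (e (e.symm ⟨Sum.inl i, (Finset.mem_filter.1 hi).2⟩)) = C.cov i
    rw [Equiv.apply_symm_apply]
    rfl
  · unfold minor
    have h1 : IsUnit (Matrix.of fun j k : Fin s => C.pair (v (e j)) (X.θM (Sum.inr k))) :=
      Matrix.linearIndependent_rows_iff_isUnit.1 hTli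
    exact ((Matrix.isUnit_iff_isUnit_det _).1 h1).ne_zero

theorem stg_pair_inl {OG : Subring G} {OM : Subring M} {a s : ℕ} (lam : Fin (C.n + 1) → C.S)
    (X : Adapted p G M OG OM a s) (l : Fin a) : C.pair lam (X.θM (Sum.inl l)) = 0 := by
  refine C.stg_pair_eq_zero lam _ fun f => ?_
  rw [IsScalarTower.algebraMap_apply C.ES G M f]
  exact X.θM_inl l _

theorem stg_pair_change {OG OG' : Subring G} {OM OM' : Subring M} {a s : ℕ} (lam : Fin (C.n + 1) → C.S)
    (X : Adapted p G M OG OM a s) (X' : Adapted p G M OG' OM' a s) (i : Fin s) :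
    C.pair lam (X'.θM (Sum.inr i)) =
      ∑ k, C.pair lam (X.θM (Sum.inr k)) * algebraMap G M (X'.θG (Sum.inr i) (X.y k)) := by
  have h1 : X'.θM (Sum.inr i) = ∑ κ, (X.θM.repr (X'.θM (Sum.inr i)) κ) • X.θM κ :=
    (X.θM.sum_repr _).symm
  rw [h1, C.stg_pair_sum, Fintype.sum_sum_type]
  have h2 : ∑ l : Fin a, X.θM.repr (X'.θM (Sum.inr i)) (Sum.inl l) * C.pair lam (X.θM (Sum.inl l)) = 0 :=
    Finset.sum_eq_zero fun l _ => by rw [C.stg_pair_inl, mul_zero]
  rw [h2, zero_add]
  refine Finset.sum_congr rfl fun k _ => ?_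
  have h3 : X.θM.repr (X'.θM (Sum.inr i)) (Sum.inr k) = X'.θM (Sum.inr i) (algebraMap G M (X.y k)) :=
    X.hM.1.pd_repr _ _
  rw [h3, X'.θM_inr, mul_comm]

theorem minor_local {OG OG' : Subring G} {OM OM' : Subring M} {a s : ℕ} (lam : Fin s → Fin (C.n + 1) → C.S)
    (X : Adapted p G M OG OM a s) (X' : Adapted p G M OG' OM' a s) :
    C.minor lam X' = algebraMap G M (X.mu X') * C.minor lam X := by
  unfold minor Adapted.mu
  rw [RingHom.map_det, mul_comm, ← Matrix.det_mul]
  congr 1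
  ext j i
  rw [Matrix.mul_apply, Matrix.of_apply, C.stg_pair_change (lam j) X X' i]
  rfl

theorem stg_theta_int {a s : ℕ} (Q : Place C.S M) {OG : Subring G}
    (X' : Adapted p G M OG Q.O.toSubring a s) (κ : Fin a ⊕ Fin s) (f : M) (hf : Q.v f ≤ 1) :
    Q.v (X'.θM κ f) ≤ 1 := by
  classical
  have hT : IsTBasis Q X'.θM := X'.hM.isTBasis
  refine (hT (X'.θM κ)).2 (fun k => ?_) f hf
  rw [Module.Basis.repr_self, Finsupp.single_apply]
  split_ifs <;> simp

theorem minor_int {a s : ℕ} (lam : Fin s → Fin (C.n + 1) → C.S) (Q : Place C.S M) {OG : Subring G}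
    (X' : Adapted p G M OG Q.O.toSubring a s) : Q.v (C.minor lam X') ≤ 1 := by
  unfold minor
  refine Q.v_det_le_one _ fun j k => ?_
  exact C.pair_int Q _ (C.stg_theta_int Q X' _) (lam j)

theorem minor_label {a s : ℕ} (lam : Fin s → Fin (C.n + 1) → C.S) (Q : Place C.S M) {OG : Subring G}
    (X' : Adapted p G M OG Q.O.toSubring a s) (i : C.I) (hQ : Q.Over (C.tS i)) (hp : p ∣ Q.ramIdx (C.tS i))
    (j : Fin s) (hj : lam j = C.cov i) : Q.v (C.minor lam X') ≤ exp (-(Q.ramIdx (C.tS i) : ℤ)) := by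
  classical
  obtain ⟨t, ht⟩ := Q.surj (exp (-(Q.ramIdx (C.tS i) : ℤ)))
  have ht0 : t ≠ 0 := by
    rintro rfl
    rw [map_zero] at ht
    exact exp_ne_zero ht.symm
  set N : Matrix (Fin s) (Fin s) M := Matrix.of fun j k : Fin s => C.pair (lam j) (X'.θM (Sum.inr k)) with hN
  have h1 : N = Matrix.updateRow N j (t • fun k => t⁻¹ * N j k) := by
    ext j' k
    rw [Matrix.updateRow_apply]
    split_ifs with hjj
    · subst hjj
      rw [Pi.smul_apply, smul_eq_mul, mul_inv_cancel_left₀ ht0]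
    · rfl
  have h2 : C.minor lam X' = N.det := rfl
  rw [h2, h1, Matrix.det_updateRow_smul, map_mul, ht]
  refine mul_le_of_le_one_right' (Q.v_det_le_one _ fun j' k => ?_)
  rw [Matrix.updateRow_apply]
  split_ifs with hjj
  · rw [map_mul, map_inv₀, ht]
    have h3 : Q.v (N j k) ≤ exp (-(Q.ramIdx (C.tS i) : ℤ)) := by
      rw [hN, Matrix.of_apply, hj]
      exact C.label_vanish i Q hQ hp _ (C.stg_theta_int Q X' _)
    calc (exp (-(Q.ramIdx (C.tS i) : ℤ)))⁻¹ * Q.v (N j k)
        ≤ (exp (-(Q.ramIdx (C.tS i) : ℤ)))⁻¹ * exp (-(Q.ramIdx (C.tS i) : ℤ)) := mul_le_mul_right h3 _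
      _ = 1 := inv_mul_cancel₀ exp_ne_zero
  · exact C.pair_int Q _ (C.stg_theta_int Q X' _) (lam j')

/-- `e_i · deg z_i = d` at a label -/
theorem stg_ram_deg (z : Place C.S M) (i : C.I) (hz : z.Over (C.tS i)) :
    z.ramIdx (C.tS i) * z.deg = Module.finrank C.ES M := by
  have h1 := sum_ramIdx_mul_deg (M' := M) (C.tS i)
  rw [C.tS_deg, mul_one] at h1
  rw [← h1]
  symm
  refine finsum_eq_single _ z fun Q hQ => ?_
  rw [Place.ramIdx_eq_zero, zero_mul]
  intro hQ'
  exact hQ (Place.over_unique_of_purelyInseparable hQ' hz)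

/-- a ramified label is wildly ramified -/
theorem stg_p_dvd_ram (z : Place C.S M) (i : C.I) (hz : z.Over (C.tS i))
    (hlt : z.deg < Module.finrank C.ES M) : p ∣ z.ramIdx (C.tS i) := by
  have : ExpChar C.ES p := ExpChar.prime Fact.out
  obtain ⟨k, hk⟩ := IsPurelyInseparable.finrank_eq_pow (F := C.ES) M p
  have h1 := C.stg_ram_deg z i hz
  have h2 : z.ramIdx (C.tS i) ∣ p ^ k := by
    rw [← hk, ← h1]
    exact dvd_mul_right _ _
  obtain ⟨j, -, hje⟩ := (Nat.dvd_prime_pow Fact.out).1 h2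
  rcases Nat.eq_zero_or_pos j with rfl | hj0
  · rw [pow_zero] at hje
    rw [hje, one_mul] at h1
    omega
  · rw [hje]
    exact dvd_pow_self p hj0.ne'

/-- **the degree bound** `b° ≥ d (|A| - h - a)` -/
theorem muSum_ge (hpow : ∀ x : M, ∃ g : G, algebraMap G M g = x ^ p)
    (hder : ∀ δ : Der M, (∀ e : C.ES, δ (algebraMap C.ES M e) = 0) → ∀ g : G, δ (algebraMap G M g) = 0)
    {a s : ℕ} (ha : Module.finrank G M = p ^ a) (hs : a + s = C.n + 1) (hM : AbsDet C.S M) (hG : AbsDet C.S G)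
    (X : Adapted p G M ⊤ ⊤ a s) (XQ : LocAdapted p C.S G M a s) (z : C.I → Place C.S M)
    (hz : ∀ i, (z i).Over (C.tS i)) :
    (Module.finrank C.ES M : ℤ) *
      (((Finset.univ.filter fun i => (z i).deg < Module.finrank C.ES M).card : ℤ) - h - a) ≤ muSum X XQ := by
  classical
  set d := Module.finrank C.ES M with hd
  set A : Finset C.I := Finset.univ.filter fun i => (z i).deg < d with hA
  obtain ⟨A₀, hA₀A, hc1, hli⟩ := C.exists_indep A
  obtain ⟨lam, J, hJ, hc2, hlam, hE⟩ := C.exists_minor hder hs X A₀ hli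
  have hloc : ∀ Q : Place C.S M,
      C.minor lam (XQ Q) = algebraMap G M (X.mu (XQ Q)) * C.minor lam X :=
    fun Q => C.minor_local lam X (XQ Q)
  have hmu : ∀ Q : Place C.S M, algebraMap G M (X.mu (XQ Q)) ≠ 0 := fun Q => X.mu_ne_zero _
  have hEQ : ∀ Q : Place C.S M, C.minor lam (XQ Q) ≠ 0 := fun Q => by
    rw [hloc]
    exact mul_ne_zero (hmu Q) hE
  have hord : ∀ Q : Place C.S M, Q.ord (C.minor lam (XQ Q)) =
      Q.ord (algebraMap G M (X.mu (XQ Q))) + Q.ord (C.minor lam X) := fun Q => by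
    rw [hloc, Place.ord_mul _ (hmu Q) hE]
  have f2 := (kap_heightOne hpow ha X XQ (hM.finite _) (hG.finite _)).2.1
  have s2 : Function.HasFiniteSupport
      (fun Q : Place C.S M => Q.ord (algebraMap G M (X.mu (XQ Q))) * (Q.deg : ℤ)) := by
    refine f2.subset fun Q hQ h0 => hQ ?_
    show Q.ord (algebraMap G M (X.mu (XQ Q))) * (Q.deg : ℤ) = 0
    rw [h0, zero_mul]
  have s3 : Function.HasFiniteSupport
      (fun Q : Place C.S M => Q.ord (C.minor lam X) * (Q.deg : ℤ)) := by
    refine (finite_setOf_v_ne_one hE).subset fun Q hQ h1 => hQ ?_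
    show Q.ord (C.minor lam X) * (Q.deg : ℤ) = 0
    rw [ord_eq_zero_of_v_eq_one h1, zero_mul]
  have hfun : (fun Q : Place C.S M => Q.ord (C.minor lam (XQ Q)) * (Q.deg : ℤ)) =
      fun Q : Place C.S M => Q.ord (algebraMap G M (X.mu (XQ Q))) * (Q.deg : ℤ) +
        Q.ord (C.minor lam X) * (Q.deg : ℤ) := by
    funext Q
    rw [hord, add_mul]
  have hsum : muSum X XQ = ∑ᶠ Q : Place C.S M, Q.ord (C.minor lam (XQ Q)) * (Q.deg : ℤ) := by
    have h0 := finsum_ord_mul_deg (k := C.S) hE
    have h1 := finsum_add_distrib s2 s3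
    rw [h0, add_zero] at h1
    rw [hfun, h1]
    rfl
  have s4 : Function.HasFiniteSupport
      (fun Q : Place C.S M => Q.ord (C.minor lam (XQ Q)) * (Q.deg : ℤ)) := by
    rw [hfun]
    exact s2.add s3
  rw [hsum]
  have hnn : ∀ Q : Place C.S M, 0 ≤ Q.ord (C.minor lam (XQ Q)) * (Q.deg : ℤ) := fun Q =>
    mul_nonneg ((Q.v_le_one_iff (hEQ Q)).1 (C.minor_int lam Q (XQ Q))) (Nat.cast_nonneg _)
  have hzinj : Function.Injective z := fun i j hij =>
    C.tS_inj ((hz i).unique (hij ▸ hz j))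
  have hge : ∑ i ∈ J, (z i).ord (C.minor lam (XQ (z i))) * ((z i).deg : ℤ) ≤
      ∑ᶠ Q : Place C.S M, Q.ord (C.minor lam (XQ Q)) * (Q.deg : ℤ) := by
    rw [finsum_eq_sum_of_support_subset _ (s := s4.toFinset ∪ J.image z)
      (fun Q hQ => by
        rw [Finset.coe_union]
        exact Or.inl ((Set.Finite.mem_toFinset _).2 hQ)),
      ← Finset.sum_image (f := fun Q : Place C.S M => Q.ord (C.minor lam (XQ Q)) * (Q.deg : ℤ))
        hzinj.injOn]
    exact Finset.sum_le_sum_of_subset_of_nonneg Finset.subset_union_right fun Q _ _ => hnn Q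
  have hterm : ∀ i ∈ J, (d : ℤ) ≤ (z i).ord (C.minor lam (XQ (z i))) * ((z i).deg : ℤ) := by
    intro i hi
    have hlt : (z i).deg < d := (Finset.mem_filter.1 (hA₀A (hJ hi))).2
    have hp := C.stg_p_dvd_ram (z i) i (hz i) hlt
    obtain ⟨j, hj⟩ := hlam i hi
    have h1 := C.minor_label lam (z i) (XQ (z i)) i (hz i) hp j hj
    rw [Place.v_le_exp_iff _ (hEQ _), neg_neg] at h1
    have h2 := C.stg_ram_deg (z i) i (hz i)
    calc (d : ℤ) = ((z i).ramIdx (C.tS i) : ℤ) * ((z i).deg : ℤ) := by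
          rw [hd, ← h2, Nat.cast_mul]
      _ ≤ _ := mul_le_mul_of_nonneg_right h1 (Nat.cast_nonneg _)
  have hJd : (J.card : ℤ) * d ≤
      ∑ i ∈ J, (z i).ord (C.minor lam (XQ (z i))) * ((z i).deg : ℤ) := by
    have := Finset.card_nsmul_le_sum J _ (d : ℤ) hterm
    rwa [nsmul_eq_mul] at this
  have hcard : (A.card : ℤ) - h - a ≤ J.card := by
    have : A.card ≤ J.card + a + h := by omega
    omega
  calc (d : ℤ) * ((A.card : ℤ) - h - a) ≤ d * J.card :=
        mul_le_mul_of_nonneg_left hcard (Nat.cast_nonneg _)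
    _ = J.card * d := mul_comm _ _
    _ ≤ _ := hJd.trans hge

/-- **one stage of the Frobenius tower** -/
theorem stage (hpow : ∀ x : M, ∃ g : G, algebraMap G M g = x ^ p)
    (hder : ∀ δ : Der M, (∀ e : C.ES, δ (algebraMap C.ES M e) = 0) → ∀ g : G, δ (algebraMap G M g) = 0)
    {a : ℕ} (ha : Module.finrank G M = p ^ a) (z : C.I → Place C.S M) (hz : ∀ i, (z i).Over (C.tS i)) :
    (p ^ a : ℤ) * nu C.S G + ((p : ℤ) - 1) * ((Module.finrank C.ES M : ℤ) *
      (((Finset.univ.filter fun i => (z i).deg < Module.finrank C.ES M).card : ℤ) - h - a)) ≤ p * nu C.S M := by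
  have hM := absDet_cover C M
  have hG := absDet_cover C G
  have hle : a ≤ C.n + 1 := le_of_hasPDeg hpow ha (hasPDeg_of_isFF C.S C.hasPDeg)
  obtain ⟨s, hs⟩ := Nat.exists_eq_add_of_le hle
  have hG' : HasPDeg p G (a + s) := hs ▸ hasPDeg_of_isFF C.S C.hasPDeg
  obtain ⟨X⟩ := exists_adapted_field hpow ha hG'
  have XQ : LocAdapted p C.S G M a s := fun Q =>
    (exists_adapted_place C.hasPDeg hpow ha hs.symm (Q.over_belowP G)).some
  rw [heightOne_rec hpow ha hM hG X XQ]
  have h2 := C.muSum_ge hpow hder ha hs.symm hM hG X XQ z hz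
  have hp1 : (0 : ℤ) ≤ (p : ℤ) - 1 := by
    have := (Fact.out : p.Prime).one_lt
    omega
  have := mul_le_mul_of_nonneg_left h2 hp1
  linarith

end InsData

end Claimed.Agent.R280
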