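import Claimed.Agent.R280.Ins.Descent

/-!
# Row 280, package Ins: the abstract inseparable genus estimate (TOP statement)

CHAIN of [D]:   D0 PBasis → D1 LocP → D2 Kappa → D3a HeightOne → D3b Cartier → D3c AbsDetThm (Theorem A: `ν = κ`)
                → D4a Coord → D4b Stage → D5 Tower (`approx_main`) → D6 Descent → `ins_main` (proved here).
Everything rests on FF/Main.lean only (FF1-FF5, FF7); no sheaves, no Kähler differentials, no duality, no smoothness.
-/

set_option autoImplicit false

namespace Claimed.Agent.R280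

/-- **[D] Theorem 5.1, abstract form.** -/
theorem ins_main (p : ℕ) [Fact p.Prime] (m h : ℕ) (C : InsData p m h) : InsepGenus C.F C.EE C.t m := by
  intro MM _ _ _ _ _ _ hd z hz
  obtain ⟨X⟩ := C.nonempty_baseChg MM
  have hex : ∀ i, ∃ Q : Place C.S X.MS, Q.Over (C.tS i) := fun i => Place.exists_over _
  choose zS hzS using hex
  have h1 := C.approx_main X.MS zS hzS
  rw [X.deg_eq] at h1
  have : IsFF C.F MM := by
    first | exact isFF_of_finite C.F C.EE MM | exact isFF_of_finite C.F MM
  have h2 : nu C.S X.MS = nu C.F MM := by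
    unfold nu
    rw [chi_constExt X.po]
  rw [h2, C.sum_labels X z hz zS hzS] at h1
  obtain ⟨c, hc⟩ := dvd_sub (C.dvd_nu MM) (C.dvd_sum z hz)
  have hp2 : 2 ≤ p := (Fact.out : p.Prime).two_le
  have hlog : Nat.log p (Module.finrank C.EE MM) ≤ Nat.log p m := Nat.log_mono_right hd
  have hle : Module.finrank C.EE MM * (h + Nat.log p (Module.finrank C.EE MM)) ≤ m * (h + Nat.log p m) :=
    Nat.mul_le_mul hd (by omega)
  have hN : ((Module.finrank C.EE MM * (h + Nat.log p (Module.finrank C.EE MM)) : ℕ) : ℤ) < (C.N : ℤ) := by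
    exact_mod_cast lt_of_le_of_lt hle C.N_large
  push_cast at hN
  have hNpos : (0 : ℤ) < (C.N : ℤ) := lt_of_le_of_lt (by positivity) hN
  have hc0 : 0 ≤ c := by
    by_contra hneg
    have hc1 : c ≤ -1 := by omega
    have : (C.N : ℤ) * c ≤ (C.N : ℤ) * (-1) := mul_le_mul_of_nonneg_left hc1 hNpos.le
    linarith
  have : 0 ≤ (C.N : ℤ) * c := mul_nonneg hNpos.le hc0
  linarith

end Claimed.Agent.R280
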