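import Claimed.Agent.R280.Ins.Stage

/-!
# Row 280, Ins package D5 `Tower`: the Frobenius tower and the weighted estimate  ([D] §5.4, (5.12)-(5.16))

RESULT (`approx_main`): for `M/ES` purely inseparable of degree `d`, `z i` the place over the label `tS i`:
`∑_i (d - deg z_i) - d (h + log_p d) ≤ ν(M/S)`      (`deg z_i = d / r_i`).

Instead of summing the weights `p^{-j}(1 - 1/p)` we do STRONG INDUCTION on `d` with `G = ES·M^p` (`frobStep`), in integers:
`IH(G)`, `stage`, `q g_i ≤ p m_i` (local index `≤ p`), `g_i ≤ d_G`, `m_i ≤ d_M`  ⟹  the claim for `M` (`tower_arith`).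

PLAN.
* `frobStep_der`: `{x | δ x = 0}` is a subfield containing `ES` and all `x^p` (`IntermediateField.adjoin_induction` or `adjoin_le_iff` for the intermediate field with that carrier).
* `frobStep_lt`: if `ES·M^p = M` then `ES·M^{p^j} = M` for all `j`, but `M^{p^j} ⊆ ES` for large `j` (`IsPurelyInseparable`, finite).
* `finrank_pow`: `IsPurelyInseparable.finrank_eq_pow`-type lemma of Mathlib (or `exists_index_p` + induction).
* `deg_le`: `e · deg z = d · deg (tS i) = d` (`sum_ramIdx_mul_deg`, `Place.over_unique_of_purelyInseparable`, `tS_deg`).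
* `mul_deg_le`: `ramIdx_mul_deg_of_pow`, `ramIdx_dvd_of_pow` (`e ≤ p`).
* `approx_base`: `d = 1`: `algebraMap` bijective, `ν(M) = ν(ES) = 0` (`chi_eq_of_frames` with the basis `{1}`, or transport), `deg z_i ≥ 1`.
* `tower_arith`: see the proof sketch at the lemma.
* `approx_aux`, `approx_main`: PROVED below.
~900 lines.   Owner of the statements: helper66.
-/

set_option autoImplicit false

namespace Claimed.Agent.R280

open WithZero

/-- pure arithmetic.  `p·LHS_M ≤ ∑ (d_M - q g_i) + (p-1) d_M |A| - p d_M (h+k)` termwise, `q·IH`, and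
`(h + k - a) + (p-1)(h + a) = p h + k + (p-2) a ≤ p (h + k)`. -/
theorem tower_arith {I : Type} [Fintype I] (p a k h : ℕ) (hp : 2 ≤ p) (hak : a ≤ k) (g mm : I → ℕ) (νG νM : ℤ)
    (hg : ∀ i, g i ≤ p ^ (k - a)) (hm : ∀ i, mm i ≤ p ^ k) (hgm : ∀ i, p ^ a * g i ≤ p * mm i)
    (IH : ∑ i, ((p ^ (k - a) : ℕ) - (g i : ℤ)) - (p ^ (k - a) : ℕ) * ((h : ℤ) + ((k - a : ℕ) : ℤ)) ≤ νG)
    (st : (p ^ a : ℤ) * νG + ((p : ℤ) - 1) * (((p ^ k : ℕ) : ℤ) *
      (((Finset.univ.filter fun i => mm i < p ^ k).card : ℤ) - h - a)) ≤ p * νM) :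
    ∑ i, (((p ^ k : ℕ) : ℤ) - (mm i : ℤ)) - ((p ^ k : ℕ) : ℤ) * ((h : ℤ) + (k : ℤ)) ≤ νM := by
  have hpZ : (2 : ℤ) ≤ (p : ℤ) := by exact_mod_cast hp
  obtain ⟨D, hD⟩ : ∃ D : ℤ, D = ((p ^ k : ℕ) : ℤ) := ⟨_, rfl⟩
  obtain ⟨q, hq⟩ : ∃ q : ℤ, q = (p ^ a : ℤ) := ⟨_, rfl⟩
  obtain ⟨D', hD'⟩ : ∃ D' : ℤ, D' = ((p ^ (k - a) : ℕ) : ℤ) := ⟨_, rfl⟩
  have hqD : q * D' = D := by
    rw [hq, hD', hD]
    push_cast
    rw [← pow_add]
    congr 1
    omega
  have hD0 : 0 ≤ D := by rw [hD]; positivity
  have hq0 : 0 ≤ q := by rw [hq]; positivity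
  have hka : ((k - a : ℕ) : ℤ) = (k : ℤ) - (a : ℤ) := by push_cast [hak]; ring
  rw [← hD', hka] at IH
  rw [← hD, ← hq] at st
  rw [← hD]
  have hcard : ((Finset.univ.filter fun i => mm i < p ^ k).card : ℤ) =
      ∑ i, (if mm i < p ^ k then (1 : ℤ) else 0) := by
    rw [Finset.card_filter]
    push_cast
    rfl
  have hterm : ∀ i, (p : ℤ) * (D - (mm i : ℤ)) ≤
      (D - q * (g i : ℤ)) + ((p : ℤ) - 1) * D * (if mm i < p ^ k then (1 : ℤ) else 0) := by
    intro i
    have h1 : q * (g i : ℤ) ≤ (p : ℤ) * (mm i : ℤ) := by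
      rw [hq]; exact_mod_cast hgm i
    have h2 : q * (g i : ℤ) ≤ D := by
      rw [← hqD]
      apply mul_le_mul_of_nonneg_left _ hq0
      rw [hD']; exact_mod_cast hg i
    by_cases hi : mm i < p ^ k
    · rw [if_pos hi]
      nlinarith
    · rw [if_neg hi]
      have h3 : mm i = p ^ k := le_antisymm (hm i) (not_lt.1 hi)
      have h4 : (mm i : ℤ) = D := by rw [hD, h3]
      rw [h4]
      linarith
  have hsum := Finset.sum_le_sum (fun i (_ : i ∈ Finset.univ) => hterm i)
  rw [← Finset.mul_sum, Finset.sum_add_distrib, ← Finset.mul_sum, ← hcard] at hsum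
  have hIH : ∑ i, (D - q * (g i : ℤ)) = q * ∑ i, (D' - (g i : ℤ)) := by
    rw [Finset.mul_sum]
    refine Finset.sum_congr rfl fun i _ => ?_
    rw [mul_sub, hqD]
  rw [hIH] at hsum
  set SG := ∑ i, (D' - (g i : ℤ)) with hSG
  set SM := ∑ i, (D - (mm i : ℤ)) with hSM
  set cA := ((Finset.univ.filter fun i => mm i < p ^ k).card : ℤ) with hcA
  have h5 : q * (SG - D' * ((h : ℤ) + ((k : ℤ) - (a : ℤ)))) ≤ q * νG := mul_le_mul_of_nonneg_left IH hq0
  have h6 : q * (SG - D' * ((h : ℤ) + ((k : ℤ) - (a : ℤ)))) = q * SG - D * ((h : ℤ) + ((k : ℤ) - (a : ℤ))) := by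
    rw [mul_sub, ← mul_assoc, hqD]
  rw [h6] at h5
  have hakZ : (a : ℤ) ≤ (k : ℤ) := by exact_mod_cast hak
  have ha0 : (0 : ℤ) ≤ (a : ℤ) := Nat.cast_nonneg a
  have h7 : ((p : ℤ) - 2) * (a : ℤ) ≤ ((p : ℤ) - 1) * (k : ℤ) := by nlinarith
  have h8 : D * (((p : ℤ) - 2) * (a : ℤ)) ≤ D * (((p : ℤ) - 1) * (k : ℤ)) := mul_le_mul_of_nonneg_left h7 hD0
  have h9 : (p : ℤ) * (SM - D * ((h : ℤ) + (k : ℤ))) ≤ (p : ℤ) * νM := by nlinarith
  exact le_of_mul_le_mul_left h9 (by linarith)

/-- if `K·L^p = L` then `K·L^{p^j} = L` for all `j` -/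
theorem adjoin_pow_pow_eq_top {K L : Type} [Field K] [Field L] [Algebra K L] (p : ℕ) [Fact p.Prime] [CharP L p]
    (h : IntermediateField.adjoin K (Set.range fun x : L => x ^ p) = ⊤) (j : ℕ) :
    IntermediateField.adjoin K (Set.range fun x : L => x ^ p ^ j) = ⊤ := by
  induction j with
  | zero =>
    rw [eq_top_iff]
    intro x _
    exact IntermediateField.subset_adjoin _ _ ⟨x, by simp⟩
  | succ j ih =>
    rw [eq_top_iff, ← h, IntermediateField.adjoin_le_iff]
    rintro _ ⟨y, rfl⟩
    have hy : y ∈ IntermediateField.adjoin K (Set.range fun x : L => x ^ p ^ j) := by rw [ih]; trivial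
    show y ^ p ∈ IntermediateField.adjoin K (Set.range fun x : L => x ^ p ^ (j + 1))
    induction hy using IntermediateField.adjoin_induction with
    | mem x hx =>
      obtain ⟨w, rfl⟩ := hx
      exact IntermediateField.subset_adjoin _ _ ⟨w, by simp only [pow_succ, pow_mul]⟩
    | algebraMap e =>
      rw [← map_pow]
      exact IntermediateField.algebraMap_mem _ _
    | add x y _ _ hx hy =>
      rw [add_pow_char]
      exact add_mem hx hy
    | inv x _ hx =>
      rw [inv_pow]
      exact inv_mem hx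
    | mul x y _ _ hx hy =>
      rw [mul_pow]
      exact mul_mem hx hy

namespace InsData

variable {p : ℕ} [Fact p.Prime] {m h : ℕ} (C : InsData p m h) (M : Type) [Field M] [Algebra C.S M] [Algebra C.ES M]
  [IsScalarTower C.S C.ES M] [Module.Finite C.ES M] [IsPurelyInseparable C.ES M]

/-- `ES · M^p` -/
def frobStep : IntermediateField C.ES M := IntermediateField.adjoin C.ES (Set.range fun x : M => x ^ p)

omit [Module.Finite C.ES M] [IsPurelyInseparable C.ES M] in
instance frobStep_tower : IsScalarTower C.S (C.frobStep M) M := IsScalarTower.of_algebraMap_eq fun _ => rfl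

omit [Algebra C.S M] [IsScalarTower C.S C.ES M] [Module.Finite C.ES M] [IsPurelyInseparable C.ES M] in
theorem frobStep_pow (x : M) : ∃ g : C.frobStep M, algebraMap (C.frobStep M) M g = x ^ p :=
  ⟨⟨x ^ p, IntermediateField.subset_adjoin _ _ ⟨x, rfl⟩⟩, rfl⟩

omit [Algebra C.S M] [IsScalarTower C.S C.ES M] [Module.Finite C.ES M] [IsPurelyInseparable C.ES M] in
theorem frobStep_der (δ : Der M) (hδ : ∀ e : C.ES, δ (algebraMap C.ES M e) = 0) (g : C.frobStep M) :
    δ (algebraMap (C.frobStep M) M g) = 0 := by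
  have : CharP C.ES p := charP_of_injective_algebraMap (algebraMap C.S C.ES).injective p
  have : CharP M p := charP_of_injective_algebraMap (algebraMap C.ES M).injective p
  obtain ⟨x, hx⟩ := g
  show δ x = 0
  unfold frobStep at hx
  induction hx using IntermediateField.adjoin_induction with
  | mem x hx =>
    obtain ⟨y, rfl⟩ := hx
    show δ (y ^ p) = 0
    rw [Derivation.leibniz_pow, nsmul_eq_mul, CharP.cast_eq_zero, zero_mul]
  | algebraMap e => exact hδ e
  | add x y _ _ hx hy => rw [map_add, hx, hy, add_zero]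
  | inv x _ hx => rw [Derivation.leibniz_inv, hx, smul_zero]
  | mul x y _ _ hx hy => rw [Derivation.leibniz, hx, hy, smul_zero, smul_zero, add_zero]

omit [Algebra C.S M] [IsScalarTower C.S C.ES M] in
theorem frobStep_lt (h1 : 1 < Module.finrank C.ES M) :
    Module.finrank C.ES (C.frobStep M) < Module.finrank C.ES M := by
  have : CharP C.ES p := charP_of_injective_algebraMap (algebraMap C.S C.ES).injective p
  have : CharP M p := charP_of_injective_algebraMap (algebraMap C.ES M).injective p
  have : ExpChar C.ES p := ExpChar.prime (Fact.out : p.Prime)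
  by_contra hge
  have htop : C.frobStep M = ⊤ :=
    IntermediateField.eq_of_le_of_finrank_le le_top (by rw [IntermediateField.finrank_top']; exact not_lt.1 hge)
  have h2 := adjoin_pow_pow_eq_top p htop (IsPurelyInseparable.exponent C.ES M)
  have h3 : IntermediateField.adjoin C.ES
      (Set.range fun x : M => x ^ p ^ IsPurelyInseparable.exponent C.ES M) ≤ ⊥ := by
    rw [IntermediateField.adjoin_le_iff]
    rintro _ ⟨x, rfl⟩
    obtain ⟨e, he⟩ := IsPurelyInseparable.exponent_def' C.ES p x
    exact IntermediateField.mem_bot.2 ⟨e, he⟩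
  rw [h2, top_le_iff] at h3
  have h4 := IntermediateField.bot_eq_top_iff_finrank_eq_one.1 h3
  omega

omit [Algebra C.S M] [IsScalarTower C.S C.ES M] in
theorem finrank_pow : ∃ k : ℕ, Module.finrank C.ES M = p ^ k := by
  have : CharP C.ES p := charP_of_injective_algebraMap (algebraMap C.S C.ES).injective p
  have : ExpChar C.ES p := ExpChar.prime (Fact.out : p.Prime)
  exact IsPurelyInseparable.finrank_eq_pow C.ES M p

theorem isFF_cover : IsFF C.S M := by
  first | exact isFF_of_finite C.S C.ES M | exact isFF_of_finite C.S M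

include C in
omit [Algebra C.ES M] [IsScalarTower C.S C.ES M] [Module.Finite C.ES M] [IsPurelyInseparable C.ES M] in
theorem charP_cover : CharP M p := charP_of_injective_algebraMap (algebraMap C.S M).injective p

variable {M}

theorem ramIdx_mul_deg_label (z : Place C.S M) (i : C.I) (hz : z.Over (C.tS i)) :
    z.ramIdx (C.tS i) * z.deg = Module.finrank C.ES M := by
  have h1 := sum_ramIdx_mul_deg (M' := M) (C.tS i)
  rw [C.tS_deg, mul_one, finsum_eq_single _ z] at h1
  · exact h1
  · intro Q hQ
    rw [Place.ramIdx_eq_zero, zero_mul]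
    intro hQ'
    exact hQ (Place.over_unique_of_purelyInseparable hQ' hz)

theorem deg_le (z : Place C.S M) (i : C.I) (hz : z.Over (C.tS i)) : z.deg ≤ Module.finrank C.ES M := by
  rw [← C.ramIdx_mul_deg_label z i hz]
  exact Nat.le_mul_of_pos_left _ hz.ramIdx_pos

theorem approx_base (h1 : Module.finrank C.ES M = 1) (z : C.I → Place C.S M) (hz : ∀ i, (z i).Over (C.tS i)) :
    ∑ i, ((1 : ℤ) - ((z i).deg : ℤ)) ≤ nu C.S M := by
  have := C.isFF_cover M
  let b : Module.Basis Unit C.ES M := FiniteDimensional.basisSingleton Unit h1 1 one_ne_zero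
  have hb : ∀ x : M, x = algebraMap C.ES M (b.repr x ()) := by
    intro x
    conv_lhs => rw [← b.sum_repr x]
    rw [Fintype.sum_unique, Algebra.smul_def]
    have : b default = 1 := FiniteDimensional.basisSingleton_apply Unit h1 1 one_ne_zero default
    rw [this, mul_one]
  have hInt : ∀ P : Place C.S C.ES, IsIntBasis P b := by
    intro P x
    constructor
    · intro hx i
      obtain ⟨Q, hQ⟩ := Place.exists_over (M' := M) P
      have h2 := hx Q hQ
      rw [hb x, hQ.v_le_one_iff] at h2
      exact h2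
    · intro hx Q hQ
      rw [hb x, hQ.v_le_one_iff]
      exact hx ()
  have hchi := chi_eq_of_frames b (fun _ => b) hInt
  have h0 : ∀ P : Place C.S C.ES, P.ord (b.toMatrix b).det * (P.deg : ℤ) = 0 := by
    intro P
    rw [Module.Basis.toMatrix_self, Matrix.det_one]
    simp [Place.ord]
  simp only [h0, finsum_zero, C.chi0, mul_zero, sub_zero] at hchi
  have hnu : nu C.S M = 0 := by unfold nu; rw [hchi, mul_zero]
  rw [hnu]
  apply Finset.sum_nonpos
  intro i _
  have : (1 : ℤ) ≤ ((z i).deg : ℤ) := by exact_mod_cast (z i).deg_pos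
  linarith

end InsData

/-- local index `≤ p` in degrees -/
theorem mul_deg_le {p : ℕ} [Fact p.Prime] {S G M : Type} [Field S] [Field G] [Field M] [Algebra S G] [Algebra S M]
    [Algebra G M] [IsScalarTower S G M] [CharP S p] [IsFF S G] [Module.Finite G M]
    (hpow : ∀ x : M, ∃ g : G, algebraMap G M g = x ^ p) {Q : Place S M} {Q' : Place S G} (hQ : Q.Over Q') :
    Module.finrank G M * Q'.deg ≤ p * Q.deg := by
  have : CharP G p := charP_of_injective_algebraMap (algebraMap S G).injective p
  have : CharP M p := charP_of_injective_algebraMap (algebraMap S M).injective p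
  have : IsFF S M := isFF_of_finite S G M
  rw [← ramIdx_mul_deg_of_pow hpow hQ]
  exact Nat.mul_le_mul_right _ (Nat.le_of_dvd (Fact.out : p.Prime).pos (ramIdx_dvd_of_pow hpow hQ))

/-- transitivity of `Over` downwards: if `Q` lies over `P` (in `E`) then the place of `G` below `Q` lies over `P` -/
theorem Place.belowP_over {S E G M : Type} [Field S] [Field E] [Field G] [Field M] [Algebra S E] [Algebra S G]
    [Algebra S M] [Algebra E G] [Algebra E M] [Algebra G M] [IsScalarTower S E G] [IsScalarTower S G M]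
    [IsScalarTower E G M] [IsFF S E] [IsFF S G] [Module.Finite E G] [Module.Finite G M] {Q : Place S M} {P : Place S E}
    (h : Q.Over P) : (Q.belowP G).Over P := by
  obtain ⟨P', hP', -⟩ := Place.existsUnique_below (M := E) (Q.belowP G)
  have h1 : Q.Over P' := (Q.over_belowP G).trans hP'
  rw [h.unique h1]
  exact hP'

namespace InsData

variable {p : ℕ} [Fact p.Prime] {m h : ℕ} (C : InsData p m h)

theorem approx_aux (d : ℕ) : ∀ (M : Type) [Field M] [Algebra C.S M] [Algebra C.ES M] [IsScalarTower C.S C.ES M]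
    [Module.Finite C.ES M] [IsPurelyInseparable C.ES M], Module.finrank C.ES M = d →
    ∀ z : C.I → Place C.S M, (∀ i, (z i).Over (C.tS i)) →
      ∑ i, ((Module.finrank C.ES M : ℤ) - ((z i).deg : ℤ)) -
        (Module.finrank C.ES M : ℤ) * ((h : ℤ) + (Nat.log p (Module.finrank C.ES M) : ℤ)) ≤ nu C.S M := by
  induction d using Nat.strong_induction_on with
  | _ d ih =>
    intro M _ _ _ _ _ _ hd z hz
    have hp2 : 2 ≤ p := (Fact.out : p.Prime).two_le
    have hdpos : 0 < Module.finrank C.ES M := Module.finrank_pos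
    by_cases h1 : Module.finrank C.ES M = 1
    · have hb := C.approx_base h1 z hz
      rw [h1]
      have : (0 : ℤ) ≤ ((1 : ℕ) : ℤ) * ((h : ℤ) + (Nat.log p 1 : ℤ)) := by positivity
      push_cast at this ⊢
      linarith
    · have h1' : 1 < Module.finrank C.ES M := by omega
      have := C.isFF_cover M
      have := C.charP_cover M
      have := C.isFF_cover (C.frobStep M)
      have := C.charP_cover (C.frobStep M)
      have hlt := C.frobStep_lt M h1'
      obtain ⟨k, hk⟩ := C.finrank_pow M
      obtain ⟨k', hk'⟩ := C.finrank_pow (C.frobStep M)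
      have hmul : Module.finrank C.ES (C.frobStep M) * Module.finrank (C.frobStep M) M = Module.finrank C.ES M :=
        Module.finrank_mul_finrank _ _ _
      have hkk : k' ≤ k := by
        rw [hk, hk'] at hlt
        exact ((Nat.pow_lt_pow_iff_right (by omega)).1 hlt).le
      have ha : Module.finrank (C.frobStep M) M = p ^ (k - k') := by
        rw [hk, hk'] at hmul
        have h3 : p ^ k' * p ^ (k - k') = p ^ k := by rw [← pow_add]; congr 1; omega
        exact Nat.eq_of_mul_eq_mul_left (by positivity) (hmul.trans h3.symm)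
      have IH := ih _ (hd ▸ hlt) (C.frobStep M) rfl (fun i => (z i).belowP (C.frobStep M))
        (fun i => Place.belowP_over (hz i))
      have st := C.stage (G := C.frobStep M) (M := M) (C.frobStep_pow M) (C.frobStep_der M) ha z hz
      have hlog : Nat.log p (p ^ k) = k := Nat.log_pow (by omega) k
      have hlog' : Nat.log p (p ^ k') = k' := Nat.log_pow (by omega) k'
      have hkk' : k - (k - k') = k' := by omega
      rw [hk, hlog]
      rw [hk', hlog'] at IH
      rw [hk] at st
      refine tower_arith p (k - k') k h hp2 (Nat.sub_le _ _) (fun i => ((z i).belowP (C.frobStep M)).deg)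
        (fun i => (z i).deg) (nu C.S (C.frobStep M)) (nu C.S M) ?_ ?_ ?_ ?_ ?_
      · intro i
        rw [hkk', ← hk']
        exact C.deg_le _ i (Place.belowP_over (hz i))
      · intro i
        rw [← hk]
        exact C.deg_le _ i (hz i)
      · intro i
        rw [← ha]
        exact mul_deg_le (C.frobStep_pow M) ((z i).over_belowP _)
      · rw [hkk']
        exact IH
      · exact_mod_cast st

/-- **the approximate estimate** ([D] (5.16)) -/
theorem approx_main (M : Type) [Field M] [Algebra C.S M] [Algebra C.ES M] [IsScalarTower C.S C.ES M]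
    [Module.Finite C.ES M] [IsPurelyInseparable C.ES M] (z : C.I → Place C.S M) (hz : ∀ i, (z i).Over (C.tS i)) :
    ∑ i, ((Module.finrank C.ES M : ℤ) - ((z i).deg : ℤ)) -
      (Module.finrank C.ES M : ℤ) * ((h : ℤ) + (Nat.log p (Module.finrank C.ES M) : ℤ)) ≤ nu C.S M :=
  C.approx_aux _ M rfl z hz

end InsData

end Claimed.Agent.R280
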